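import Crest.Agent.N265.K.Ring
import Crest.Agent.N265.G.Push

-- ▼ part N265/K/Act0
section

/-! # Task K4, part 0 (helper1): matrices acting on tuples, the condition `Bun.Act` -/

set_option autoImplicit false
noncomputable section
open MvPolynomial Module

namespace Crest.Agent.N265
open Bun GM
variable {X Y Z : Spc}

section mv
variable {N N' : Type} [AddCommGroup N] [Module R N] [AddCommGroup N'] [Module R N']
  {ι κ μ : Type} [Fintype ι] [Fintype κ]

/-- a matrix acts on tuples -/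
def mv (Φ : Matrix κ ι R) (u : ι → N) : κ → N := fun j => ∑ i, Φ j i • u i

omit [Fintype κ] in
lemma mv_apply (Φ : Matrix κ ι R) (u : ι → N) (j : κ) : mv Φ u j = ∑ i, Φ j i • u i := rfl
lemma mv_mul (Ψ : Matrix μ κ R) (Φ : Matrix κ ι R) (u : ι → N) :
    mv (Ψ * Φ) u = mv Ψ (mv Φ u) := by
  funext l
  simp only [mv_apply, Matrix.mul_apply, Finset.sum_smul, Finset.smul_sum, mul_smul]
  exact Finset.sum_comm
omit [Fintype κ] in
lemma mv_add (Φ Ψ : Matrix κ ι R) (u : ι → N) : mv (Φ + Ψ) u = mv Φ u + mv Ψ u := by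
  funext l
  simp only [mv_apply, Matrix.add_apply, add_smul, Finset.sum_add_distrib, Pi.add_apply]
omit [Fintype κ] in
lemma mv_sub (Φ Ψ : Matrix κ ι R) (u : ι → N) : mv (Φ - Ψ) u = mv Φ u - mv Ψ u := by
  funext l
  simp only [mv_apply, Matrix.sub_apply, sub_smul, Finset.sum_sub_distrib, Pi.sub_apply]
omit [Fintype κ] in
lemma mv_zero (Φ : Matrix κ ι R) : mv Φ (0 : ι → N) = 0 := by
  funext l
  simp [mv_apply]
lemma mv_diag [DecidableEq ι] (r : R) (u : ι → N) :
    mv (Matrix.diagonal fun _ => r) u = r • u := by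
  funext l
  rw [mv_apply, Finset.sum_eq_single l]
  · simp
  · intro i _ hi
    simp [Matrix.diagonal_apply_ne _ hi.symm]
  · simp
omit [Fintype κ] in
lemma map_mv (f : N →ₗ[R] N') (Φ : Matrix κ ι R) (u : ι → N) (j : κ) :
    f (mv Φ u j) = mv Φ (fun i => f (u i)) j := by
  simp only [mv_apply, map_sum, map_smul]

omit [Fintype κ] in
lemma mev_add' (x : Pt) (Φ Ψ : Matrix κ ι R) (v : ι → ℂ) :
    mev x (Φ + Ψ) v = mev x Φ v + mev x Ψ v := by
  funext j
  simp only [mev_apply, Matrix.add_apply, map_add, add_mul, Finset.sum_add_distrib, Pi.add_apply]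
omit [Fintype κ] in
lemma mev_sub' (x : Pt) (Φ Ψ : Matrix κ ι R) (v : ι → ℂ) :
    mev x (Φ - Ψ) v = mev x Φ v - mev x Ψ v := by
  funext j
  simp only [mev_apply, Matrix.sub_apply, map_sub, sub_mul, Finset.sum_sub_distrib, Pi.sub_apply]
lemma mev_diag' [DecidableEq ι] (x : Pt) (r : R) (v : ι → ℂ) :
    mev x (Matrix.diagonal fun _ => r) v = eval x r • v := by
  funext l
  rw [mev_apply, Finset.sum_eq_single l]
  · simp
  · intro i _ hi
    simp [Matrix.diagonal_apply_ne _ hi.symm]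
  · simp
omit [Fintype κ] in
lemma mev_kill' (B : Finset ℕ) (x : Pt) (Φ : Matrix κ ι R) (v : ι → ℂ) :
    mev x (Φ.map (kill B)) v = mev (restr B x) Φ v := by
  funext j
  simp only [mev_apply, Matrix.map_apply, eval_kill]

/-- the tuple `u` lies in `A ⊗ N` -/
def Bun.Act (A : Bun X) (u : A.ι → N) : Prop := ∀ a : A.ι → R, A.IsCov a → ∑ i, a i • u i = 0

namespace Bun.Act
variable {A B : Bun X} {u : A.ι → N}

omit [Fintype κ] in
lemma mv_eq_zero (hu : A.Act u) {Φ : Matrix κ A.ι R}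
    (hΦ : ∀ x ∈ X.pts, ∀ v ∈ A.L x, mev x Φ v = 0) : mv Φ u = 0 :=
  funext fun j => hu (Φ j) fun x hx v hv => by
    have := congrFun (hΦ x hx v hv) j
    rwa [mev_apply] at this
omit [Fintype κ] in
lemma mv_eq (hu : A.Act u) {Φ Ψ : Matrix κ A.ι R}
    (h : ∀ x ∈ X.pts, ∀ v ∈ A.L x, mev x Φ v = mev x Ψ v) : mv Φ u = mv Ψ u := by
  rw [← sub_eq_zero, ← mv_sub]
  exact hu.mv_eq_zero fun x hx v hv => by rw [mev_sub', h x hx v hv, sub_self]
lemma mv_eq_smul (hu : A.Act u) {Φ : Matrix A.ι A.ι R} {r : R}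
    (h : ∀ x ∈ X.pts, ∀ v ∈ A.L x, mev x Φ v = eval x r • v) : mv Φ u = r • u := by
  rw [← mv_diag]
  exact hu.mv_eq fun x hx v hv => by rw [mev_diag', h x hx v hv]
lemma map (hu : A.Act u) {Φ : Matrix B.ι A.ι R}
    (h : ∀ x ∈ X.pts, ∀ v ∈ A.L x, mev x Φ v ∈ B.L x) : B.Act (mv Φ u) := by
  intro b hb
  have h1 := congrFun (mv_mul (Matrix.of fun (_ : Unit) j => b j) Φ u) ()
  refine h1.symm.trans (congrFun (hu.mv_eq_zero fun x hx v hv => ?_) ())
  funext l
  rw [mev_mul, mev_apply]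
  exact hb x hx _ (h x hx v hv)
lemma lin (hu : A.Act u) (f : N →ₗ[R] N') : A.Act fun i => f (u i) := fun a ha => by
  have := congrArg f (hu a ha)
  simpa only [map_sum, map_smul, map_zero] using this
lemma of_inj {f : N →ₗ[R] N'} (hf : Function.Injective f) (hu : A.Act fun i => f (u i)) :
    A.Act u := fun a ha => hf (by
  have := hu a ha
  simpa only [map_sum, map_smul, map_zero] using this)
lemma smul (hu : A.Act u) (r : R) : A.Act (r • u) := hu.lin (LinearMap.lsmul R N r)
lemma add {w : A.ι → N} (hu : A.Act u) (hw : A.Act w) : A.Act (u + w) := fun a ha => by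
  simp only [Pi.add_apply, smul_add, Finset.sum_add_distrib, hu a ha, hw a ha, add_zero]
lemma zero : A.Act (0 : A.ι → N) := fun a _ => by simp
end Bun.Act

lemma Bun.act_mv (A : Bun X) (hN : ∀ r ∈ X.I, ∀ m : N, r • m = 0) {Φ : Matrix A.ι κ R}
    (hΦ : ∀ x ∈ X.pts, ∀ v, mev x Φ v ∈ A.L x) (u : κ → N) : A.Act (mv Φ u) := by
  classical
  intro b hb
  have h1 := congrFun (mv_mul (Matrix.of fun (_ : Unit) j => b j) Φ u) ()
  refine h1.symm.trans (Finset.sum_eq_zero fun j _ => hN _ (fun x hx => ?_) _)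
  have h2 := hb x hx _ (hΦ x hx (Pi.single j 1))
  simp only [mev_apply, Pi.single_apply, mul_ite, mul_one, mul_zero, Finset.sum_ite_eq',
    Finset.mem_univ, if_true] at h2
  simpa [Matrix.mul_apply] using h2

lemma Bun.act_top (A : Bun X) (hA : ∀ x ∈ X.pts, A.L x = ⊤) (hN : ∀ r ∈ X.I, ∀ m : N, r • m = 0)
    (u : A.ι → N) : A.Act u := by
  have := A.act_mv hN (Φ := Matrix.diagonal fun _ => 1) (fun x hx v => by rw [hA x hx]; trivial) u
  rwa [mv_diag, one_smul] at this

/-- local projector -/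
lemma Bun.exists_proj (A : Bun X) {x : Pt} (hx : x ∈ X.pts) : ∃ (r : R) (P : Matrix A.ι A.ι R),
    eval x r ≠ 0 ∧ (∀ y ∈ X.pts, ∀ v, mev y P v ∈ A.L y) ∧
      ∀ y ∈ X.pts, ∀ v ∈ A.L y, mev y P v = eval y r • v := by
  obtain ⟨r, P, hr, h⟩ := A.alg x hx
  exact ⟨r, P, hr, fun y hy => (h y hy).1, fun y hy => (h y hy).2⟩

lemma Bun.IsCov.gam {A : Bun X} {a : A.ι → R} (ha : A.IsCov a) :
    ∃ b : A.ι → R, A.IsCov b ∧ ∀ i, gam (b i) = C (chi (-A.deg i)) * a i := by
  choose b hb using fun i => gam_surj (C (chi (-A.deg i)) * a i)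
  refine ⟨b, fun x hx v hv => ?_, hb⟩
  obtain ⟨y, rfl⟩ := gpt_surj x
  have hy := X.mem_of_gpt hx
  have h1 : (fun i => chi (-A.deg i) * v i) ∈ A.L y := by
    rw [A.eqv y hy]
    convert hv using 2 with i
    rw [← mul_assoc, ← chi_add, add_neg_cancel, chi_zero, one_mul]
  refine Eq.trans (Finset.sum_congr rfl fun i _ => ?_) (ha y hy _ h1)
  rw [← eval_gam, hb, map_mul, eval_C]
  ring

lemma Bun.IsCov.kill {A : Bun X} {a : A.ι → R} (ha : A.IsCov a) (h : Proj Y X) :
    (A.pull h).IsCov fun i => kill X.B (a i) := fun y hy v hv => by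
  simp only [eval_kill]
  exact ha _ (h.map y hy) v hv

lemma Bun.Act.tens_left {A B : Bun X} {w : A.ι × B.ι → N} (hw : (A.tens B).Act w) (j : B.ι) :
    A.Act fun i => w (i, j) := by
  intro a ha
  have := hw (fun p => if p.2 = j then a p.1 else 0) fun x hx v hv => by
    have h1 := ha x hx _ ((mem_tens.1 hv).1 j)
    refine Eq.trans ?_ h1
    change ∑ p : A.ι × B.ι, _ = _
    rw [Fintype.sum_prod_type]
    refine Finset.sum_congr rfl fun i _ => ?_
    simp [apply_ite (eval x)]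
  refine Eq.trans ?_ this
  change _ = ∑ p : A.ι × B.ι, _
  rw [Fintype.sum_prod_type]
  refine Finset.sum_congr rfl fun i _ => ?_
  simp [ite_smul]

lemma Bun.Act.tens_right {A B : Bun X} {w : A.ι × B.ι → N} (hw : (A.tens B).Act w) (i : A.ι) :
    B.Act fun j => w (i, j) := by
  intro a ha
  have := hw (fun p => if p.1 = i then a p.2 else 0) fun x hx v hv => by
    have h1 := ha x hx _ ((mem_tens.1 hv).2 i)
    refine Eq.trans ?_ h1
    change ∑ p : A.ι × B.ι, _ = _
    rw [Fintype.sum_prod_type_right]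
    refine Finset.sum_congr rfl fun j _ => ?_
    simp [apply_ite (eval x)]
  refine Eq.trans ?_ this
  change _ = ∑ p : A.ι × B.ι, _
  rw [Fintype.sum_prod_type_right]
  refine Finset.sum_congr rfl fun j _ => ?_
  simp [ite_smul]

/-- locally `A ⊗ (B ⊗ N) = (A ⊗ B) ⊗ N` -/
lemma Bun.exists_tens (A B : Bun X) {x : Pt} (hx : x ∈ X.pts) : ∃ r : R, eval x r ≠ 0 ∧
    ∀ {N : Type} [AddCommGroup N] [Module R N], (∀ r ∈ X.I, ∀ m : N, r • m = 0) →
      ∀ w : A.ι × B.ι → N, (∀ j, A.Act fun i => w (i, j)) → (∀ i, B.Act fun j => w (i, j)) →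
        (A.tens B).Act (r • w) := by
  obtain ⟨r, P, hr, h1, h2⟩ := A.exists_proj hx
  obtain ⟨s, Q, hs, h3, h4⟩ := B.exists_proj hx
  refine ⟨r * s, by rw [map_mul]; exact mul_ne_zero hr hs, fun {N} _ _ hN w hA hB => ?_⟩
  let T : Matrix (A.ι × B.ι) (A.ι × B.ι) R := fun p q => P p.1 q.1 * Q p.2 q.2
  have h5 : mv T w = (r * s) • w := by
    funext p
    have h6 : ∀ i, ∑ j, Q p.2 j • w (i, j) = s • w (i, p.2) := fun i =>
      congrFun ((hB i).mv_eq_smul h4) p.2
    have h7 : ∑ i, P p.1 i • w (i, p.2) = r • w (p.1, p.2) :=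
      congrFun ((hA p.2).mv_eq_smul h2) p.1
    rw [mv_apply, Fintype.sum_prod_type, Pi.smul_apply, mul_comm, mul_smul, ← h7,
      Finset.smul_sum]
    refine Finset.sum_congr rfl fun i _ => ?_
    simp only [T, mul_smul, ← Finset.smul_sum, h6]
    exact smul_comm _ _ _
  rw [← h5]
  refine (A.tens B).act_mv hN (Φ := T) (fun y hy v => mem_tens.2 ⟨fun j => ?_, fun i => ?_⟩) w
  · convert h1 y hy fun i => ∑ l, eval y (Q j l) * v (i, l) using 2 with i
    refine (mev_apply y T v (i, j)).trans ?_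
    rw [mev_apply, Fintype.sum_prod_type]
    simp only [T, map_mul, Finset.mul_sum, mul_assoc]
  · convert h3 y hy fun l => ∑ m, eval y (P i m) * v (m, l) using 2 with j
    refine (mev_apply y T v (i, j)).trans ?_
    rw [mev_apply, Fintype.sum_prod_type_right]
    simp only [T, map_mul, Finset.mul_sum]
    exact Finset.sum_congr rfl fun _ _ => Finset.sum_congr rfl fun _ _ => by ring
end mv

section piece
variable {M N : GM} {B : Finset ℕ}

lemma GM.Deg0.mem_pieceSub {f : M.M →ₗ[R] N.M} (hf : Deg0 f) {m : M.M}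
    (hm : m ∈ pieceSub B M) : f m ∈ pieceSub B N :=
  GM.mem_pieceSub.2 fun d hd => by rw [← hf.map_cp, GM.mem_pieceSub.1 hm d hd, map_zero]
lemma GM.Deg0.mem_pieceSub_of_inj {f : M.M →ₗ[R] N.M} (hf : Deg0 f) (hi : Function.Injective f)
    {m : M.M} (hm : f m ∈ pieceSub B N) : m ∈ pieceSub B M :=
  GM.mem_pieceSub.2 fun d hd => hi (by rw [hf.map_cp, GM.mem_pieceSub.1 hm d hd, map_zero])
lemma mem_pieceSub_pw {ι : Type} [Fintype ι] {deg : ι → D} (hd : ∀ i, deg i ∈ DS B)
    {u : ι → M.M} : (u : (pw deg M).M) ∈ pieceSub B (pw deg M) ↔ ∀ i, u i ∈ pieceSub B M := by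
  classical
  constructor
  · intro hu i
    induction hu using AddSubgroup.closure_induction with
    | mem u hu =>
      obtain ⟨d, h1, h2⟩ := hu
      exact AddSubgroup.subset_closure ⟨d + deg i, add_mem h1 (hd i), (pw_gr deg).1 h2 i⟩
    | zero => exact zero_mem _
    | add a b _ _ ha hb => exact add_mem ha hb
    | neg a _ ha => exact neg_mem ha
  · intro hu
    rw [← Finset.univ_sum_single u]
    refine sum_mem (S := pieceSub B (pw deg M)) fun i _ => ?_
    have key : ∀ m ∈ pieceSub B M,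
        ((Pi.single i m : ι → M.M) : (pw deg M).M) ∈ pieceSub B (pw deg M) := by
      intro m hm
      induction hm using AddSubgroup.closure_induction with
      | mem m hm =>
        obtain ⟨d, h1, h2⟩ := hm
        refine AddSubgroup.subset_closure ⟨d - deg i, sub_mem h1 (hd i), (pw_gr deg).2 fun j => ?_⟩
        by_cases hj : j = i
        · subst hj
          simpa using h2
        · simp [hj]
      | zero => rw [Pi.single_zero]; exact zero_mem _
      | add a b _ _ ha hb => rw [Pi.single_add]; exact add_mem ha hb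
      | neg a _ ha => rw [Pi.single_neg]; exact neg_mem ha
    exact key _ (hu i)
/-- the underlying element as an additive map -/
def PieceT.valHom (B : Finset ℕ) (M : GM) : PieceT B M →+ M.M where
  toFun := PieceT.val
  map_zero' := rfl
  map_add' _ _ := rfl
lemma val_mv {ι κ : Type} [Fintype ι] (Φ : Matrix κ ι R) (u : ι → PieceT B M) (j : κ) :
    (mv Φ u j).val = mv (Φ.map (kill B)) (fun i => (u i).val) j :=
  map_sum (PieceT.valHom B M) _ _
end piece

end Crest.Agent.N265
end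
end

-- ▼ part N265/K/Act

/-! # Task K4: bundles act on `G X`; projection formula; the operator ring `Op X` -/

set_option autoImplicit false
noncomputable section
open MvPolynomial Module

namespace Crest.Agent.N265
open Bun GM
variable {X Y Z : Spc}

/-- `A ⊗ M` inside `⊕ M(deg i)` -/
def Bun.actSub (A : Bun X) (M : GM) : Submodule R (pw A.deg M).M where
  carrier := {v | ∀ a : A.ι → R, A.IsCov a → ∑ i, a i • (v : A.ι → M.M) i = 0}
  add_mem' := fun ha hb => Bun.Act.add (N := M.M) ha hb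
  zero_mem' := Bun.Act.zero (N := M.M)
  smul_mem' := fun r _ hu => Bun.Act.smul (N := M.M) hu r
lemma Bun.stab_actSub (A : Bun X) (M : GM) : (pw A.deg M).Stab (A.actSub M) := by
  intro u hu a ha
  obtain ⟨b, hb, hab⟩ := ha.gam
  have h1 := congrArg M.g (hu b hb)
  rw [map_sum, map_zero] at h1
  refine Eq.trans (Finset.sum_congr rfl fun i _ => ?_) h1
  rw [LinearMap.map_smulₛₗ, hab, mul_comm, mul_smul]
  rfl
/-- `A ⊗ M` -/
def Bun.act (A : Bun X) (M : GM) : GM := (pw A.deg M).sub (A.actSub M) (A.stab_actSub M)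
lemma Bun.red_act (A : Bun X) {M : GM} (h : M.Red X) : (A.act M).Red X := (h.pw A.hdeg).sub _
/-- matrices with values in the family map into `A ⊗ M` -/
lemma Bun.mat_mem_act (A : Bun X) {M : GM} (h : M.Red X) {κ : Type} [Fintype κ] (e : κ → D)
    (Φ : Matrix A.ι κ R) (hΦ : ∀ x ∈ X.pts, ∀ v, mev x Φ v ∈ A.L x) (u : (pw e M).M) :
    mat e A.deg Φ M u ∈ A.actSub M := A.act_mv h.ann hΦ (N := M.M) u
set_option linter.unusedVariables false in
/-- matrices killing the family kill `A ⊗ M` -/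
lemma Bun.mat_act_eq_zero (A : Bun X) {M : GM} (h : M.Red X) {κ : Type} [Fintype κ] (e : κ → D)
    (Φ : Matrix κ A.ι R) (hΦ : ∀ x ∈ X.pts, ∀ v ∈ A.L x, mev x Φ v = 0) {u : (pw A.deg M).M}
    (hu : u ∈ A.actSub M) : mat A.deg e Φ M u = 0 := Bun.Act.mv_eq_zero (N := M.M) hu hΦ
/-- `A ⊗ O` is the module of sections -/
lemma Bun.mem_act_O (A : Bun X) (s : A.ι → R) :
    ((fun i => Ideal.Quotient.mk X.I (s i) : A.ι → R ⧸ X.I) : (pw A.deg (O X)).M) ∈
      A.actSub (O X) ↔ A.IsSec s := by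
  have key : ∀ a : A.ι → R, ∑ i, a i • (Ideal.Quotient.mk X.I (s i) : R ⧸ X.I) = 0 ↔
      ∀ x ∈ X.pts, ∑ i, eval x (a i) * eval x (s i) = 0 := by
    intro a
    have h1 : ∑ i, a i • (Ideal.Quotient.mk X.I (s i) : R ⧸ X.I) =
        Ideal.Quotient.mk X.I (∑ i, a i * s i) := by
      rw [map_sum]; rfl
    rw [h1, Ideal.Quotient.eq_zero_iff_mem, Spc.mem_I]
    simp only [map_sum, map_mul]
  constructor
  · intro h x hx
    rw [← perp_perp (A.L x)]
    intro a0 ha0
    obtain ⟨a, rfl, ha⟩ := A.alg.cogen x hx a0 ha0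
    simpa only [mul_comm] using (key a).1 (h a ha) x hx
  · exact fun h a ha => (key a).2 fun x hx => ha x hx _ (h x hx)

/-- functoriality in the bundle -/
def Bun.actMap (A B : Bun X) (Φ : Matrix B.ι A.ι R)
    (h : ∀ x ∈ X.pts, ∀ v ∈ A.L x, mev x Φ v ∈ B.L x) (M : GM) :
    (A.act M).M →ₗ[R] (B.act M).M :=
  (mat A.deg B.deg Φ M).restrict fun _ hu => Bun.Act.map (N := M.M) hu h
lemma Bun.deg0_actMap {A B : Bun X} {Φ : Matrix B.ι A.ι R} (hΦ : MHmg A.deg B.deg Φ) (h) (M : GM) :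
    Deg0 (A.actMap B Φ h M) := fun u => Subtype.ext (deg0_mat hΦ M u.1)
/-- functoriality in the module -/
def Bun.actLin (A : Bun X) {M N : GM} (f : M.M →ₗ[R] N.M) : (A.act M).M →ₗ[R] (A.act N).M :=
  LinearMap.restrict (p := A.actSub M) (q := A.actSub N) (f.compLeft A.ι)
    fun _ hu => Bun.Act.lin (N := M.M) hu f
lemma Bun.deg0_actLin (A : Bun X) {M N : GM} {f : M.M →ₗ[R] N.M} (hf : Deg0 f) :
    Deg0 (A.actLin f) := fun u => Subtype.ext (funext fun i =>
  (f.map_smul (C (chi (-A.deg i)) : R) (M.g (u.1 i))).trans (congrArg _ (hf (u.1 i))))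

lemma Bun.act_ses_mod (A : Bun X) {M₁ M₂ M₃ : GM} (h : GM.SES M₁ M₂ M₃) (h₂ : M₂.Red X) :
    cl X (A.act M₂) = cl X (A.act M₁) + cl X (A.act M₃) := by
  obtain ⟨f, p, hf, hp, hi, he, hs⟩ := h
  refine cl_locSES ⟨A.actLin f, A.actLin p, A.deg0_actLin hf, A.deg0_actLin hp,
    fun a => Subtype.ext (funext fun i => he.apply_apply_eq_zero (a.1 i)), fun x hx => ?_⟩
    (A.red_act (h₂.of_inj hf hi)).on (A.red_act h₂).on (A.red_act (h₂.of_surj hp hs)).on
  obtain ⟨r, P, hr, h1, h2⟩ := A.exists_proj hx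
  refine ⟨r, hr, fun a ha => ?_, fun b hb => ?_, fun c => ?_⟩
  · have : a = 0 := Subtype.ext (funext fun i =>
      hi ((congrFun (congrArg Subtype.val ha) i).trans (map_zero f).symm))
    rw [this, smul_zero]
  · choose w hw using fun i => (he (b.1 i)).1 (congrFun (congrArg Subtype.val hb) i)
    have h3 : A.Act w := Bun.Act.of_inj hi (by rw [funext hw]; exact b.2)
    have h4 : A.actLin f ⟨w, h3⟩ = b := Subtype.ext (funext hw)
    exact ⟨r • ⟨w, h3⟩, (map_smul (A.actLin f) r _).trans (congrArg _ h4)⟩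
  · choose w hw using fun i => hs (c.1 i)
    refine ⟨⟨mv P w, A.act_mv h₂.ann h1 w⟩, Subtype.ext (funext fun i => ?_)⟩
    refine (map_mv p P w i).trans ?_
    rw [funext hw]
    exact congrFun (Bun.Act.mv_eq_smul (N := M₃.M) c.2 h2) i
lemma Bun.irr_act (A : Bun X) {M : GM} (h : M.Irr X) : (A.act M).Irr X := fun x hx =>
  (h x hx).imp fun _ hr => ⟨hr.1, fun m => Subtype.ext (funext fun i => hr.2 (m.1 i))⟩

section cx
variable {A B C : Bun X} {f : Matrix B.ι A.ι R} {p : Matrix C.ι B.ι R} {M : GM} {x : Pt}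
lemma act_inj (hf) (hx : x ∈ X.pts) (hi : A.L x ⊓ LinearMap.ker (mev x f) = ⊥) :
    ∃ r : R, eval x r ≠ 0 ∧ ∀ a, A.actMap B f hf M a = 0 → r • a = 0 := by
  obtain ⟨r, H, hr, h⟩ := A.alg.exists_retr f hx hi
  refine ⟨r, hr, fun a ha => Subtype.ext ?_⟩
  have h1 : mv (N := M.M) f a.1 = 0 := congrArg Subtype.val ha
  have h2 := Bun.Act.mv_eq_smul (N := M.M) a.2 (Φ := H * f) (r := r)
    fun y hy v hv => by rw [mev_mul, (h y hy).2 v hv]
  exact h2.symm.trans ((mv_mul H f _).trans ((congrArg _ h1).trans (mv_zero H)))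
lemma act_surj (hM : M.Red X) (hp) (hx : x ∈ X.pts) (hs : (B.L x).map (mev x p) = C.L x) :
    ∃ r : R, eval x r ≠ 0 ∧ ∀ c, ∃ b, B.actMap C p hp M b = r • c := by
  obtain ⟨r, H, hr, h⟩ := B.alg.exists_sect C.alg p
    (fun y hy => Submodule.map_le_iff_le_comap.2 (hp y hy)) hx hs
  refine ⟨r, hr, fun c => ⟨⟨mv (N := M.M) H c.1, B.act_mv hM.ann (fun y hy => (h y hy).1) _⟩,
    Subtype.ext ?_⟩⟩
  exact (mv_mul (N := M.M) p H c.1).symm.trans (Bun.Act.mv_eq_smul (N := M.M) c.2
    fun y hy v hv => by rw [mev_mul, (h y hy).2 v hv])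
lemma act_mid (hM : M.Red X) (hf hp)
    (h0 : ∀ x ∈ X.pts, (A.L x).map (mev x f) ≤ B.L x ⊓ LinearMap.ker (mev x p)) (hx : x ∈ X.pts)
    (he : (A.L x).map (mev x f) = B.L x ⊓ LinearMap.ker (mev x p)) :
    ∃ r : R, eval x r ≠ 0 ∧ ∀ b, B.actMap C p hp M b = 0 → ∃ a, A.actMap B f hf M a = r • b := by
  obtain ⟨r, H, H', hr, h⟩ := A.alg.exists_homotopy B.alg C.alg f p h0
    (fun y hy => Submodule.map_le_iff_le_comap.2 (hp y hy)) hx he
  refine ⟨r, hr, fun b hb => ⟨⟨mv (N := M.M) H b.1, A.act_mv hM.ann (fun y hy => (h y hy).1) _⟩,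
    Subtype.ext ?_⟩⟩
  have h1 : mv (N := M.M) p b.1 = 0 := congrArg Subtype.val hb
  have h2 := Bun.Act.mv_eq_smul (N := M.M) b.2 (Φ := f * H + H' * p) (r := r)
    fun y hy v hv => by rw [mev_add', mev_mul, mev_mul, (h y hy).2.2 v hv]
  have h3 : ∀ u : B.ι → M.M, mv p u = 0 → mv (f * H + H' * p) u = mv f (mv H u) := fun u hu => by
    rw [mv_add, mv_mul, mv_mul, hu, mv_zero, add_zero]
  exact (h3 _ h1).symm.trans h2
lemma act_comp (hf hp)
    (h0 : ∀ x ∈ X.pts, (A.L x).map (mev x f) ≤ B.L x ⊓ LinearMap.ker (mev x p)) (a) :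
    B.actMap C p hp M (A.actMap B f hf M a) = 0 :=
  Subtype.ext ((mv_mul (N := M.M) p f a.1).symm.trans (Bun.Act.mv_eq_zero (N := M.M) a.2
    fun y hy v hv => by rw [mev_mul]; exact (h0 y hy ⟨v, hv, rfl⟩).2))
end cx

lemma Bun.act_ses {A B C : Bun X} (h : Bun.SES A B C) {M : GM} (hM : M.Red X) :
    cl X (B.act M) = cl X (A.act M) + cl X (C.act M) := by
  obtain ⟨f, p, hf, hp, h⟩ := h
  have h1 : ∀ x ∈ X.pts, ∀ v ∈ A.L x, mev x f v ∈ B.L x := fun x hx v hv =>
    ((h x hx).2.1.le ⟨v, hv, rfl⟩).1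
  have h2 : ∀ x ∈ X.pts, ∀ v ∈ B.L x, mev x p v ∈ C.L x := fun x hx v hv =>
    (h x hx).2.2.le ⟨v, hv, rfl⟩
  refine cl_locSES ⟨A.actMap B f h1 M, B.actMap C p h2 M, deg0_actMap hf h1 M,
    deg0_actMap hp h2 M, act_comp h1 h2 fun x hx => (h x hx).2.1.le, fun x hx => ?_⟩
    (A.red_act hM).on (B.red_act hM).on (C.red_act hM).on
  obtain ⟨r₁, a₁, b₁⟩ := act_inj (M := M) h1 hx (h x hx).1
  obtain ⟨r₂, a₂, b₂⟩ := act_mid hM h1 h2 (fun x hx => (h x hx).2.1.le) hx (h x hx).2.1
  obtain ⟨r₃, a₃, b₃⟩ := act_surj hM h2 hx (h x hx).2.2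
  refine ⟨r₁ * r₂ * r₃, by simp [a₁, a₂, a₃], fun a ha => ?_, fun b hb => ?_, fun c => ?_⟩
  · rw [mul_assoc, mul_comm, mul_smul, b₁ a ha, smul_zero]
  · obtain ⟨a, ha⟩ := b₂ b hb
    exact ⟨(r₁ * r₃) • a, by rw [map_smul, ha, ← mul_smul, mul_right_comm]⟩
  · obtain ⟨b, hb⟩ := b₃ c
    exact ⟨(r₁ * r₂) • b, by rw [map_smul, hb, ← mul_smul]⟩

lemma Bun.cl_act_top (A : Bun X) (hA : ∀ x ∈ X.pts, A.L x = ⊤) {M : GM} (hM : M.Red X) :
    cl X (A.act M) = ∑ i, cl X (M.shift (A.deg i)) := by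
  rw [← cl_pw A.hdeg hM.on]
  exact cl_iso (LinearEquiv.ofTop (A.actSub M) (eq_top_iff.2 fun u _ =>
    A.act_top hA hM.ann (N := M.M) u)) fun _ => rfl
lemma Bun.cl_act_line {d : D} (hd : d ∈ DS X.B) {M : GM} (hM : M.Red X) :
    cl X ((line X d).act M) = sh X d (cl X M) := by
  rw [(line X d).cl_act_top (fun _ _ => rfl) hM, sh_cl hd hM.on]
  change ∑ _ : Unit, cl X (M.shift (dpr X.B d)) = _
  rw [dpr_of_mem hd, Fintype.sum_unique]

lemma Bun.cl_act_tens (A B : Bun X) {M : GM} (hM : M.Red X) :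
    cl X ((A.tens B).act M) = cl X (A.act (B.act M)) := by
  let F : ((A.tens B).act M).M →ₗ[R] (A.act (B.act M)).M :=
    { toFun := fun w => ⟨fun i => ⟨fun j => w.1 (i, j), Bun.Act.tens_right (N := M.M) w.2 i⟩,
        fun a ha => Subtype.ext (funext fun j => by
          refine Eq.trans ?_ (Bun.Act.tens_left (N := M.M) w.2 j a ha)
          exact map_sum ((LinearMap.proj j).comp (B.actSub M).subtype) _ _)⟩
      map_add' := fun _ _ => rfl
      map_smul' := fun _ _ => rfl }
  refine cl_locIso F (fun w => Subtype.ext (funext fun i => Subtype.ext (funext fun j => ?_)))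
    ((A.tens B).red_act hM).on (A.red_act (B.red_act hM)).on fun x hx => ?_
  · change (C (chi (-(A.deg i + B.deg j))) : R) • M.g (w.1 (i, j)) =
      (C (chi (-A.deg i)) : R) • (C (chi (-B.deg j)) : R) • M.g (w.1 (i, j))
    rw [neg_add, chi_add, map_mul, mul_smul]
  · obtain ⟨r, hr, h⟩ := A.exists_tens B hx
    refine ⟨r, hr, fun a ha => ?_, fun b => ⟨⟨_, h hM.ann (fun q => (b.1 q.1).1 q.2)
      (fun j => Bun.Act.lin (N := (B.act M).M) b.2 ((LinearMap.proj j).comp (B.actSub M).subtype))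
      fun i => (b.1 i).2⟩, rfl⟩⟩
    have : a = 0 := Subtype.ext (funext fun q =>
      congrFun (congrArg Subtype.val (congrFun (congrArg Subtype.val ha) q.1)) q.2)
    rw [this, smul_zero]

lemma exists_act (X : Spc) : ∃ Φ : K X →+* AddMonoid.End (G X), ∀ (A : Bun X) (M : GM),
    M.Red X → Φ A.kl (cl X M) = cl X (A.act M) := by
  choose φ hφ using fun A : Bun X => G.exists_liftRed (X := X) (fun M => cl X (A.act M))
    (fun _ _ _ h hB => A.act_ses_mod h hB) (fun _ _ hi => cl_irr (A.irr_act hi))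
  obtain ⟨Φ, hΦ⟩ := K.exists_lift (G := AddMonoid.End (G X)) φ fun A B C h =>
    G.hom_ext_red fun M hM => by
      change φ B _ = φ A _ + φ C _
      rw [hφ _ _ hM, hφ _ _ hM, hφ _ _ hM, Bun.act_ses h hM]
  have h1 : Φ 1 = 1 := by
    rw [K.one_def, hΦ]
    exact G.hom_ext_red fun M hM => by
      rw [hφ _ _ hM, Bun.cl_act_line (zero_mem _) hM, sh_zero]; rfl
  have h2 : ∀ a b, Φ (a * b) = Φ a * Φ b := by
    intro a b
    induction a using K.ind with
    | h0 => simp
    | hneg a ha => rw [neg_mul, map_neg, map_neg, ha, neg_mul]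
    | hadd a a' ha ha' => rw [add_mul, map_add, map_add, ha, ha', add_mul]
    | hkl A =>
      induction b using K.ind with
      | h0 => simp
      | hneg b hb => rw [mul_neg, map_neg, map_neg, hb, mul_neg]
      | hadd b b' hb hb' => rw [mul_add, map_add, map_add, hb, hb', mul_add]
      | hkl B =>
        rw [← kl_tens, hΦ, hΦ, hΦ]
        exact G.hom_ext_red fun M hM => by
          change φ _ _ = φ A (φ B _)
          rw [hφ _ _ hM, hφ _ _ hM, hφ _ _ (B.red_act hM), A.cl_act_tens B hM]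
  exact ⟨{ Φ with map_one' := h1, map_mul' := h2 }, fun A M hM => by
    change Φ A.kl _ = _
    rw [hΦ]
    exact hφ _ _ hM⟩
instance (X : Spc) : Module (K X) (G X) := Module.compHom (G X) (exists_act X).choose
lemma kl_smul (A : Bun X) {M : GM} (h : M.Red X) : A.kl • cl X M = cl X (A.act M) :=
  (exists_act X).choose_spec A M h
lemma lbK_smul {d : D} (hd : d ∈ DS X.B) (a : G X) : lbK X d • a = sh X d a := by
  induction a using G.ind_red with
  | h0 => simp
  | hneg a ha => rw [smul_neg, map_neg, ha]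
  | hadd a b ha hb => rw [smul_add, map_add, ha, hb]
  | hcl M hM => rw [lbK, kl_smul _ hM, Bun.cl_act_line hd hM]
lemma sh_smul {d : D} (hd : d ∈ DS X.B) (u : K X) (a : G X) : sh X d (u • a) = u • sh X d a := by
  rw [← lbK_smul hd, ← lbK_smul hd, smul_smul, smul_smul, mul_comm]
lemma Bun.cl_piece_act (h : Proj Y X) (A : Bun X) {N : GM} (hN : N.Red Y) :
    cl X (piece X.B ((A.pull h).act N)) = cl X (A.act (piece X.B N)) := by
  have hm : ∀ u : ((A.pull h).act N).M, u ∈ pieceSub X.B ((A.pull h).act N) ↔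
      ∀ i, u.1 i ∈ pieceSub X.B N := fun u =>
    Iff.trans ⟨(deg0_subtype _).mem_pieceSub,
      (deg0_subtype _).mem_pieceSub_of_inj Subtype.val_injective⟩ (mem_pieceSub_pw A.hdeg)
  let F : (piece X.B ((A.pull h).act N)).M →ₗ[R] (A.act (piece X.B N)).M :=
    { toFun := fun w => ⟨fun i => (⟨(PieceT.val w).1 i, (hm _).1 (Subtype.property w) i⟩ :
          pieceSub X.B N), fun a ha => PieceT.ext ((map_sum (PieceT.valHom X.B N) _ _).trans
        ((PieceT.val w).2 _ (ha.kill h)))⟩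
      map_add' := fun _ _ => rfl
      map_smul' := fun _ _ => rfl }
  refine cl_locIso F (fun w => Subtype.ext (funext fun i => PieceT.ext ?_))
    (Red.piece h ((A.pull h).red_act hN).ann).on (A.red_act (Red.piece h hN.ann)).on fun x hx => ?_
  · change (C (chi (-A.deg i)) : R) • N.g ((PieceT.val w).1 i) =
      kill X.B (C (chi (-A.deg i))) • N.g ((PieceT.val w).1 i)
    simp [kill]
  · obtain ⟨r, P, hr, h1, h2⟩ := A.exists_proj hx
    refine ⟨r, hr, fun a ha => ?_, fun b => ?_⟩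
    · have : a = 0 := PieceT.ext (Subtype.ext (funext fun i =>
        congrArg PieceT.val (congrFun (congrArg Subtype.val ha) i)))
      rw [this, smul_zero]
    · have h3 : mv (N := PieceT X.B N) P b.1 = r • b.1 :=
        Bun.Act.mv_eq_smul (N := PieceT X.B N) b.2 h2
      have h4 : (A.pull h).Act (mv (P.map (kill X.B)) fun i => PieceT.val (b.1 i)) :=
        (A.pull h).act_mv hN.ann (fun y hy v =>
          (mev_kill' X.B y P v).symm ▸ h1 _ (h.map y hy) v) _
      refine ⟨(⟨⟨_, h4⟩, (hm _).2 fun i => ?_⟩ : pieceSub X.B ((A.pull h).act N)),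
        Subtype.ext (funext fun i => PieceT.ext ?_)⟩
      · have h5 : (mv (N := PieceT X.B N) P b.1 i).val ∈ pieceSub X.B N := Subtype.property _
        exact (congrArg (· ∈ pieceSub X.B N) (val_mv P b.1 i)).mp h5
      · exact (val_mv P b.1 i).symm.trans (congrArg PieceT.val (congrFun h3 i))
lemma Bun.deg0_act_shift (A : Bun X) (M : GM) (d : D) :
    Deg0 (M := A.act (M.shift d)) (N := (A.act M).shift d) LinearMap.id :=
  fun u => Subtype.ext (funext fun i =>
    smul_comm (C (chi (-A.deg i)) : R) (C (chi (-d)) : R) (M.g (u.1 i)))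
lemma cl_piece_congr {M N : GM} (e : M.M ≃ₗ[R] N.M) (he : Deg0 e.toLinearMap) (B : Finset ℕ) :
    cl X (piece B M) = cl X (piece B N) :=
  cl_iso (LinearEquiv.ofBijective (pieceMap B _ he) ⟨fun _ _ h =>
    PieceT.ext (e.injective (congrArg PieceT.val h)), fun b =>
      exists_pieceMap_eq B _ he b (e.apply_symm_apply _)⟩) (deg0_pieceMap B _ he)
lemma Big.inDS {k : ℤ} {d : D} (hd : Big Y X k d) : d ∈ DS Y.B :=
  fun b hb => hd.2.1 b (Or.inr hb)
lemma Big.weaken {k k' : ℤ} {d : D} (hd : Big Y X k d) (h : k' ≤ k) : Big Y X k' d :=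
  ⟨hd.1, hd.2.1, fun b h1 h2 => h.trans (hd.2.2 b h1 h2)⟩
/-- projection formula -/
theorem push_smulK (h : Proj Y X) (u : K X) (a : G Y) :
    push Y X (K.pull h u • a) = u • push Y X a := by
  induction u using K.ind with
  | h0 => simp
  | hneg u hu => rw [map_neg, neg_smul, map_neg, hu, neg_smul]
  | hadd u v hu hv => rw [map_add, add_smul, map_add, hu, hv, add_smul]
  | hkl A =>
    let P : AddSubgroup (G Y) :=
      { carrier := {a | push Y X (K.pull h A.kl • a) = A.kl • push Y X a}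
        zero_mem' := by simp
        add_mem' := fun {a b} ha hb => by
          rw [Set.mem_ofPred_eq] at *
          rw [smul_add, map_add, map_add, smul_add, ha, hb]
        neg_mem' := fun {a} ha => by
          rw [Set.mem_ofPred_eq] at *
          rw [smul_neg, map_neg, map_neg, smul_neg, ha] }
    have hP : P = ⊤ := by
      refine G.ext_big h P (fun k a ha => ?_) fun M hM => ?_
      · change push Y X (K.pull h A.kl • _) = A.kl • _
        rw [← sh_smul (zsmul_mem (eT_mem _) k), push_sh h (zsmul_mem (eT_mem _) k),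
          push_sh h (zsmul_mem (eT_mem _) k), ← sh_smul (zsmul_mem (eT_mem _) k)]
        exact congrArg _ ha
      · obtain ⟨k₁, h₁⟩ := (isPush h).big M hM.on
        obtain ⟨k₂, h₂⟩ := (isPush h).big _ ((A.pull h).red_act hM).on
        refine ⟨max k₁ k₂, fun d hd => ?_⟩
        have hMd := hM.shift hd.inDS
        change push Y X (K.pull h A.kl • _) = A.kl • _
        rw [K.pull_kl, kl_smul _ hMd, h₁ d (hd.weaken (le_max_left _ _)),
          kl_smul _ (Red.piece h hMd.ann), ← A.cl_piece_act h hMd,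
          cl_iso (A := (A.pull h).act (M.shift d)) (B := ((A.pull h).act M).shift d)
            (LinearEquiv.refl R _) ((A.pull h).deg0_act_shift M d),
          h₂ d (hd.weaken (le_max_right _ _))]
        exact (cl_piece_congr (M := (A.pull h).act (M.shift d)) (N := ((A.pull h).act M).shift d)
          (LinearEquiv.refl R _) ((A.pull h).deg0_act_shift M d) _).symm
    have : a ∈ P := hP ▸ AddSubgroup.mem_top a
    exact this

/-- the classes acting by zero after every pull-back -/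
def annK (X : Spc) : Ideal (K X) where
  carrier := {u | ∀ (Y : Spc) (h : Proj Y X) (a : G Y), K.pull h u • a = 0}
  add_mem' := by intro a b ha hb Y h c; rw [map_add, add_smul, ha, hb, add_zero]
  zero_mem' := by intro Y h c; simp
  smul_mem' := by intro u a ha Y h c; rw [smul_eq_mul, map_mul, mul_smul, ha, smul_zero]
/-- the operator ring -/
def Op (X : Spc) : Type 1 := K X ⧸ annK X
instance (X : Spc) : CommRing (Op X) := inferInstanceAs (CommRing (K X ⧸ annK X))
/-- the operator of a `K`-class -/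
def op (X : Spc) : K X →+* Op X := Ideal.Quotient.mk (annK X)
lemma op_surj : Function.Surjective (op X) := Ideal.Quotient.mk_surjective
lemma op_eq_zero {u : K X} :
    op X u = 0 ↔ ∀ (Y : Spc) (h : Proj Y X) (a : G Y), K.pull h u • a = 0 :=
  Ideal.Quotient.eq_zero_iff_mem
lemma isTorsionBySet_annK (X : Spc) : Module.IsTorsionBySet (K X) (G X) (annK X) := by
  rintro a ⟨u, hu⟩
  have := hu X (Proj.refl X) a
  rwa [K.pull_self] at this
instance (X : Spc) : Module (Op X) (G X) := (isTorsionBySet_annK X).module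
lemma op_smul (u : K X) (a : G X) : op X u • a = u • a := rfl
/-- pull-back of operators -/
def Op.pull (h : Proj Y X) : Op X →+* Op Y :=
  Ideal.quotientMap (annK Y) (K.pull h) fun u hu W h' a => by
    rw [K.pull_pull]; exact hu W _ a
lemma Op.pull_op (h : Proj Y X) (u : K X) : Op.pull h (op X u) = op Y (K.pull h u) := rfl
lemma Op.pull_pull (h : Proj Z Y) (h' : Proj Y X) (u : Op X) :
    Op.pull h (Op.pull h' u) = Op.pull (h.trans h') u := by
  obtain ⟨u, rfl⟩ := op_surj u
  rw [Op.pull_op, Op.pull_op, Op.pull_op, K.pull_pull]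
lemma Op.pull_self (u : Op X) : Op.pull (Proj.refl X) u = u := by
  obtain ⟨u, rfl⟩ := op_surj u
  rw [Op.pull_op, K.pull_self]
theorem push_smul (h : Proj Y X) (u : Op X) (a : G Y) :
    push Y X (Op.pull h u • a) = u • push Y X a := by
  obtain ⟨u, rfl⟩ := op_surj u
  exact push_smulK h u a
lemma Op.eq_zero {u : Op X} (h : ∀ (Y : Spc) (p : Proj Y X) (a : G Y), Op.pull p u • a = 0) :
    u = 0 := by
  obtain ⟨u, rfl⟩ := op_surj u
  exact op_eq_zero.2 h
/-- an operator vanishes if it kills the structure sheaves of irreducible spaces over `X` -/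
theorem Op.eq_zero_of_irred {u : Op X}
    (h : ∀ (Y : Spc) (p : Proj Y X), Y.Irred → Op.pull p u • one Y = 0) : u = 0 := by
  refine Op.eq_zero fun Y p a => ?_
  have hP := G.dev (AddMonoidHom.ker (DistribSMul.toAddMonoidHom (G Y) (Op.pull p u)))
    fun W hW hi d hd => by
      change Op.pull p u • cl Y ((O W).shift d) = 0
      have h1 : cl Y ((O W).shift d) = sh Y d (push W Y (one W)) := by
        rw [push_eq_incl hW, one, incl_cl hW (red_O W).on, sh_cl hd ((red_O W).on.mono hW)]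
      rw [h1, ← lbK_smul hd, ← op_smul, smul_comm, ← push_smul hW.proj, Op.pull_pull, h W _ hi,
        map_zero, smul_zero]
  have : a ∈ AddMonoidHom.ker (DistribSMul.toAddMonoidHom (G Y) (Op.pull p u)) :=
    hP ▸ AddSubgroup.mem_top a
  exact this
/-- `O(d)` as an operator -/
def lb (X : Spc) (d : D) : Op X := op X (lbK X d)
lemma lb_zero : lb X 0 = 1 := map_one (op X)
lemma lb_add (d e : D) : lb X (d + e) = lb X d * lb X e := by rw [lb, lbK_add, map_mul]; rfl
lemma lb_mul_neg (d : D) : lb X d * lb X (-d) = 1 := by rw [← lb_add, add_neg_cancel, lb_zero]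
lemma lb_nsmul (n : ℕ) (d : D) : lb X (n • d) = lb X d ^ n := by
  induction n with
  | zero => rw [zero_smul, pow_zero, lb_zero]
  | succ n ih => rw [succ_nsmul, lb_add, ih, pow_succ]
lemma lb_sum {α : Type*} (s : Finset α) (d : α → D) :
    lb X (∑ i ∈ s, d i) = ∏ i ∈ s, lb X (d i) := by
  classical
  induction s using Finset.induction_on with
  | empty => rw [Finset.sum_empty, Finset.prod_empty, lb_zero]
  | insert a s ha ih => rw [Finset.sum_insert ha, Finset.prod_insert ha, lb_add, ih]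
lemma lb_smul {d : D} (hd : d ∈ DS X.B) (a : G X) : lb X d • a = sh X d a := lbK_smul hd a
lemma Op.pull_lb (h : Proj Y X) {d : D} (hd : d ∈ DS X.B) : Op.pull h (lb X d) = lb Y d := by
  rw [lb, Op.pull_op, K.pull_lbK h hd]; rfl
/-- Koszul relation of a block -/
theorem prod_one_sub_lb {b : ℕ} (hb : b ∈ X.B) (V : Finset Var) (hV : ∀ v ∈ V, v.1 = b)
    (h : ∀ x ∈ X.pts, ∀ v : Var, v.1 = b → x v ≠ 0 → v ∈ V) :
    ∏ v ∈ V, (1 - lb X (-vdeg v)) = 0 := by
  classical
  refine Op.eq_zero fun Y p a => ?_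
  have hd : ∀ v ∈ V, vdeg v ∈ DS X.B := fun v hv => vdeg_mem (by rw [hV v hv]; exact hb)
  have h1 : Op.pull p (∏ v ∈ V, (1 - lb X (-vdeg v))) =
      ∑ S ∈ V.powerset, (-1 : ℤ) ^ S.card • lb Y (-∑ v ∈ S, vdeg v) := by
    rw [map_prod, Finset.prod_congr rfl (g := fun v => 1 + -lb Y (-vdeg v)) fun v hv => by
      rw [map_sub, map_one, Op.pull_lb p (neg_mem (hd v hv)), sub_eq_add_neg],
      Finset.prod_one_add]
    refine Finset.sum_congr rfl fun S _ => ?_
    rw [Finset.prod_neg, ← Finset.sum_neg_distrib, lb_sum, zsmul_eq_mul]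
    simp
  rw [h1, Finset.sum_smul, ← koszul_block (p.sub hb) V hV (fun y hy v hv h0 =>
    h _ (p.map y hy) v hv (by rwa [restr, if_pos (by rw [hv]; exact hb)])) a]
  refine Finset.sum_congr rfl fun S hS => ?_
  rw [smul_assoc, lb_smul (neg_mem (sum_mem fun v hv =>
    DS_mono p.sub (hd v (Finset.mem_powerset.1 hS hv))))]
/-- on a `T`-trivial space `O(d)` is `t^(nwt d)` up to a nilpotent -/
theorem isNilpotent_lb_sub {w : ℕ → ℤ} (hw : X.TTriv w) {d : D} (hd : d ∈ DS X.B) :
    IsNilpotent (lb X d - lb X (nwt X.B w d • eT)) := by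
  classical
  let S : AddSubgroup D :=
    { carrier := {e | IsNilpotent (lb X e - 1)}
      zero_mem' := by simp [lb_zero]
      add_mem' := fun {a b} ha hb => by
        have : lb X (a + b) - 1 = lb X a * (lb X b - 1) + (lb X a - 1) := by rw [lb_add]; ring
        rw [Set.mem_ofPred_eq, this]
        exact (Commute.all _ _).isNilpotent_add ((Commute.all _ _).isNilpotent_mul_left hb) ha
      neg_mem' := fun {a} ha => by
        have : lb X (-a) - 1 = -lb X (-a) * (lb X a - 1) := by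
          have := lb_mul_neg (X := X) a
          linear_combination this
        rw [Set.mem_ofPred_eq, this]
        exact (Commute.all _ _).isNilpotent_mul_left ha }
  have h1 : ∀ b ∈ X.B, eB b + w b • eT ∈ S := by
    intro b hb
    obtain ⟨V, -, hV⟩ := X.fin
    have h2 := prod_one_sub_lb hb (V.filter fun v => v.1 = b ∧ v.2.2 = w b)
      (fun v hv => (Finset.mem_filter.1 hv).2.1) fun x hx v hv h0 => Finset.mem_filter.2
        ⟨by by_contra h; exact h0 (hV x hx v h), hv, by rw [hw x hx v h0, hv]⟩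
    rw [Finset.prod_congr rfl (g := fun _ => 1 - lb X (-(eB b + w b • eT))) fun v hv => by
      rw [vdeg, (Finset.mem_filter.1 hv).2.1, (Finset.mem_filter.1 hv).2.2],
      Finset.prod_const] at h2
    refine neg_mem_iff.1 ?_
    change IsNilpotent (_ - 1)
    rw [← neg_sub]
    exact IsNilpotent.neg ⟨_, h2⟩
  have h2 : d - nwt X.B w d • eT = ∑ b ∈ X.B, d (some b) • (eB b + w b • eT) := by
    ext i
    rw [Finsupp.finsetSum_apply]
    cases i with
    | none => simp [nwt, eB, eT, mul_comm]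
    | some c =>
      by_cases hc : c ∈ X.B
      · rw [Finset.sum_eq_single c]
        · simp [eB, eT]
        · intro b _ hb
          simp [eB, eT, hb]
        · exact fun h => (h hc).elim
      · rw [Finset.sum_eq_zero]
        · simp [eT, hd c hc]
        · intro b hb
          have : b ≠ c := fun h => hc (h ▸ hb)
          simp [eB, eT, this]
  have h3 : d - nwt X.B w d • eT ∈ S := by
    rw [h2]
    exact sum_mem fun b hb => zsmul_mem (h1 b hb) _
  have h4 : lb X d - lb X (nwt X.B w d • eT) =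
      lb X (nwt X.B w d • eT) * (lb X (d - nwt X.B w d • eT) - 1) := by
    rw [mul_sub, ← lb_add, add_sub_cancel, mul_one]
  rw [h4]
  exact (Commute.all _ _).isNilpotent_mul_left h3
/-- the coefficient ring `ℤ[t^±]` acts -/
def tHom (X : Spc) : LaurentPolynomial ℤ →+* Op X :=
  AddMonoidAlgebra.liftNCRingHom (Int.castRingHom _)
    { toFun := fun k => lb X (Multiplicative.toAdd k • eT)
      map_one' := by simp [lb_zero]
      map_mul' := by intro a b; simp [add_smul, lb_add] } fun _ _ => Commute.all _ _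
lemma tHom_T (k : ℤ) : tHom X (LaurentPolynomial.T k) = lb X (k • eT) := by
  rw [tHom, LaurentPolynomial.T, AddMonoidAlgebra.liftNCRingHom_single]
  simp
lemma laurent_ind {P : LaurentPolynomial ℤ → Prop} (h0 : P 0)
    (hT : ∀ k, P (LaurentPolynomial.T k)) (hneg : ∀ p, P p → P (-p))
    (hadd : ∀ p q, P p → P q → P (p + q)) (p : LaurentPolynomial ℤ) : P p := by
  refine LaurentPolynomial.induction_on' p hadd fun n a => ?_
  have h1 : LaurentPolynomial.C a * LaurentPolynomial.T n = a • LaurentPolynomial.T (R := ℤ) n := by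
    rw [zsmul_eq_mul]; simp
  rw [h1]
  induction a using Int.induction_on with
  | zero => rwa [zero_smul]
  | succ i ih => rw [add_smul, one_smul]; exact hadd _ _ (ih (by rw [zsmul_eq_mul]; simp)) (hT n)
  | pred i ih =>
    rw [sub_smul, one_smul, sub_eq_add_neg]
    exact hadd _ _ (ih (by rw [zsmul_eq_mul]; simp)) (hneg _ (hT n))
lemma Op.pull_tHom (h : Proj Y X) (p : LaurentPolynomial ℤ) :
    Op.pull h (tHom X p) = tHom Y p := by
  induction p using laurent_ind with
  | h0 => simp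
  | hT k => rw [tHom_T, tHom_T, Op.pull_lb h (zsmul_mem (eT_mem _) k)]
  | hneg p hp => rw [map_neg, map_neg, map_neg, hp]
  | hadd p q hp hq => rw [map_add, map_add, map_add, hp, hq]
lemma chiT_tHom_one (p : LaurentPolynomial ℤ) : chiT (tHom Spc.pt0 p • one _) = p := by
  induction p using laurent_ind with
  | h0 => simp
  | hT k => rw [tHom_T, lb_smul (zsmul_mem (eT_mem _) k), chiT_one]
  | hneg p hp => rw [map_neg, neg_smul, map_neg, hp]
  | hadd p q hp hq => rw [map_add, add_smul, map_add, hp, hq]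
lemma chiT_smul (p : LaurentPolynomial ℤ) (a : G Spc.pt0) :
    chiT (tHom Spc.pt0 p • a) = p * chiT a := by
  have h1 : a = tHom Spc.pt0 (chiT a) • one _ := chiT.injective (chiT_tHom_one _).symm
  conv_lhs => rw [h1, smul_smul, ← map_mul, chiT_tHom_one]
/-- equivariant Euler characteristic -/
def eul (X : Spc) : G X →+ LaurentPolynomial ℤ := chiT.toAddMonoidHom.comp (push X Spc.pt0)
lemma eul_apply (a : G X) : eul X a = chiT (push X Spc.pt0 a) := rfl
lemma eul_push (h : Proj Y X) (a : G Y) : eul X (push Y X a) = eul Y a := by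
  rw [eul_apply, eul_apply, push_push h (Spc.proj_pt0 X)]
lemma eul_tHom (p : LaurentPolynomial ℤ) (a : G X) : eul X (tHom X p • a) = p * eul X a := by
  rw [eul_apply, eul_apply, ← Op.pull_tHom (Spc.proj_pt0 X), push_smul, chiT_smul]
lemma Spc.pt0_isPt (w : ℕ → ℤ) : Spc.pt0.IsPt w := by
  refine ⟨fun x hx v hv => ?_, 0, by rw [Spc.pt0_pts]; rfl, fun y hy => ⟨0, fun v => ?_⟩⟩
  · rw [Spc.pt0_pts] at hx
    exact (hv (by rw [hx]; rfl)).elim
  · rw [Spc.pt0_pts] at hy
    rw [hy]; simp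
lemma Spc.IsPt.eul_one {P : Spc} {w : ℕ → ℤ} (h : P.IsPt w) : eul P (one P) = 1 := by
  have h1 := chiT_one 0
  rw [zero_smul, sh_zero] at h1
  rw [eul_apply, push_one_pt h (Spc.pt0_isPt w) (Spc.proj_pt0 P), h1, LaurentPolynomial.T_zero]

end Crest.Agent.N265
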