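import Crest.Agent.N265.K.Tan
import Crest.Agent.N265.G.Push
import Crest.Agent.N265.K.Act

-- ▼ part N265/K/Loc
section

/-! # Localisation at the products of `1 - t^k`: `Lh`, `Mh M`, `Oh X`, localised functionals -/

set_option autoImplicit false
noncomputable section

namespace Crest.Agent.N265
variable {X Y Z : Spc}

/-- `Λ = ℤ[t^±]` -/
abbrev La : Type := LaurentPolynomial ℤ
instance (X : Spc) : Algebra La (Op X) := (tHom X).toAlgebra
lemma algebraMap_La (p : La) : algebraMap La (Op X) p = tHom X p := rfl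
instance (X : Spc) : Module La (G X) := Module.compHom (G X) (tHom X)
lemma La_smul (p : La) (a : G X) : p • a = tHom X p • a := rfl
instance (X : Spc) : IsScalarTower La (Op X) (G X) :=
  ⟨fun p u a => by rw [Algebra.smul_def, mul_smul]; rfl⟩
/-- localised modules -/
abbrev Mh (M : Type*) [AddCommGroup M] [Module La M] := LocalizedModule Mov M
/-- localised coefficients -/
abbrev Lh : Type := Mh La
/-- the canonical map to the localisation -/
abbrev toMh (M : Type*) [AddCommGroup M] [Module La M] : M →ₗ[La] Mh M :=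
  LocalizedModule.mkLinearMap Mov M
/-- localised operators -/
abbrev Oh (X : Spc) : Type 1 := Localization (Algebra.algebraMapSubmonoid (Op X) Mov)
/-- the canonical map -/
abbrev oh (X : Spc) : Op X →+* Oh X := algebraMap (Op X) (Oh X)
/-- the canonical map, linear version -/
def ohL (X : Spc) : Op X →ₗ[La] Oh X := (IsScalarTower.toAlgHom La (Op X) (Oh X)).toLinearMap
instance (X : Spc) : IsLocalizedModule Mov (ohL X) :=
  isLocalizedModule_iff_isLocalization.2 inferInstance

variable {M : Type*} [AddCommGroup M] [Module La M]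
/-- localisation of a functional -/
def fhat (Φ : Op X →ₗ[La] M) : Oh X →ₗ[La] Mh M := IsLocalizedModule.map Mov (ohL X) (toMh M) Φ
lemma fhat_oh (Φ : Op X →ₗ[La] M) (u : Op X) : fhat Φ (oh X u) = toMh M (Φ u) :=
  IsLocalizedModule.map_apply Mov (ohL X) (toMh M) Φ u
/-- linear maps from `Oh X` to a localised module are determined on `Op X` -/
lemma Oh.lin_ext {φ ψ : Oh X →ₗ[La] Mh M} (h : ∀ u, φ (oh X u) = ψ (oh X u)) : φ = ψ :=
  IsLocalizedModule.linearMap_ext Mov (ohL X) (toMh M) (LinearMap.ext h)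
lemma Mh.smul_inj {p : La} (hp : p ∈ Mov) {a b : Mh M} (h : p • a = p • b) : a = b :=
  IsLocalizedModule.smul_injective (toMh M) ⟨p, hp⟩ h
lemma Oh.exists_den (z : Oh X) : ∃ p ∈ Mov, ∃ u : Op X, p • z = oh X u := by
  obtain ⟨⟨u, p⟩, h⟩ := IsLocalizedModule.surj Mov (ohL X) z
  exact ⟨p.1, p.2, u, h⟩
lemma isUnit_oh_tHom {p : La} (hp : p ∈ Mov) : IsUnit (oh X (tHom X p)) :=
  IsLocalization.map_units (Oh X) (⟨_, p, hp, rfl⟩ : Algebra.algebraMapSubmonoid (Op X) Mov)
lemma isUnit_oh_of_dvd {u : Op X} {p : La} (hp : p ∈ Mov) (h : u ∣ tHom X p) : IsUnit (oh X u) :=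
  isUnit_of_dvd_unit (map_dvd (oh X) h) (isUnit_oh_tHom hp)
/-- moving bundles have invertible Euler class -/
lemma isUnit_oh_eu {A : Bun X} {w : ℕ → ℤ} (hw : X.TTriv w)
    (hA : ∀ i, Bun.nwt X.B w (A.deg i) ≠ 0) : IsUnit (oh X (eu A)) := by
  obtain ⟨p, hp, h⟩ := eu_dvd hw hA
  exact isUnit_oh_of_dvd hp h
lemma Oh.smul_def (p : La) (z : Oh X) : p • z = oh X (tHom X p) * z := by
  rw [Algebra.smul_def, IsScalarTower.algebraMap_apply La (Op X) (Oh X)]; rfl

/-- pull-back of localised operators -/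
def Oh.pull (h : Proj Y X) : Oh X →+* Oh Y :=
  IsLocalization.map (M := Algebra.algebraMapSubmonoid (Op X) Mov)
    (T := Algebra.algebraMapSubmonoid (Op Y) Mov) (Oh Y) (Op.pull h) (by
      rintro _ ⟨p, hp, rfl⟩
      exact ⟨p, hp, (Op.pull_tHom h p).symm⟩)
lemma Oh.pull_oh (h : Proj Y X) (u : Op X) : Oh.pull h (oh X u) = oh Y (Op.pull h u) :=
  IsLocalization.map_eq _ _
lemma Oh.pull_smul (h : Proj Y X) (p : La) (z : Oh X) : Oh.pull h (p • z) = p • Oh.pull h z := by
  rw [Oh.smul_def, Oh.smul_def, map_mul, Oh.pull_oh, Op.pull_tHom]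
lemma Oh.pull_pull (h : Proj Z Y) (h' : Proj Y X) (z : Oh X) :
    Oh.pull h (Oh.pull h' z) = Oh.pull (h.trans h') z := by
  have : (Oh.pull h).comp (Oh.pull h') = Oh.pull (h.trans h') :=
    IsLocalization.ringHom_ext (Algebra.algebraMapSubmonoid (Op X) Mov) (RingHom.ext fun u => by
      change Oh.pull h (Oh.pull h' (oh X u)) = Oh.pull _ (oh X u)
      rw [Oh.pull_oh, Oh.pull_oh, Oh.pull_oh, Op.pull_pull])
  exact congrArg (fun f : Oh X →+* Oh Z => f z) this

/-- push-forward is `Λ`-linear -/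
def pushL (h : Proj Y X) : G Y →ₗ[La] G X where
  toFun := push Y X
  map_add' := map_add _
  map_smul' p a := by
    rw [La_smul, ← Op.pull_tHom h, push_smul]; rfl
/-- the Euler characteristic is `Λ`-linear -/
def eulL (X : Spc) : G X →ₗ[La] La where
  toFun := eul X
  map_add' := map_add _
  map_smul' p a := eul_tHom p a
/-- `u ↦ u • a` -/
def onG (a : G X) : Op X →ₗ[La] G X where
  toFun u := u • a
  map_add' u v := add_smul u v a
  map_smul' p u := smul_assoc p u a
/-- pull-back, linear version -/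
def Op.pullL (h : Proj Y X) : Op X →ₗ[La] Op Y where
  toFun := Op.pull h
  map_add' := map_add _
  map_smul' p u := by
    rw [Algebra.smul_def, map_mul, algebraMap_La, Op.pull_tHom]; rfl

/-- the numeric functional `u ↦ χ(X, u)` -/
def numF (X : Spc) : Op X →ₗ[La] La := eulL X ∘ₗ onG (one X)
lemma numF_apply (u : Op X) : numF X u = eul X (u • one X) := rfl
/-- the functional `u ↦ pr_{S*}(u ⊠ σ)` with values in `G S` (`S` in blocks disjoint from `X`) -/
def srfF (X S : Spc) (σ : Op (X.fib S)) : Op X →ₗ[La] G S :=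
  pushL (Spc.fib_snd X S) ∘ₗ onG (σ • one (X.fib S)) ∘ₗ Op.pullL (Spc.fib_fst X S)
lemma srfF_apply (S : Spc) (σ : Op (X.fib S)) (u : Op X) : srfF X S σ u =
    push (X.fib S) S (Op.pull (Spc.fib_fst X S) u • σ • one (X.fib S)) := rfl
/-- `λ ↦ λ • a`, localised -/
def vhat (a : M) : Lh →ₗ[La] Mh M :=
  IsLocalizedModule.map Mov (toMh La) (toMh M) (LinearMap.toSpanSingleton La M a)
lemma vhat_toMh (a : M) (p : La) : vhat a (toMh La p) = toMh M (p • a) :=
  IsLocalizedModule.map_apply Mov (toMh La) (toMh M) _ p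

/-- transfer principle: a relation between functionals on `Op` that is compatible with a
polynomial substitution passes to the localisations -/
lemma fhat_pull (h : Proj Y X) (Φ : Op Y →ₗ[La] M) (Ψ : Op X →ₗ[La] M) (c : Op Y) (c' : Op X)
    (H : ∀ u, Φ (Op.pull h u * c) = Ψ (u * c')) (z : Oh X) :
    fhat Φ (Oh.pull h z * oh Y c) = fhat Ψ (z * oh X c') := by
  obtain ⟨p, hp, u, hu⟩ := Oh.exists_den z
  refine Mh.smul_inj hp ?_
  rw [← map_smul, ← map_smul, ← smul_mul_assoc, ← smul_mul_assoc, ← Oh.pull_smul, hu, Oh.pull_oh,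
    ← map_mul, ← map_mul, fhat_oh, fhat_oh, H]

end Crest.Agent.N265
end
end

-- ▼ part N265/K/Box1
section

/-! # The external product `O_S ⊗_ℂ M` of a graded module with a structure sheaf -/

set_option autoImplicit false
noncomputable section
open MvPolynomial
open scoped TensorProduct

namespace Crest.Agent.N265.Bx
open GM
variable {S : Spc} {M N : GM}

/-- coordinate ring -/
abbrev A (S : Spc) : Type := R ⧸ S.I
/-- kill the variables inside the blocks `B` -/
def kc (B : Finset ℕ) : R →ₐ[ℂ] R := aeval fun v => if v.1 ∈ B then 0 else X v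
/-- split the variables -/
def sig (S : Spc) : R →ₐ[ℂ] A S ⊗[ℂ] R := aeval (S₁ := A S ⊗[ℂ] R) fun v : Var =>
  if v.1 ∈ S.B then Ideal.Quotient.mk S.I (X v) ⊗ₜ[ℂ] (1 : R) else (1 : A S) ⊗ₜ[ℂ] (X v : R)
/-- the carrier -/
def T (S : Spc) (M : GM) : Type := A S ⊗[ℂ] M.M
instance : AddCommGroup (T S M) := inferInstanceAs (AddCommGroup (A S ⊗[ℂ] M.M))
/-- the action of `A ⊗ R` -/
def rho (S : Spc) (M : GM) : A S ⊗[ℂ] R →ₐ[ℂ] Module.End ℂ (A S ⊗[ℂ] M.M) :=
  Algebra.TensorProduct.lift
    ((Module.End.rTensorAlgHom ℂ (A S) M.M).comp (Algebra.lmul ℂ (A S)))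
    ((Module.End.lTensorAlgHom ℂ M.M (A S)).comp (Algebra.lsmul ℂ ℂ M.M)) fun _ _ =>
      TensorProduct.ext' fun _ _ => rfl
lemma rho_tmul (a a' : A S) (r : R) (m : M.M) :
    rho S M (a ⊗ₜ r) (a' ⊗ₜ m) = (a * a') ⊗ₜ (r • m) := rfl
instance : Module R (T S M) :=
  Module.compHom (A S ⊗[ℂ] M.M) ((rho S M).comp (sig S)).toRingHom
/-- pure tensors -/
def tm (S : Spc) (a : R) (m : M.M) : T S M := (Ideal.Quotient.mk S.I a ⊗ₜ[ℂ] m : A S ⊗[ℂ] M.M)
lemma tm_add_left (a b : R) (m : M.M) : tm S (a + b) m = tm S a m + tm S b m := by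
  unfold tm; rw [map_add, TensorProduct.add_tmul]; rfl
lemma tm_add_right (a : R) (m n : M.M) : tm S a (m + n) = tm S a m + tm S a n :=
  TensorProduct.tmul_add _ _ _
lemma tm_zero (a : R) : tm S a (0 : M.M) = 0 := TensorProduct.tmul_zero _ _
lemma tm_of_mem {a : R} (h : a ∈ S.I) (m : M.M) : tm S a m = 0 := by
  unfold tm; rw [Ideal.Quotient.eq_zero_iff_mem.2 h, TensorProduct.zero_tmul]; rfl
lemma tm_sum_right {ι : Type*} (a : R) (s : Finset ι) (m : ι → M.M) :
    tm S a (∑ i ∈ s, m i) = ∑ i ∈ s, tm S a (m i) := TensorProduct.tmul_sum _ _ _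
lemma tm_sum_left {ι : Type*} (s : Finset ι) (a : ι → R) (m : M.M) :
    tm S (∑ i ∈ s, a i) m = ∑ i ∈ s, tm S (a i) m := by
  unfold tm; rw [map_sum]; exact TensorProduct.sum_tmul _ _ _
lemma T.ind {P : T S M → Prop} (h0 : P 0) (h1 : ∀ a m, P (tm S a m))
    (h2 : ∀ s t, P s → P t → P (s + t)) (t : T S M) : P t := by
  induction t using TensorProduct.induction_on with
  | zero => exact h0
  | tmul a m => obtain ⟨a, rfl⟩ := Ideal.Quotient.mk_surjective a; exact h1 a m
  | add s t hs ht => exact h2 s t hs ht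
lemma sub_kill_mem (S : Spc) (r : R) : kill S.B r - r ∈ S.I := fun x hx => by
  rw [map_sub, eval_kill, S.restr_eq hx, sub_self]
/-- induction over homogeneous pure tensors -/
lemma T.ind_h {P : T S M → Prop} (h0 : P 0)
    (h1 : ∀ d ∈ DS S.B, ∀ e a m, Hmg d a → m ∈ M.gr e → P (tm S a m))
    (h2 : ∀ s t, P s → P t → P (s + t)) (t : T S M) : P t := by
  refine T.ind h0 (fun a m => ?_) h2 t
  obtain ⟨s, hs, -⟩ := exists_sum_hc a
  obtain ⟨s', hs', -⟩ := M.exists_sum_cp m
  rw [← hs, tm_sum_left]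
  refine Finset.sum_induction _ P h2 h0 fun d _ => ?_
  by_cases hd : d ∈ DS S.B
  · rw [← hs', tm_sum_right]
    exact Finset.sum_induction _ P h2 h0 fun e _ => h1 d hd e _ _ (hc_hmg d a) (M.cp_mem e m)
  · rw [tm_of_mem]
    · exact h0
    · have := sub_kill_mem S (hc d a)
      rw [(hc_hmg d a).kill_eq_zero hd, zero_sub] at this
      exact neg_mem_iff.1 this

lemma X_smul_in {v : Var} (hv : v.1 ∈ S.B) (a : R) (m : M.M) :
    (X v : R) • tm S a m = tm S (X v * a) m := by
  change rho S M (sig S (X v)) (_ ⊗ₜ _) = _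
  rw [sig, aeval_X, if_pos hv, rho_tmul, one_smul, ← map_mul]; rfl
lemma X_smul_out {v : Var} (hv : v.1 ∉ S.B) (a : R) (m : M.M) :
    (X v : R) • tm S a m = tm S a ((X v : R) • m) := by
  change rho S M (sig S (X v)) (_ ⊗ₜ _) = _
  rw [sig, aeval_X, if_neg hv, rho_tmul, one_mul]; rfl
lemma C_smul_right (c : ℂ) (a : R) (m : M.M) :
    (C c : R) • tm S a m = tm S a ((C c : R) • m) := by
  change rho S M (sig S (algebraMap ℂ R c)) (_ ⊗ₜ _) = _
  rw [AlgHom.commutes, AlgHom.commutes, Module.algebraMap_end_apply, ← TensorProduct.tmul_smul]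
  rfl
lemma C_smul_left (c : ℂ) (a : R) (m : M.M) : (C c : R) • tm S a m = tm S (C c * a) m := by
  change rho S M (sig S (algebraMap ℂ R c)) (_ ⊗ₜ _) = _
  rw [AlgHom.commutes, AlgHom.commutes, Module.algebraMap_end_apply, TensorProduct.smul_tmul',
    ← smul_eq_C_mul]
  rfl
lemma kill_smul_tm (r a : R) (m : M.M) : kill S.B r • tm S a m = tm S (kill S.B r * a) m := by
  induction r using MvPolynomial.induction_on generalizing a with
  | C c => simpa [kill] using C_smul_left c a m
  | add p q hp hq => rw [map_add, add_smul, hp, hq, add_mul, tm_add_left]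
  | mul_X p v hp =>
    rw [map_mul, mul_smul]
    by_cases hv : v.1 ∈ S.B
    · rw [show kill S.B (X v) = X v by simp [kill, hv], X_smul_in hv, hp, mul_assoc]
    · rw [show kill S.B (X v) = 0 by simp [kill, hv]]; simp [tm_of_mem (zero_mem _)]
lemma kill_smul_tm' (r a : R) (m : M.M) : kill S.B r • tm S a m = tm S (r * a) m := by
  rw [kill_smul_tm, ← sub_add_cancel (kill S.B r) r, add_mul, tm_add_left,
    tm_of_mem (Ideal.mul_mem_right _ _ (sub_kill_mem S r)), zero_add]
/-- polynomials in variables outside `S` act on the module -/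
lemma aeval_smul_tm (f : Var → R) (hf : ∀ v, f v = 0 ∨ (f v = X v ∧ v.1 ∉ S.B)) (r a : R)
    (m : M.M) : aeval f r • tm S a m = tm S a (aeval f r • m) := by
  induction r using MvPolynomial.induction_on generalizing m with
  | C c => simpa using C_smul_right c a m
  | add p q hp hq => rw [map_add, add_smul, hp, hq, add_smul, tm_add_right]
  | mul_X p v hp =>
    rw [map_mul, mul_smul, mul_smul, aeval_X]
    rcases hf v with h | ⟨h, hv⟩
    · simp [h, tm_zero]
    · rw [h, X_smul_out hv, hp]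
lemma kc_smul_tm (r a : R) (m : M.M) : kc S.B r • tm S a m = tm S a (kc S.B r • m) :=
  aeval_smul_tm _ (fun v => by by_cases h : v.1 ∈ S.B <;> simp [h]) r a m
lemma kill_smul_out {B : Finset ℕ} (hB : Disjoint B S.B) (r a : R) (m : M.M) :
    kill B r • tm S a m = tm S a (kill B r • m) :=
  aeval_smul_tm _ (fun v => by
    by_cases h : v.1 ∈ B
    · simp [h, Finset.disjoint_left.1 hB h]
    · simp [h]) r a m

/-- it suffices to check semilinearity on constants, variables and pure tensors -/
lemma smul_ind {R' P : Type} [Ring R'] [AddCommGroup P] [Module R' P] (F : T S M →+ P)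
    (θ : R →+* R')
    (hC : ∀ c a m, F ((C c : R) • tm S a m) = θ (C c) • F (tm S a m))
    (hX : ∀ v a m, F ((X v : R) • tm S a m) = θ (X v) • F (tm S a m)) (r : R) (t : T S M) :
    F (r • t) = θ r • F t := by
  have key : ∀ r : R, (∀ a m, F (r • tm S a m) = θ r • F (tm S a m)) →
      ∀ t, F (r • t) = θ r • F t := fun r h t => by
    induction t using T.ind with
    | h0 => simp
    | h1 a m => exact h a m
    | h2 s t hs ht => rw [smul_add, map_add, map_add, smul_add, hs, ht]
  induction r using MvPolynomial.induction_on generalizing t with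
  | C c => exact key _ (hC c) t
  | add p q hp hq => rw [add_smul, map_add, map_add, add_smul, hp, hq]
  | mul_X p v hp => rw [mul_smul, hp, key _ (hX v), map_mul, mul_smul]

/-- `1 ⊗ f` for a `ℂ`-linear map -/
def lt (S : Spc) (f : M.M →ₗ[ℂ] N.M) : T S M →+ T S N := (f.lTensor (A S)).toAddMonoidHom
lemma lt_tm (f : M.M →ₗ[ℂ] N.M) (a : R) (m : M.M) : lt S f (tm S a m) = tm S a (f m) := rfl
/-- functoriality -/
def bmap (S : Spc) (f : M.M →ₗ[R] N.M) : T S M →ₗ[R] T S N where
  toFun := lt S (f.restrictScalars ℂ)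
  map_add' := map_add _
  map_smul' := smul_ind _ (RingHom.id R)
    (fun c a m => by simp only [C_smul_right, lt_tm, RingHom.id_apply]; simp)
    (fun v a m => by
      by_cases hv : v.1 ∈ S.B
      · simp only [X_smul_in hv, lt_tm, RingHom.id_apply]
      · simp only [X_smul_out hv, lt_tm, RingHom.id_apply]; simp)
lemma bmap_tm (f : M.M →ₗ[R] N.M) (a : R) (m : M.M) : bmap S f (tm S a m) = tm S a (f m) := rfl

/-- a jointly injective family stays jointly injective after tensoring -/
lemma eq_zero_of_lTensor {U V : Type} [AddCommGroup U] [Module ℂ U] [AddCommGroup V] [Module ℂ V]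
    {ι : Type} {W : ι → Type} [∀ i, AddCommGroup (W i)] [∀ i, Module ℂ (W i)]
    (φ : ∀ i, V →ₗ[ℂ] W i) (hφ : ∀ v, (∀ i, φ i v = 0) → v = 0) (t : U ⊗[ℂ] V)
    (h : ∀ i, (φ i).lTensor U t = 0) : t = 0 := by
  let b := Module.Free.chooseBasis ℂ U
  obtain ⟨c, rfl⟩ := TensorProduct.eq_repr_basis_left b t
  have : c = 0 := Finsupp.ext fun k => hφ _ fun i => by
    have h1 := TensorProduct.sum_tmul_basis_left_eq_zero b (c.mapRange (φ i) (map_zero _)) (by
      rw [Finsupp.sum_mapRange_index (by simp), ← h i, map_finsuppSum]; rfl)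
    simpa using DFunLike.congr_fun h1 k
  simp [this]

/-- the grading on the coordinate ring -/
def gA (S : Spc) : A S →ₐ[ℂ] A S := Ideal.quotientMapₐ S.I gamA fun _ h => S.gam_mem_I h
/-- the grading on a module, as a `ℂ`-linear map -/
def gC (M : GM) : M.M →ₗ[ℂ] M.M where
  toFun := M.g
  map_add' := map_add _
  map_smul' c m := by simp [c_smul]
/-- the grading on the external product -/
def gT (S : Spc) (M : GM) : T S M →+ T S M :=
  (TensorProduct.map (gA S).toLinearMap (gC M)).toAddMonoidHom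
lemma gT_tm (a : R) (m : M.M) : gT S M (tm S a m) = tm S (gam a) (M.g m) := rfl
lemma gT_hmg {d e : D} {a : R} {m : M.M} (ha : Hmg d a) (hm : m ∈ M.gr e) :
    gT S M (tm S a m) = (C (chi (d + e)) : R) • tm S a m := by
  rw [gT_tm, ha, mem_gr.1 hm, ← C_smul_left, ← C_smul_right, chi_add, map_mul, mul_smul]

lemma noeth_of_fin {P : Type} [AddCommGroup P] [Module R P] [Module.Finite R P] (V : Finset Var)
    (hV : ∀ v ∉ V, ∀ m : P, (X v : R) • m = 0) : IsNoetherian R P := by
  have hJ : Module.IsTorsionBySet R P (Module.annihilator R P) :=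
    Module.isTorsionBySet_annihilator R P
  have := noeth_quot (Module.annihilator R P) V fun v hv => Module.mem_annihilator.2 (hV v hv)
  let _ := hJ.module
  have : RingHomSurjective (Ideal.Quotient.mk (Module.annihilator R P)) :=
    ⟨Ideal.Quotient.mk_surjective⟩
  have : Module.Finite (R ⧸ Module.annihilator R P) P :=
    Module.Finite.of_surjective hJ.semilinearMap Function.surjective_id
  exact (LinearMap.isNoetherian_iff_of_bijective hJ.semilinearMap Function.bijective_id).2
    inferInstance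

/-- the variables of `S` act by zero on `M` -/
def Av (S : Spc) (M : GM) : Prop := ∀ v : Var, v.1 ∈ S.B → ∀ m : M.M, (X v : R) • m = 0
lemma Av.kc_smul (h : Av S M) (r : R) (m : M.M) : kc S.B r • m = r • m := by
  induction r using MvPolynomial.induction_on generalizing m with
  | C c => simp [kc]
  | add p q hp hq => rw [map_add, add_smul, add_smul, hp, hq]
  | mul_X p v hp =>
    rw [map_mul, mul_smul, mul_smul, hp]
    by_cases hv : v.1 ∈ S.B
    · simp [kc, hv, h v hv]
    · simp [kc, hv]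
lemma av_of_degIn {B : Finset ℕ} (h : M.DegIn B) (hB : Disjoint B S.B) : Av S M :=
  fun _ hv m => h.X_smul (Finset.disjoint_right.1 hB hv) m
lemma Av.of_inj {f : M.M →ₗ[R] N.M} (hf : Function.Injective f) (h : Av S N) : Av S M :=
  fun v hv m => hf (by rw [map_smul, h v hv, map_zero])
lemma Av.of_surj {f : M.M →ₗ[R] N.M} (hf : Function.Surjective f) (h : Av S M) : Av S N :=
  fun v hv m => by obtain ⟨m, rfl⟩ := hf m; rw [← map_smul, h v hv, map_zero]
lemma Av.tm_smul (h : Av S M) (r a : R) (m : M.M) : tm S a (r • m) = kc S.B r • tm S a m := by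
  rw [kc_smul_tm, h.kc_smul]

lemma exists_V (S : Spc) (M : GM) : ∃ V : Finset Var, ∀ v ∉ V, ∀ t : T S M, (X v : R) • t = 0 := by
  classical
  obtain ⟨V, hV⟩ := M.fin
  obtain ⟨W, -, hW⟩ := S.exists_V
  refine ⟨V ∪ W, fun v hv t => ?_⟩
  rw [Finset.mem_union, not_or] at hv
  induction t using T.ind with
  | h0 => exact smul_zero _
  | h1 a m =>
    by_cases h : v.1 ∈ S.B
    · rw [X_smul_in h, tm_of_mem (Ideal.mul_mem_right _ _ (hW v hv.2))]
    · rw [X_smul_out h, hV v hv.1, tm_zero]
  | h2 s t hs ht => rw [smul_add, hs, ht, add_zero]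

lemma Av.finite (h : Av S M) : Module.Finite R (T S M) := by
  classical
  obtain ⟨s, hs⟩ := (inferInstance : Module.Finite R M.M).fg_top
  refine ⟨s.image (tm S 1), eq_top_iff.2 fun t ht => ?_⟩
  clear ht
  induction t using T.ind with
  | h0 => exact zero_mem _
  | h2 s t hs ht => exact add_mem hs ht
  | h1 a m =>
    have hm : m ∈ Submodule.span R (s : Set M.M) := hs ▸ Submodule.mem_top
    induction hm using Submodule.span_induction with
    | mem m hm =>
      rw [← mul_one a, ← kill_smul_tm']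
      exact Submodule.smul_mem _ _ (Submodule.subset_span (by simpa using ⟨m, hm, rfl⟩))
    | zero => rw [tm_zero]; exact zero_mem _
    | add m n _ _ hm hn => rw [tm_add_right]; exact add_mem hm hn
    | smul r m _ hm => rw [h.tm_smul]; exact Submodule.smul_mem _ _ hm

/-- the external product -/
def bx (S : Spc) (M : GM) (h : Av S M) : GM where
  M := T S M
  noeth := by
    have := h.finite
    obtain ⟨V, hV⟩ := exists_V S M
    exact noeth_of_fin V hV
  fin := exists_V S M
  g := { toFun := gT S M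
         map_add' := map_add _
         map_smul' := smul_ind _ gam
          (fun c a m => by simp only [C_smul_right, gT_tm, gam_C, LinearMap.map_smulₛₗ])
          (fun v a m => by
            by_cases hv : v.1 ∈ S.B
            · simp only [X_smul_in hv, gT_tm, map_mul, gam_X, mul_smul, C_smul_left, mul_assoc]
            · simp only [X_smul_out hv, gT_tm, gam_X, mul_smul, C_smul_right,
                LinearMap.map_smulₛₗ]) }
  diag := fun t => by
    induction t using T.ind_h with
    | h0 => exact zero_mem _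
    | h1 d _ e a m ha hm => exact AddSubgroup.subset_closure ⟨d + e, gT_hmg ha hm⟩
    | h2 s t hs ht => exact add_mem hs ht

lemma tm_mem_gr (h : Av S M) {d e : D} {a : R} {m : M.M} (ha : Hmg d a) (hm : m ∈ M.gr e) :
    (tm S a m : (bx S M h).M) ∈ (bx S M h).gr (d + e) := gT_hmg ha hm
lemma deg0_bmap (h : Av S M) (h' : Av S N) {f : M.M →ₗ[R] N.M} (hf : Deg0 f) :
    Deg0 (M := bx S M h) (N := bx S N h') (bmap S f) := by
  intro t
  change bmap S f (gT S M t) = gT S N (bmap S f t)
  induction t using T.ind with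
  | h0 => simp
  | h1 a m => rw [gT_tm, bmap_tm, bmap_tm, gT_tm, hf]
  | h2 s t hs ht => simp only [map_add, hs, ht]
lemma bmap_inj {f : M.M →ₗ[R] N.M} (hf : Function.Injective f) :
    Function.Injective (bmap S f) :=
  Module.Flat.lTensor_preserves_injective_linearMap (M := A S) (f.restrictScalars ℂ) hf
lemma ses_bx {M₁ M₂ M₃ : GM} (h : SES M₁ M₂ M₃) (h₁ h₂ h₃) :
    SES (bx S M₁ h₁) (bx S M₂ h₂) (bx S M₃ h₃) := by
  obtain ⟨f, p, hf, hp, hi, he, hs⟩ := h
  exact ⟨bmap S f, bmap S p, deg0_bmap h₁ h₂ hf, deg0_bmap h₂ h₃ hp, bmap_inj hi,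
    Module.Flat.lTensor_exact (A S) (f := f.restrictScalars ℂ) (g := p.restrictScalars ℂ) he,
    LinearMap.lTensor_surjective (A S) (g := p.restrictScalars ℂ) hs⟩

lemma ext_g (M : GM) (g' fin' diag') (h : g' = M.g) :
    (@GM.mk M.M M.acg M.mod M.noeth fin' g' diag') = M := by subst h; rfl
lemma bx_shift (h : Av S M) (d : D) : bx S (M.shift d) h = (bx S M h).shift d := by
  refine ext_g ((bx S M h).shift d) (bx S (M.shift d) h).g (bx S (M.shift d) h).fin
    (bx S (M.shift d) h).diag (LinearMap.ext fun t => ?_)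
  change gT S (M.shift d) t = (C (chi (-d)) : R) • gT S M t
  induction t using T.ind (M := M) with
  | h0 => exact (map_zero _).trans (by rw [map_zero, smul_zero]; rfl)
  | h1 a m => exact (C_smul_right (M := M) _ _ _).symm
  | h2 s t hs ht => exact (map_add _ _ _).trans (by rw [hs, ht, map_add, smul_add]; rfl)

variable {X : Spc}
lemma degIn_bx {B : Finset ℕ} (hM : M.DegIn B) (h) : (bx S M h).DegIn (B ∪ S.B) := by
  have key : ∀ t : T S M, (t : (bx S M h).M) ∈ pieceSub (B ∪ S.B) (bx S M h) := fun t => by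
    induction t using T.ind_h with
    | h0 => exact zero_mem _
    | h2 s t hs ht => exact add_mem hs ht
    | h1 d hd e a m ha hm =>
      by_cases he : e ∈ DS B
      · exact AddSubgroup.subset_closure ⟨_, add_mem (DS_mono Finset.subset_union_right hd)
          (DS_mono Finset.subset_union_left he), tm_mem_gr h ha hm⟩
      · rw [hM e he, Submodule.mem_bot] at hm
        rw [hm, tm_zero]; exact zero_mem _
  exact fun d hd => eq_bot_iff.2 fun t ht =>
    ((bx S M h).cp_of_mem ht).symm.trans (mem_pieceSub.1 (key t) d hd)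
lemma smul_eq_zero_of {r : R} (h : ∀ a m, r • tm S a m = (0 : T S M)) (t : T S M) :
    r • t = 0 := by
  induction t using T.ind with
  | h0 => exact smul_zero _
  | h1 a m => exact h a m
  | h2 s t hs ht => rw [smul_add, hs, ht, add_zero]
lemma kill_bx (hX : Disjoint X.B S.B) (hM : M.DegIn X.B) (h) {z : Pt}
    (hz : M.Kill (restr X.B z)) : (bx S M h).Kill z := by
  obtain ⟨r, hr, hk⟩ := hz
  exact ⟨kill X.B r, by rwa [eval_kill], smul_eq_zero_of fun a m => by
    rw [kill_smul_out hX, hM.kill_smul, hk, tm_zero]⟩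
lemma on_bx (hX : Disjoint X.B S.B) (hM : M.On X) (h) : (bx S M h).On (X.fib S) := by
  refine ⟨degIn_bx hM.deg h, fun z hz hn => ?_⟩
  by_cases h1 : restr X.B z ∈ X.pts
  swap
  · exact kill_bx hX hM.deg h (hM.supp _ ((rel_restr subset_rfl).2
      fun b hb => hz b (Finset.mem_union_left _ hb)) h1)
  by_cases h2 : restr S.B z ∈ S.pts
  swap
  · obtain ⟨r, hr, hr'⟩ := Spc.exists_notMem ((rel_restr subset_rfl).2
      fun b hb => hz b (Finset.mem_union_right _ hb)) h2
    exact ⟨kill S.B r, by rwa [eval_kill], smul_eq_zero_of fun a m => by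
      rw [kill_smul_tm', tm_of_mem (Ideal.mul_mem_right _ _ hr)]⟩
  have : ∃ v, z v ≠ 0 ∧ v.1 ∉ X.B ∪ S.B := by
    by_contra h3
    push Not at h3
    exact hn ⟨h1, h2, h3⟩
  obtain ⟨v, hv, hv'⟩ := this
  rw [Finset.mem_union, not_or] at hv'
  exact ⟨MvPolynomial.X v, by simpa using hv, smul_eq_zero_of fun a m => by
    rw [X_smul_out hv'.2, hM.deg.X_smul hv'.1, tm_zero]⟩
lemma irr_bx (hX : Disjoint X.B S.B) (hM : M.On X) (hi : M.Irr X) (h) :
    (bx S M h).Irr (X.fib S) := fun _ hz => kill_bx hX hM.deg h (hi _ hz.1)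

end Crest.Agent.N265.Bx
end
end

-- ▼ part N265/K/Box2
section

/-! # The external product: structure sheaves, action of bundles, pieces -/

set_option autoImplicit false
noncomputable section
open MvPolynomial
open scoped TensorProduct

namespace Crest.Agent.N265.Bx
open GM
variable {S X : Spc} {M N : GM}

/-- evaluation on the coordinate ring -/
def evA (S : Spc) (y : S.pts) : A S →ₐ[ℂ] ℂ :=
  Ideal.Quotient.liftₐ S.I (aeval y.1) fun _ h => h y.1 y.2
/-- evaluation on the structure sheaf -/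
def evO (X : Spc) (x : X.pts) : (O X).M →ₗ[ℂ] ℂ where
  toFun := evA X x
  map_add' := map_add (evA X x)
  map_smul' c m := by
    refine (map_mul (evA X x) (algebraMap ℂ (A X) c) m).trans ?_
    rw [AlgHom.commutes]; rfl
/-- evaluation on the external product -/
def ev (y : S.pts) (x : X.pts) : T S (O X) →+ ℂ :=
  ((evA S y).toLinearMap ∘ₗ (TensorProduct.rid ℂ (A S)).toLinearMap ∘ₗ
    (evO X x).lTensor (A S)).toAddMonoidHom
/-- the class of a polynomial -/
def mkO (X : Spc) (b : R) : (O X).M := Ideal.Quotient.mk X.I b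
lemma mkO_smul (r b : R) : r • mkO X b = mkO X (r * b) := rfl
lemma mkO_surj (m : (O X).M) : ∃ b, mkO X b = m := Ideal.Quotient.mk_surjective m
lemma ev_tm (y : S.pts) (x : X.pts) (a b : R) :
    ev y x (tm S a (mkO X b)) = eval x.1 b * eval y.1 a := by
  change evA S y (eval x.1 b • Ideal.Quotient.mk S.I a) = _
  rw [map_smul]; rfl
lemma eq_zero_of_ev {t : T S (O X)} (h : ∀ y x, ev y x t = 0) : t = 0 := by
  refine eq_zero_of_lTensor (fun x : X.pts => evO X x) (fun m hm => ?_) t fun x => ?_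
  · obtain ⟨b, rfl⟩ := mkO_surj m
    exact Ideal.Quotient.eq_zero_iff_mem.2 fun x hx => hm ⟨x, hx⟩
  · refine (TensorProduct.rid ℂ (A S)).map_eq_zero_iff.1 ?_
    obtain ⟨a, ha⟩ := Ideal.Quotient.mk_surjective
      (TensorProduct.rid ℂ (A S) ((evO X x).lTensor (A S) t))
    rw [← ha]
    refine Ideal.Quotient.eq_zero_iff_mem.2 fun y hy => ?_
    exact (congrArg (evA S ⟨y, hy⟩) ha).trans (h ⟨y, hy⟩ x)
lemma ev_smul (hX : Disjoint X.B S.B) (y : S.pts) (x : X.pts) (r : R) (t : T S (O X)) :
    ev y x (r • t) = eval (x.1 + y.1) r * ev y x t := by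
  refine smul_ind (ev y x) (eval (x.1 + y.1)) (fun c a m => ?_) (fun v a m => ?_) r t
  · obtain ⟨b, rfl⟩ := mkO_surj m
    rw [C_smul_left, ev_tm, ev_tm]; simp; ring
  · obtain ⟨b, rfl⟩ := mkO_surj m
    by_cases hv : v.1 ∈ S.B
    · have : x.1 v = 0 := by
        by_contra h
        exact Finset.disjoint_left.1 hX (X.mem_B x.2 h) hv
      rw [X_smul_in hv, ev_tm, ev_tm]; simp [this]; ring
    · have : y.1 v = 0 := by
        by_contra h
        exact hv (S.mem_B y.2 h)
      rw [X_smul_out hv, mkO_smul, ev_tm, ev_tm]; simp [this]; ring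
lemma fib_eq_add (hX : Disjoint X.B S.B) {z : Pt} (hz : z ∈ (X.fib S).pts) :
    restr X.B z + restr S.B z = z := by
  funext v
  by_cases h1 : v.1 ∈ X.B
  · simp [restr, h1, Finset.disjoint_left.1 hX h1]
  · by_cases h2 : v.1 ∈ S.B
    · simp [restr, h1, h2]
    · have : z v = 0 := by
        by_contra h
        exact (Finset.mem_union.1 (hz.2.2 v h)).elim h1 h2
      simp [restr, h1, h2, this]
lemma smul_one_eq_zero (hX : Disjoint X.B S.B) (r : R) :
    r • tm S 1 (mkO X 1) = 0 ↔ r ∈ (X.fib S).I := by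
  constructor
  · intro h z hz
    have := ev_smul hX ⟨_, hz.2.1⟩ ⟨_, hz.1⟩ r (tm S 1 (mkO X 1))
    rw [h, ev_tm, map_zero] at this
    simpa [fib_eq_add hX hz] using this.symm
  · intro h
    refine eq_zero_of_ev fun y x => ?_
    rw [ev_smul hX, h _ (Spc.add_mem_fib hX x.2 y.2).1, zero_mul]

lemma red_bx (hX : Disjoint X.B S.B) (hM : M.Red X) (h) : (bx S M h).Red (X.fib S) := by
  refine ⟨degIn_bx hM.deg h, fun r hr => smul_eq_zero_of fun a m => ?_⟩
  let f : (O X).M →ₗ[R] M.M :=
    Submodule.liftQ X.I (LinearMap.toSpanSingleton R M.M m) fun s hs => hM.ann s hs m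
  have : tm S a m = bmap S f (kill S.B a • tm S 1 (mkO X 1)) := by
    rw [kill_smul_tm', mul_one, bmap_tm]
    exact congrArg _ (one_smul R m).symm
  rw [this, ← map_smul, smul_comm, (smul_one_eq_zero hX r).2 hr, smul_zero, map_zero]

lemma cl_bx_O (hX : Disjoint X.B S.B) (h) (W : Spc) :
    cl W (bx S (O X) h) = cl W (O (X.fib S)) := by
  let φ : (O (X.fib S)).M →ₗ[R] (bx S (O X) h).M :=
    Submodule.liftQ (X.fib S).I (LinearMap.toSpanSingleton R (T S (O X)) (tm S 1 (mkO X 1)))
      fun s hs => (smul_one_eq_zero hX s).2 hs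
  have hφ : ∀ r, φ (mkO _ r) = r • tm S 1 (mkO X 1) := fun _ => rfl
  refine (cl_iso (LinearEquiv.ofBijective φ ⟨(injective_iff_map_eq_zero φ).2 fun m hm => ?_,
    fun t => ?_⟩) fun m => ?_).symm
  · obtain ⟨r, rfl⟩ := mkO_surj m
    exact Ideal.Quotient.eq_zero_iff_mem.2 ((smul_one_eq_zero hX r).1 hm)
  · induction t using T.ind with
    | h0 => exact ⟨0, map_zero φ⟩
    | h1 a m =>
      obtain ⟨b, rfl⟩ := mkO_surj m
      refine ⟨mkO _ (kill S.B a * kc S.B b), (hφ _).trans ?_⟩
      rw [mul_smul, ← h.tm_smul, kill_smul_tm', mkO_smul, mul_one, mul_one]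
    | h2 s t hs ht =>
      obtain ⟨a, rfl⟩ := hs
      obtain ⟨b, rfl⟩ := ht
      exact ⟨a + b, map_add φ a b⟩
  · obtain ⟨r, rfl⟩ := mkO_surj m
    have e : (bx S (O X) h).g (tm S 1 (mkO X 1)) = tm S 1 (mkO X 1) := by
      change tm S (gam 1) (mkO X (gam 1)) = _
      rw [map_one]
    exact (congrArg (fun t => gam r • t) e.symm).trans
      ((bx S (O X) h).g.map_smulₛₗ r (tm S 1 (mkO X 1))).symm

/-! ### the action of bundles -/

/-- the comparison map `O_S ⊗ (A ⊗ M) → ⊕ O_S ⊗ M` -/
def jA (S : Spc) (E : Bun X) (M : GM) (h : Av S M) :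
    T S (E.act M) →ₗ[R] (pw E.deg (bx S M h)).M :=
  LinearMap.pi fun i => bmap S (M := E.act M) (N := M)
    ((LinearMap.proj i : (E.ι → M.M) →ₗ[R] M.M) ∘ₗ (E.actSub M).subtype)
lemma jA_inj (E : Bun X) (h : Av S M) : Function.Injective (jA S E M h) := by
  refine (injective_iff_map_eq_zero _).2 fun t ht => ?_
  exact eq_zero_of_lTensor (V := (E.act M).M) (W := fun _ : E.ι => M.M)
    (fun i => (((LinearMap.proj i : (E.ι → M.M) →ₗ[R] M.M) ∘ₗ (E.actSub M).subtype :
      (E.act M).M →ₗ[R] M.M)).restrictScalars ℂ)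
    (fun v hv => Subtype.ext (funext hv)) t fun i => congrFun ht i
lemma deg0_jA (E : Bun X) (h : Av S M) (h') :
    Deg0 (M := bx S (E.act M) h') (N := pw E.deg (bx S M h)) (jA S E M h) := by
  intro t
  induction t using T.ind with
  | h0 => exact (congrArg _ (map_zero _)).trans ((map_zero _).trans
      ((congrArg _ (map_zero _)).trans (map_zero _)).symm)
  | h1 a u => exact funext fun i => (C_smul_right (M := M) _ _ _).symm
  | h2 s t hs ht =>
    exact (congrArg _ (map_add _ _ _)).trans ((map_add _ _ _).trans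
      ((congrArg₂ _ hs ht).trans ((congrArg _ (map_add _ _ _)).trans (map_add _ _ _)).symm))

lemma cl_bx_act (hX : Disjoint X.B S.B) (E : Bun X) (hM : M.Red X) (h h') :
    cl (X.fib S) (bx S (E.act M) h') =
      cl (X.fib S) ((E.pull (Spc.fib_fst X S)).act (bx S M h)) := by
  have hr := red_bx hX hM h
  set E' := E.pull (Spc.fib_fst X S) with hE'
  let j : (bx S (E.act M) h').M →ₗ[R] (pw E'.deg (bx S M h)).M := jA S E M h
  have hj : Deg0 j := deg0_jA E h h'
  have hst := hj.stab_comap (E'.stab_actSub (bx S M h))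
  have hW : (bx S (E.act M) h').On (X.fib S) := (red_bx hX (E.red_act hM) h').on
  have loc : ∀ z ∈ (X.fib S).pts, ∃ r : R, eval z r ≠ 0 ∧
      (∀ t, r • j t ∈ E'.actSub (bx S M h)) ∧ ∀ w ∈ E'.actSub (bx S M h), ∃ t, j t = r • w := by
    intro z hz
    obtain ⟨r, P, hr0, hP⟩ := E.alg _ hz.1
    have hP1 : ∀ (Y : Spc) (F : Bun Y) (K : GM), K.Red Y → ∀ (s : R) (Q : Matrix F.ι F.ι R),
        (∀ y ∈ Y.pts, ∀ v ∈ F.L y, mev y Q v = eval y s • v) →
        ∀ u ∈ F.actSub K, ∀ k, ∑ i, Q k i • (u : F.ι → K.M) i = s • (u : F.ι → K.M) k := by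
      intro Y F K hK s Q hQ u hu k
      have := congrFun (F.mat_act_eq_zero hK F.deg (Q + (-s) • (1 : Matrix F.ι F.ι R))
        (fun y hy v hv => by
          rw [B0.mev_add, B0.mev_smul, B0.mev_one, hQ y hy v hv]; simp) hu) k
      change ∑ i, (Q + (-s) • (1 : Matrix F.ι F.ι R)) k i • (u : F.ι → K.M) i = 0 at this
      simp only [Matrix.add_apply, add_smul, Finset.sum_add_distrib, Matrix.smul_apply,
        Matrix.one_apply, smul_eq_mul, mul_ite, mul_one, mul_zero, ite_smul, zero_smul,
        Finset.sum_ite_eq, Finset.mem_univ, if_true] at this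
      rw [neg_smul] at this
      exact add_neg_eq_zero.1 this
    have hP' : ∀ y ∈ (X.fib S).pts, (∀ v, mev y (P.map (kill X.B)) v ∈ E'.L y) ∧
        ∀ v ∈ E'.L y, mev y (P.map (kill X.B)) v = eval y (kill X.B r) • v := fun y hy => by
      rw [B0.mev_kill, eval_kill]; exact hP _ hy.1
    refine ⟨kill X.B r, by rwa [eval_kill], fun t => ?_, fun w hw => ?_⟩
    · have : kill X.B r • j t = mat E'.deg E'.deg (P.map (kill X.B)) (bx S M h) (j t) := by
        induction t using T.ind with
        | h0 => erw [map_zero j]; simp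
        | h2 s t hs ht => erw [map_add j]; rw [smul_add, map_add, hs, ht]
        | h1 a u =>
          funext k
          change kill X.B r • tm S a ((u.1 : E.ι → M.M) k) =
            ∑ i, kill X.B (P k i) • tm S a ((u.1 : E.ι → M.M) i)
          simp only [kill_smul_out hX, hM.deg.kill_smul]
          rw [← tm_sum_right]
          exact congrArg _ (hP1 X E M hM r P (fun y hy => (hP y hy).2) u.1 u.2 k).symm
      rw [this]
      exact E'.mat_mem_act hr _ _ (fun y hy => (hP' y hy).1) _
    · have key : ∀ (i : E.ι) (τ : T S M), ∃ t, ∀ k,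
          (j t : E.ι → T S M) k = kill X.B (P k i) • τ := by
        intro i τ
        induction τ using T.ind with
        | h0 => exact ⟨0, fun k => by rw [map_zero, smul_zero]; rfl⟩
        | h2 s t hs ht =>
          obtain ⟨a, ha⟩ := hs
          obtain ⟨b, hb⟩ := ht
          exact ⟨a + b, fun k => by rw [map_add, smul_add, ← ha, ← hb]; rfl⟩
        | h1 a m =>
          refine ⟨tm S (M := E.act M) a ⟨_, E.mat_mem_act hM E.deg P (fun y hy => (hP y hy).1)
            (Pi.single i m : E.ι → M.M)⟩, fun k => ?_⟩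
          rw [kill_smul_out hX, hM.deg.kill_smul]
          refine congrArg (tm S a) ?_
          change ∑ l, P k l • (Pi.single i m : E.ι → M.M) l = _
          simp [Pi.single_apply]
      choose τ hτ using key
      refine ⟨∑ i, τ i ((w : E.ι → T S M) i), funext fun k => ?_⟩
      rw [map_sum]
      refine (Finset.sum_apply k _ _).trans ?_
      exact (Finset.sum_congr rfl fun i _ => hτ i _ k).trans
        (hP1 _ E' _ hr _ _ (fun y hy => (hP' y hy).2) w hw k)
  have e1 := cl_locIso (X := X.fib S) _ (deg0_subtype hst) (hW.sub hst) hW fun z hz => by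
    obtain ⟨r, h0, h1, -⟩ := loc z hz
    refine ⟨r, h0, fun a ha => ?_, fun b => ⟨⟨r • b, ?_⟩, rfl⟩⟩
    · rw [show a = 0 from Subtype.ext ha, smul_zero]
    · rw [Submodule.mem_comap, map_smul]; exact h1 b
  have e2 := cl_locIso (X := X.fib S) (A := (bx S (E.act M) h').sub _ hst) (B := E'.act (bx S M h))
    (j.restrict fun _ h => h) (fun m => Subtype.ext (hj m.1)) (hW.sub hst) (E'.red_act hr).on
    fun z hz => by
      obtain ⟨r, h0, -, h2⟩ := loc z hz
      refine ⟨r, h0, fun a ha => ?_, fun b => ?_⟩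
      · rw [show a = 0 from Subtype.ext (jA_inj E h
          ((congrArg Subtype.val ha).trans (map_zero j).symm)), smul_zero]
      · obtain ⟨t, ht⟩ := h2 b.1 b.2
        exact ⟨⟨t, by rw [Submodule.mem_comap, ht]; exact Submodule.smul_mem _ _ b.2⟩,
          Subtype.ext ht⟩
  rw [← e1, e2]

/-! ### pieces -/

/-- the inclusion of a piece -/
def valL (B : Finset ℕ) (N : GM) : (piece B N).M →ₗ[ℂ] N.M where
  toFun := PieceT.val
  map_add' _ _ := rfl
  map_smul' c m := by
    change kill B (C c) • PieceT.val m = (C c : R) • PieceT.val m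
    simp [kill]
lemma lt_val_mem (B : Finset ℕ) (h : Av S N) (t : T S (piece B N)) :
    (lt S (valL B N) t : (bx S N h).M) ∈ pieceSub (B ∪ S.B) (bx S N h) := by
  induction t using T.ind_h with
  | h0 => rw [map_zero]; exact zero_mem _
  | h2 s t hs ht => rw [map_add]; exact add_mem hs ht
  | h1 d hd e a m ha hm =>
    by_cases he : e ∈ DS B
    · exact AddSubgroup.subset_closure ⟨_, add_mem (DS_mono Finset.subset_union_right hd)
        (DS_mono Finset.subset_union_left he), tm_mem_gr h ha (piece_gr.1 hm)⟩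
    · rw [degIn_piece B N e he, Submodule.mem_bot] at hm
      rw [hm, tm_zero, map_zero]; exact zero_mem _
lemma cl_bx_piece {B B' : Finset ℕ} (hN : N.DegIn B') (hB : Disjoint B' S.B) (h h') (W : Spc) :
    cl W (bx S (piece B N) h') = cl W (piece (B ∪ S.B) (bx S N h)) := by
  let ψ : (bx S (piece B N) h').M →ₗ[R] (piece (B ∪ S.B) (bx S N h)).M :=
    { toFun := fun t => (⟨_, lt_val_mem B h t⟩ : pieceSub _ _)
      map_add' := fun s t => PieceT.ext (map_add (lt S (valL B N)) s t)
      map_smul' := fun r t => PieceT.ext (smul_ind (lt S (valL B N)) (kill (B ∪ S.B)).toRingHom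
        (fun c a m => by
          rw [C_smul_left, lt_tm, lt_tm, ← C_smul_left]; simp [kill])
        (fun v a m => by
          by_cases hv : v.1 ∈ S.B
          · rw [X_smul_in hv, lt_tm, lt_tm, ← X_smul_in hv]; simp [kill, hv]
          · rw [X_smul_out hv, lt_tm, lt_tm]
            change tm S a (kill B (MvPolynomial.X v) • PieceT.val m) = _
            by_cases hv' : v.1 ∈ B
            · simp [kill, hv', X_smul_out hv]; rfl
            · simp [kill, hv, hv', tm_zero]) r t) }
  refine cl_iso (LinearEquiv.ofBijective ψ ⟨fun s t e => ?_, fun w => ?_⟩) fun t => PieceT.ext ?_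
  · exact Module.Flat.lTensor_preserves_injective_linearMap (M := A S) (valL B N)
      (fun _ _ => PieceT.ext) (congrArg PieceT.val e)
  · have key : ∀ t : T S N, ∃ t' : T S (piece B N), ∀ d ∈ DS (B ∪ S.B),
        (bx S N h).cp d (lt S (valL B N) t') = (bx S N h).cp d t := by
      intro t
      induction t using T.ind_h with
      | h0 => exact ⟨0, fun d _ => by rw [map_zero]⟩
      | h2 s t hs ht =>
        obtain ⟨s', hs⟩ := hs
        obtain ⟨t', ht⟩ := ht
        refine ⟨s' + t', fun d hd => ?_⟩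
        rw [map_add]
        exact (map_add _ _ _).trans (((congrArg₂ _ (hs d hd) (ht d hd))).trans
          (map_add _ _ _).symm)
      | h1 d hd e a m ha hm =>
        by_cases he : e ∈ DS B
        · exact ⟨tm S (M := piece B N) a
            (⟨m, AddSubgroup.subset_closure ⟨e, he, hm⟩⟩ : pieceSub B N), fun _ _ => rfl⟩
        refine ⟨0, fun c hc => ?_⟩
        rw [map_zero]
        refine (map_zero _).trans (Eq.symm ?_)
        by_cases he' : e ∈ DS B'
        · refine (bx S N h).cp_of_mem_ne (tm_mem_gr h ha hm) fun e' => he fun b hb => ?_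
          by_cases hb' : b ∈ S.B
          · exact he' b (Finset.disjoint_right.1 hB hb')
          · have := hc b (by simp [hb, hb'])
            rwa [e', Finsupp.add_apply, hd b hb', zero_add] at this
        · rw [hN e he', Submodule.mem_bot] at hm
          rw [hm, tm_zero]; exact map_zero _
    obtain ⟨t, ht⟩ := key (PieceT.val w)
    refine ⟨t, PieceT.ext (eq_of_cp fun d => ?_)⟩
    by_cases hd : d ∈ DS (B ∪ S.B)
    · exact ht d hd
    · exact (mem_pieceSub.1 (lt_val_mem B h t) d hd).trans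
        (mem_pieceSub.1 (Subtype.property w) d hd).symm
  · change lt S (valL B N) (gT S _ t) = gT S N (lt S (valL B N) t)
    induction t using T.ind with
    | h0 => simp
    | h1 a m => rfl
    | h2 s t hs ht => simp only [map_add, hs, ht]

end Crest.Agent.N265.Bx
end
end

-- ▼ part N265/K/Box

/-! # Task K9: external product with a structure sheaf; specialisation at a point of a factor -/

set_option autoImplicit false
noncomputable section
open MvPolynomial

namespace Crest.Agent.N265
variable {X Y S : Spc}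

lemma Proj.fib_map (p : Proj Y X) (S : Spc) : Proj (Y.fib S) (X.fib S) :=
  Spc.fib_lift ((Spc.fib_fst Y S).trans p) (Spc.fib_snd Y S)

namespace Bx
open GM
lemma exists_box0 (hX : Disjoint X.B S.B) : ∃ Φ : G X →+ G (X.fib S),
    ∀ (M : GM) (_ : M.On X) (h), Φ (cl X M) = cl _ (bx S M h) := by
  classical
  obtain ⟨Φ, hΦ⟩ := G.exists_lift (X := X)
    (fun M => if h : Av S M then cl (X.fib S) (bx S M h) else 0) (fun A B C hs hB => by
      have h2 := av_of_degIn hB.deg hX
      obtain ⟨h1, h3⟩ : Av S A ∧ Av S C := by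
        obtain ⟨f, p, -, -, hi, -, hs⟩ := hs
        exact ⟨h2.of_inj hi, h2.of_surj hs⟩
      simp only [dif_pos h1, dif_pos h2, dif_pos h3]
      exact cl_ses (ses_bx hs h1 h2 h3) (on_bx hX hB h2)) fun A hA hi => by
      simp only [dif_pos (av_of_degIn hA.deg hX)]
      exact cl_irr (irr_bx hX hA hi _)
  exact ⟨Φ, fun M hM h => (hΦ M hM).trans (dif_pos h)⟩
open Classical in
/-- the external product on `G` -/
def box0 (X S : Spc) : G X →+ G (X.fib S) :=
  if h : Disjoint X.B S.B then (exists_box0 h).choose else 0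
lemma box0_cl (hX : Disjoint X.B S.B) {M : GM} (hM : M.On X) (h) :
    box0 X S (cl X M) = cl _ (bx S M h) := by
  rw [box0, dif_pos hX]; exact (exists_box0 hX).choose_spec M hM h
lemma box0_smulK (hX : Disjoint X.B S.B) (u : K X) (a : G X) :
    box0 X S (u • a) = K.pull (Spc.fib_fst X S) u • box0 X S a := by
  induction u using K.ind with
  | h0 => simp
  | hneg u h => rw [neg_smul, map_neg, h, map_neg, neg_smul]
  | hadd u v h h' => rw [add_smul, map_add, h, h', map_add, add_smul]
  | hkl A =>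
    induction a using G.ind_red with
    | h0 => simp
    | hneg a h => rw [smul_neg, map_neg, h, map_neg, smul_neg]
    | hadd a b h h' => rw [smul_add, map_add, h, h', map_add, smul_add]
    | hcl M hM =>
      have h := av_of_degIn hM.deg hX
      rw [kl_smul A hM, box0_cl hX (A.red_act hM).on (av_of_degIn (A.red_act hM).deg hX),
        box0_cl hX hM.on h, K.pull_kl, kl_smul _ (red_bx hX hM h), cl_bx_act hX A hM h]
lemma box0_sh (hX : Disjoint X.B S.B) {d : D} (hd : d ∈ DS X.B) (a : G X) :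
    box0 X S (sh X d a) = sh _ d (box0 X S a) := by
  rw [← lbK_smul hd, box0_smulK hX, K.pull_lbK _ hd,
    lbK_smul (DS_mono (Spc.fib_fst X S).sub hd)]
lemma push_box0 (p : Proj Y X) (hY : Disjoint Y.B S.B) (a : G Y) :
    push (Y.fib S) (X.fib S) (box0 Y S a) = box0 X S (push Y X a) := by
  have hX : Disjoint X.B S.B := hY.mono_left p.sub
  have := G.ext_big p (AddMonoidHom.eqLocus ((push (Y.fib S) (X.fib S)).comp (box0 Y S))
    ((box0 X S).comp (push Y X))) (fun k a ha => ?_) fun M hM => ?_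
  · exact (this.ge (AddSubgroup.mem_top a) :)
  · have hk : ∀ B, k • eT ∈ DS B := fun B => zsmul_mem (eT_mem B) k
    change push _ _ (box0 Y S _) = box0 X S (push Y X _) at ha ⊢
    rw [box0_sh hY (hk _), push_sh (p.fib_map S) (hk _), ha, push_sh p (hk _), box0_sh hX (hk _)]
  · have h := av_of_degIn hM.deg hY
    obtain ⟨k, hk⟩ := (isPush p).big M hM.on
    obtain ⟨k', hk'⟩ := (isPush (p.fib_map S)).big _ (on_bx hY hM.on h)
    refine ⟨max k k', fun d hd => ?_⟩
    have hd' : d ∈ DS Y.B := fun b hb => hd.2.1 b (Or.inr hb)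
    have hr : (piece X.B (M.shift d)).Red X := Red.piece p hM.ann
    change push _ _ (box0 Y S _) = box0 X S (push Y X _)
    rw [box0_cl hY (hM.on.shift hd') h, hk d ⟨hd.1, hd.2.1, fun b h1 h2 =>
      (le_max_left _ _).trans (hd.2.2 b h1 h2)⟩, box0_cl hX hr.on (av_of_degIn hr.deg hX),
      cl_bx_piece (hM.deg.shift hd') hY h, bx_shift h]
    refine hk' d ⟨hd.1, fun b hb => hd.2.1 b ?_, fun b h1 h2 => ?_⟩
    · change b ∈ X.B ∪ S.B ∨ b ∉ Y.B ∪ S.B at hb
      simp only [Finset.mem_union, not_or] at hb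
      rcases hb with (hb | hb) | hb
      exacts [Or.inl hb, Or.inr (Finset.disjoint_right.1 hY hb), Or.inr hb.1]
    · change b ∈ Y.B ∪ S.B at h1
      change b ∉ X.B ∪ S.B at h2
      simp only [Finset.mem_union, not_or] at h1 h2
      exact (le_max_right _ _).trans (hd.2.2 b (h1.resolve_right h2.2) h2.1)
lemma pt0_fib (S : Spc) : Spc.pt0.fib S = S := by
  refine Spc.ext (Finset.empty_union _) (Set.ext fun z => ⟨fun hz => ?_, fun hz => ?_⟩)
  · have : restr S.B z = z := by
      funext v
      by_cases hv : v.1 ∈ S.B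
      · simp [restr, hv]
      · have : z v = 0 := by
          by_contra h
          exact hv (by simpa [Spc.pt0, Spc.full] using hz.2.2 v h)
        simp [restr, hv, this]
    exact this ▸ hz.2.1
  · exact ⟨(Spc.proj_pt0 S).map z hz, (S.restr_eq hz).symm ▸ hz,
      fun v hv => Finset.mem_union_right _ (S.mem_B hz hv)⟩
end Bx

/-- `M ↦ M ⊗_ℂ O_S` (variables of the blocks of `S` act on the right factor) -/
theorem exists_box (S : Spc) : ∃ Φ : ∀ X : Spc, G X →+ G (X.fib S),
    (∀ X : Spc, Disjoint X.B S.B → Φ X (one X) = one (X.fib S)) ∧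
    (∀ X : Spc, Disjoint X.B S.B → ∀ (u : Op X) (a : G X),
      Φ X (u • a) = Op.pull (Spc.fib_fst X S) u • Φ X a) ∧
    ∀ (X Y : Spc), Proj Y X → Disjoint Y.B S.B → ∀ a : G Y,
      push (Y.fib S) (X.fib S) (Φ Y a) = Φ X (push Y X a) :=
  ⟨fun X => Bx.box0 X S, fun X h => (Bx.box0_cl h (GM.red_O X).on
      (Bx.av_of_degIn (GM.red_O X).deg h)).trans (Bx.cl_bx_O h _ _),
    fun X h u a => by obtain ⟨u, rfl⟩ := op_surj u; exact Bx.box0_smulK h u a,
    fun _ _ p h a => Bx.push_box0 p h a⟩
/-- external product with `O_S` -/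
def box (X S : Spc) : G X →+ G (X.fib S) := (exists_box S).choose X
lemma box_one (h : Disjoint X.B S.B) : box X S (one X) = one (X.fib S) :=
  (exists_box S).choose_spec.1 X h
lemma box_smul (h : Disjoint X.B S.B) (u : Op X) (a : G X) :
    box X S (u • a) = Op.pull (Spc.fib_fst X S) u • box X S a :=
  (exists_box S).choose_spec.2.1 X h u a
lemma push_box (p : Proj Y X) (h : Disjoint Y.B S.B) (a : G Y) :
    push (Y.fib S) (X.fib S) (box Y S a) = box X S (push Y X a) :=
  (exists_box S).choose_spec.2.2 X Y p h a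
/-- Künneth -/
theorem push_box_snd (h : Disjoint X.B S.B) (a : G X) :
    push (X.fib S) S (box X S a) = eul X a • one S := by
  have h0 : Disjoint Spc.pt0.B S.B := Finset.disjoint_empty_left _
  have e : push X Spc.pt0 a = tHom _ (eul X a) • one Spc.pt0 := chiT.injective (by
    have := chiT_one 0
    rw [zero_smul, sh_zero] at this
    rw [chiT_smul, this]; exact (mul_one _).symm)
  have key : ∀ W : Spc, W = S → push W S (one W) = one S := by rintro W rfl; exact push_self _
  rw [← push_push ((Spc.proj_pt0 X).fib_map S) (Spc.fib_snd _ S), push_box (Spc.proj_pt0 X) h, e,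
    box_smul h0, box_one h0, Op.pull_tHom, ← Op.pull_tHom (Spc.fib_snd _ S), push_smul,
    key _ (Bx.pt0_fib S), La_smul]

/-- substitute the point `p` for the variables of the blocks outside `B` -/
def spec (B : Finset ℕ) (p : Pt) : R →ₐ[ℂ] R := aeval fun v => if v.1 ∈ B then MvPolynomial.X v else C (p v)
lemma eval_spec (B : Finset ℕ) (p x : Pt) (r : R) :
    eval x (spec B p r) = eval (fun v => if v.1 ∈ B then x v else p v) r := by
  induction r using MvPolynomial.induction_on with
  | C c => simp [spec]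
  | add p q hp hq => simp [hp, hq]
  | mul_X q v hq =>
    rw [map_mul, map_mul, map_mul, hq]
    by_cases h : v.1 ∈ B <;> simp [spec, h]
namespace Bx
/-- the torus element acting like `gpt` on the blocks `B` only -/
def torB (B : Finset ℕ) : Tor where
  toFun d := Units.mk0 (chi (dpr B d.toAdd)) (chi_ne _)
  map_one' := Units.ext (by simp)
  map_mul' a b := Units.ext (by simp [chi_add])
lemma torB_apply (B : Finset ℕ) (d : D) :
    (torB B (Multiplicative.ofAdd d) : ℂ) = chi (dpr B d) := rfl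
lemma tpt_torB {B : Finset ℕ} {p : Pt} (hp : ∀ v, p v ≠ 0 → v.2.2 = 0) (x : Pt) :
    tpt (torB B) (fun v => if v.1 ∈ B then x v else p v) =
      fun v => if v.1 ∈ B then gpt x v else p v := by
  funext v
  rw [tpt, torB_apply]
  by_cases hv : v.1 ∈ B
  · rw [if_pos hv, if_pos hv, dpr_of_mem (vdeg_mem hv), gpt]
  · rw [if_neg hv, if_neg hv]
    by_cases h0 : p v = 0
    · simp [h0]
    · have : dpr B (vdeg v) = 0 := by
        ext i
        rw [dpr_apply, vdeg, hp v h0, zero_smul, add_zero, eB, Finsupp.single_apply]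
        split_ifs with h1 h2
        · exact absurd (h1 _ h2.symm) hv
        · rfl
        · rfl
      rw [this, chi_zero, one_mul]
lemma hmg_spec {B : Finset ℕ} {p : Pt} (hp : ∀ v, p v ≠ 0 → v.2.2 = 0) {d : D} {r : R}
    (h : Hmg d r) : Hmg (dpr B d) (spec B p r) := MvPolynomial.funext fun x => by
  rw [eval_gam, eval_spec, ← tpt_torB hp, h.eval_tpt, torB_apply, map_mul, eval_C, eval_spec]
lemma mix_eq (h : Disjoint X.B S.B) {x p : Pt} (hx : x ∈ X.pts) (hp : p ∈ S.pts) :
    (fun v => if v.1 ∈ X.B then x v else p v) = x + p := by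
  funext v
  split_ifs with hv
  · have : p v = 0 := by
      by_contra h0
      exact Finset.disjoint_left.1 h hv (S.mem_B hp h0)
    simp [this]
  · have : x v = 0 := by
      by_contra h0
      exact hv (X.mem_B hx h0)
    simp [this]
lemma mev_spec (h : Disjoint X.B S.B) {x p : Pt} (hx : x ∈ X.pts) (hp : p ∈ S.pts) {ι κ : Type}
    [Fintype ι] (Φ : Matrix κ ι R) : mev x (Φ.map (spec X.B p)) = mev (x + p) Φ := by
  ext v j; simp [mev_apply, eval_spec, mix_eq h hx hp]
lemma mem_tpt_iff {W : Spc} (A : Bun W) (c : Tor) {z : Pt} (hz : z ∈ W.pts) (v : A.ι → ℂ) :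
    v ∈ A.L z ↔ (fun i => (c (Multiplicative.ofAdd (A.deg i)) : ℂ) * v i) ∈ A.L (tpt c z) := by
  refine ⟨A.alg.gen.tpt A.eqv c hz, fun h => ?_⟩
  have := A.alg.gen.tpt A.eqv c⁻¹ (W.tpt_mem c hz) h
  convert this using 2
  · funext u; simp [tpt]
  · simp
end Bx
/-- a bundle on `X × S` restricted to `X × {p}`, as a bundle on `X` -/
def Bun.atPt (A : Bun (X.fib S)) (h : Disjoint X.B S.B) (hS : S.TTriv fun _ => 0) (p : Pt)
    (hp : p ∈ S.pts) : Bun X where
  ι := A.ι
  deg := fun i => dpr X.B (A.deg i)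
  hdeg := fun _ => dpr_mem _ _
  L := fun x => A.L (x + p)
  eqv := fun x hx v => by
    have := Bx.mem_tpt_iff A (Bx.torB X.B) (Spc.add_mem_fib h hx hp).1 v
    rwa [← Bx.mix_eq h hx hp, Bx.tpt_torB (hS p hp), Bx.mix_eq h hx hp,
      Bx.mix_eq h (X.inv x hx) hp] at this
  alg := fun x hx => by
    obtain ⟨r, P, hr, hP⟩ := A.alg _ (Spc.add_mem_fib h hx hp).1
    refine ⟨spec X.B p r, P.map (spec X.B p), by rwa [eval_spec, Bx.mix_eq h hx hp],
      fun y hy => ?_⟩
    rw [Bx.mev_spec h hy hp, eval_spec, Bx.mix_eq h hy hp]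
    exact hP _ (Spc.add_mem_fib h hy hp).1
lemma dpr_dpr {B B' : Finset ℕ} (h : B ⊆ B') (d : D) : dpr B (dpr B' d) = dpr B d := by
  ext i
  rw [dpr_apply, dpr_apply, dpr_apply]
  split_ifs with h1 h2
  · rfl
  · exact absurd (fun b e => h (h1 b e)) h2
  · rfl
theorem K.exists_atPt (h : Disjoint X.B S.B) (hS : S.TTriv fun _ => 0) (p : Pt) (hp : p ∈ S.pts) :
    ∃ Φ : K (X.fib S) →+* K X, ∀ A : Bun (X.fib S), Φ A.kl = (A.atPt h hS p hp).kl := by
  obtain ⟨Φ, hΦ⟩ := K.exists_lift (fun A : Bun (X.fib S) => (A.atPt h hS p hp).kl) (by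
    rintro A B C ⟨f, q, hf, hq, H⟩
    refine kl_ses ⟨f.map (spec X.B p), q.map (spec X.B p), fun j i => ?_, fun j i => ?_,
      fun x hx => ?_⟩
    · exact (map_sub (dpr X.B) _ _) ▸ Bx.hmg_spec (hS p hp) (hf j i)
    · exact (map_sub (dpr X.B) _ _) ▸ Bx.hmg_spec (hS p hp) (hq j i)
    · have := H _ (Spc.add_mem_fib h hx hp).1
      rw [← Bx.mev_spec h hx hp, ← Bx.mev_spec h hx hp] at this
      exact this)
  refine ⟨{ Φ with map_one' := ?_, map_mul' := K3.map_mul_of Φ fun A B => ?_ }, hΦ⟩
  · exact (hΦ _).trans (K3.kl_reindex (Equiv.refl _)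
      (fun _ => (dpr_dpr Finset.subset_union_left _).symm) fun _ _ _ => Iff.rfl)
  · rw [hΦ, hΦ, hΦ, ← kl_tens]
    exact K3.kl_reindex (Equiv.refl _) (fun _ => (map_add (dpr X.B) _ _).symm) fun _ _ _ => Iff.rfl
/-- restriction to `X × {p}` -/
def K.atPt (h : Disjoint X.B S.B) (hS : S.TTriv fun _ => 0) (p : Pt) (hp : p ∈ S.pts) :
    K (X.fib S) →+* K X := (K.exists_atPt h hS p hp).choose
lemma K.atPt_kl (h : Disjoint X.B S.B) (hS p hp) (A : Bun (X.fib S)) :
    K.atPt h hS p hp A.kl = (A.atPt h hS p hp).kl := (K.exists_atPt h hS p hp).choose_spec A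
lemma K.atPt_pull_fst (h : Disjoint X.B S.B) (hS p hp) (u : K X) :
    K.atPt h hS p hp (K.pull (Spc.fib_fst X S) u) = u := by
  have key : ∀ A : Bun X, K.atPt h hS p hp (K.pull (Spc.fib_fst X S) A.kl) = A.kl := fun A => by
    rw [K.pull_kl, K.atPt_kl]
    refine K3.kl_reindex (Equiv.refl _) (fun i => (dpr_of_mem (A.hdeg i)).symm) fun x hx v => ?_
    change v ∈ A.L (restr X.B (x + p)) ↔ _
    rw [(Spc.add_mem_fib h hx hp).2.1]; rfl
  obtain ⟨A, B, rfl⟩ := K.exists_sub u
  rw [map_sub, map_sub, key, key]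
lemma K.atPt_lbK (h : Disjoint X.B S.B) (hS p hp) (d : D) :
    K.atPt h hS p hp (lbK (X.fib S) d) = lbK X d :=
  (K.atPt_kl h hS p hp _).trans (K3.kl_reindex (Equiv.refl _)
    (fun _ => (dpr_dpr Finset.subset_union_left _).symm) fun _ _ _ => Iff.rfl)
lemma K.atPt_dual (h : Disjoint X.B S.B) (hS p hp) (u : K (X.fib S)) :
    K.atPt h hS p hp (K.dual _ u) = K.dual X (K.atPt h hS p hp u) := by
  have key : ∀ A : Bun (X.fib S), K.atPt h hS p hp (K.dual _ A.kl) =
      K.dual X (K.atPt h hS p hp A.kl) := fun A => by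
    rw [K.dual_kl, map_sub, K.atPt_kl, K.atPt_kl, K.atPt_kl, K.dual_kl]
    congr 1 <;> exact K3.kl_reindex (Equiv.refl _) (fun _ => (map_neg (dpr X.B) _).symm)
      fun _ _ _ => Iff.rfl
  obtain ⟨A, B, rfl⟩ := K.exists_sub u
  simp only [map_sub, key]
lemma K.atPt_pull (q : Proj Y X) (h : Disjoint X.B S.B) (h' : Disjoint Y.B S.B) (hS p hp)
    (u : K (X.fib S)) :
    K.atPt h' hS p hp (K.pull (q.fib_map S) u) = K.pull q (K.atPt h hS p hp u) := by
  have key : ∀ A : Bun (X.fib S), K.atPt h' hS p hp (K.pull (q.fib_map S) A.kl) =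
      K.pull q (K.atPt h hS p hp A.kl) := fun A => by
    rw [K.pull_kl, K.atPt_kl, K.atPt_kl, K.pull_kl]
    refine K3.kl_reindex (Equiv.refl _) (fun i => ?_) fun y hy v => ?_
    · change dpr X.B (A.deg i) = dpr Y.B (A.deg i)
      ext j
      rw [dpr_apply, dpr_apply]
      split_ifs with h1 h2 h2
      · rfl
      · exact absurd (fun b e => q.sub (h1 b e)) h2
      · push Not at h1
        obtain ⟨b, rfl, hb⟩ := h1
        refine (A.hdeg i b fun h3 => ?_).symm
        exact (Finset.mem_union.1 h3).elim hb (Finset.disjoint_left.1 h' (h2 b rfl))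
      · rfl
    · change v ∈ A.L (restr (X.B ∪ S.B) (y + p)) ↔ v ∈ A.L (restr X.B y + p)
      have : restr (X.B ∪ S.B) (y + p) = restr X.B y + p := by
        funext u
        by_cases h1 : u.1 ∈ X.B
        · simp [restr, h1]
        · by_cases h2 : u.1 ∈ S.B
          · have : y u = 0 := by
              by_contra h0
              exact Finset.disjoint_left.1 h' (Y.mem_B hy h0) h2
            simp [restr, h1, h2, this]
          · have : p u = 0 := by
              by_contra h0
              exact h2 (S.mem_B hp h0)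
            simp [restr, h1, h2, this]
      rw [this]
  obtain ⟨A, B, rfl⟩ := K.exists_sub u
  simp only [map_sub, key]
/-- classes pulled back from `S` specialise to their rank (weight zero case) -/
lemma K.atPt_pull_snd (h : Disjoint X.B S.B) (hS p hp) (A : Bun S) (hA : A.Pure (fun _ => 0) 0) :
    K.atPt h hS p hp (K.pull (Spc.fib_snd X S) A.kl) = Module.finrank ℂ (A.L p) := by
  rw [K.pull_kl, K.atPt_kl]
  have hd : ∀ i, dpr X.B (A.deg i) = 0 := fun i => by
    ext j
    rw [dpr_apply]
    split_ifs with h1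
    · rcases j with _ | b
      · simpa using hA i
      · exact A.hdeg i b (Finset.disjoint_left.1 h (h1 b rfl))
    · rfl
  let β := Module.finBasis ℂ (A.L p)
  let g : Matrix A.ι (Fin (Module.finrank ℂ (A.L p))) R :=
    (Matrix.of fun i j => (β j).1 i).map (C : ℂ → R)
  have hg : ∀ y v, mev y g v = (β.equivFun.symm v).1 := fun y v => by
    rw [B0.mev_C]
    funext i; simp [Matrix.mulVec, dotProduct, mul_comm]
  have e : (Bun.triv X (fun _ : Fin (Module.finrank ℂ (A.L p)) => 0) fun _ => zero_mem _).kl =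
      ((A.pull (Spc.fib_snd X S)).atPt h hS p hp).kl := by
    refine kl_iso g (fun i j => ?_) fun y hy => ⟨eq_bot_iff.2 fun v hv => ?_, ?_⟩
    · change Hmg (dpr X.B (A.deg i) - 0) (C _)
      erw [hd]; rw [sub_zero]; exact Hmg.C _
    · exact β.equivFun.symm.map_eq_zero_iff.1 (Subtype.ext ((hg y v).symm.trans hv.2))
    · change _ = A.L (restr S.B (y + p))
      rw [(Spc.add_mem_fib h hy hp).2.2]
      refine le_antisymm ?_ fun v hv => ⟨β.equivFun ⟨v, hv⟩, trivial, (hg _ _).trans ?_⟩
      · rintro _ ⟨v, -, rfl⟩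
        exact (hg y v).symm ▸ Subtype.mem _
      · rw [LinearEquiv.symm_apply_apply]
  rw [← e, kl_triv, ← K.one_def]
  simp

end Crest.Agent.N265
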