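import Mathlib
import Crest.Agent.N265.K.AlgDefs

-- ▼ part N265/K/Reg
section

/-!
# Row 265, layer K: `Near`, regular families of vectors and maps (task K-ALG1, part 1; helper82)
-/

set_option autoImplicit false

noncomputable section

namespace Crest.Agent.N265.Alg

open Module

variable {T : Type} {𝒜 : Subalgebra ℂ (T → ℂ)}
variable {V W U : Type} [AddCommGroup V] [Module ℂ V] [AddCommGroup W] [Module ℂ W]
  [AddCommGroup U] [Module ℂ U]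

/-! ### `Near` -/

namespace Near
variable {x₀ : T} {p q : T → Prop}

theorem of_forall (h : ∀ x, p x) : Near 𝒜 x₀ p :=
  ⟨1, one_mem _, one_ne_zero, fun x _ => h x⟩

theorem of_ne {f : T → ℂ} (hf : f ∈ 𝒜) (h0 : f x₀ ≠ 0) : Near 𝒜 x₀ fun x => f x ≠ 0 :=
  ⟨f, hf, h0, fun _ h => h⟩

theorem mono (h : Near 𝒜 x₀ p) (hpq : ∀ x, p x → q x) : Near 𝒜 x₀ q := by
  obtain ⟨f, hf, h0, h⟩ := h
  exact ⟨f, hf, h0, fun x hx => hpq x (h x hx)⟩

theorem self (h : Near 𝒜 x₀ p) : p x₀ := by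
  obtain ⟨f, -, h0, h⟩ := h
  exact h x₀ h0

theorem and (h : Near 𝒜 x₀ p) (h' : Near 𝒜 x₀ q) : Near 𝒜 x₀ fun x => p x ∧ q x := by
  obtain ⟨f, hf, h0, h⟩ := h
  obtain ⟨g, hg, g0, h'⟩ := h'
  exact ⟨f * g, mul_mem hf hg, mul_ne_zero h0 g0, fun x hx =>
    ⟨h x (left_ne_zero_of_mul hx), h' x (right_ne_zero_of_mul hx)⟩⟩

theorem mp (h : Near 𝒜 x₀ p) (h' : Near 𝒜 x₀ fun x => p x → q x) : Near 𝒜 x₀ q :=
  (h.and h').mono fun _ hx => hx.2 hx.1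


theorem finset {ι : Type*} (s : Finset ι) {p : ι → T → Prop} (h : ∀ i ∈ s, Near 𝒜 x₀ (p i)) :
    Near 𝒜 x₀ fun x => ∀ i ∈ s, p i x := by
  classical
  induction s using Finset.induction_on with
  | empty => exact of_forall (by simp)
  | insert a s _ ih =>
    refine ((h a (Finset.mem_insert_self _ _)).and
      (ih fun i hi => h i (Finset.mem_insert_of_mem hi))).mono fun x hx i hi => ?_
    rcases Finset.mem_insert.1 hi with rfl | hi
    exacts [hx.1, hx.2 i hi]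

theorem all {ι : Type*} [Finite ι] {p : ι → T → Prop} (h : ∀ i, Near 𝒜 x₀ (p i)) :
    Near 𝒜 x₀ fun x => ∀ i, p i x := by
  have := Fintype.ofFinite ι
  exact (finset Finset.univ fun i _ => h i).mono fun x hx i => hx i (Finset.mem_univ _)

theorem precomp {T' : Type} {𝒜' : Subalgebra ℂ (T' → ℂ)} (u : T' → T)
    (hu : ∀ f ∈ 𝒜, (fun y => f (u y)) ∈ 𝒜') {y₀ : T'} (h : Near 𝒜 (u y₀) p) :
    Near 𝒜' y₀ fun y => p (u y) := by
  obtain ⟨f, hf, h0, h⟩ := h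
  exact ⟨fun y => f (u y), hu f hf, h0, fun y hy => h _ hy⟩

end Near

/-! ### regular functions -/

theorem const_mem (c : ℂ) : (fun _ : T => c) ∈ 𝒜 := 𝒜.algebraMap_mem c

theorem fmul_mem {f g : T → ℂ} (hf : f ∈ 𝒜) (hg : g ∈ 𝒜) : (fun x => f x * g x) ∈ 𝒜 :=
  mul_mem hf hg

theorem fadd_mem {f g : T → ℂ} (hf : f ∈ 𝒜) (hg : g ∈ 𝒜) : (fun x => f x + g x) ∈ 𝒜 :=
  add_mem hf hg

theorem fsub_mem {f g : T → ℂ} (hf : f ∈ 𝒜) (hg : g ∈ 𝒜) : (fun x => f x - g x) ∈ 𝒜 :=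
  sub_mem hf hg


theorem fsum_mem {ι : Type*} (s : Finset ι) {f : ι → T → ℂ} (h : ∀ i ∈ s, f i ∈ 𝒜) :
    (fun x => ∑ i ∈ s, f i x) ∈ 𝒜 := by
  have := sum_mem h
  convert this using 1
  funext x; simp

theorem fprod_mem {ι : Type*} (s : Finset ι) {f : ι → T → ℂ} (h : ∀ i ∈ s, f i ∈ 𝒜) :
    (fun x => ∏ i ∈ s, f i x) ∈ 𝒜 := by
  have := prod_mem h
  convert this using 1
  funext x; simp

theorem det_mem {ι : Type*} [Fintype ι] [DecidableEq ι] {M : T → Matrix ι ι ℂ}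
    (h : ∀ i j, (fun x => M x i j) ∈ 𝒜) : (fun x => (M x).det) ∈ 𝒜 := by
  simp only [Matrix.det_apply']
  exact fsum_mem _ fun σ _ => fmul_mem (const_mem _) (fprod_mem _ fun i _ => h _ _)

theorem adjugate_mem {ι : Type*} [Fintype ι] [DecidableEq ι] {M : T → Matrix ι ι ℂ}
    (h : ∀ i j, (fun x => M x i j) ∈ 𝒜) (i j : ι) : (fun x => (M x).adjugate i j) ∈ 𝒜 := by
  simp only [Matrix.adjugate_apply]
  refine det_mem fun a b => ?_
  by_cases hab : a = j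
  · subst hab; simp only [Matrix.updateRow_self]; exact const_mem _
  · simp only [Matrix.updateRow_ne hab]; exact h a b

/-! ### regular vectors -/

theorem regV_scalar {s : T → ℂ} : RegV 𝒜 s ↔ s ∈ 𝒜 := by
  refine ⟨fun h => h LinearMap.id, fun h ℓ => ?_⟩
  have : (fun x => ℓ (s x)) = fun x => s x * ℓ 1 := by
    funext x; rw [← smul_eq_mul, ← map_smul, smul_eq_mul, mul_one]
  rw [this]; exact fmul_mem h (const_mem _)

namespace RegV
variable {s t : T → V}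

theorem const (v : V) : RegV 𝒜 fun _ => v := fun _ => const_mem _

theorem zero : RegV 𝒜 fun _ => (0 : V) := const 0

theorem add (hs : RegV 𝒜 s) (ht : RegV 𝒜 t) : RegV 𝒜 fun x => s x + t x := fun ℓ => by
  simp only [map_add]; exact fadd_mem (hs ℓ) (ht ℓ)

theorem sub (hs : RegV 𝒜 s) (ht : RegV 𝒜 t) : RegV 𝒜 fun x => s x - t x := fun ℓ => by
  simp only [map_sub]; exact fsub_mem (hs ℓ) (ht ℓ)

theorem smul {f : T → ℂ} (hf : f ∈ 𝒜) (hs : RegV 𝒜 s) : RegV 𝒜 fun x => f x • s x := fun ℓ => by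
  simp only [map_smul, smul_eq_mul]; exact fmul_mem hf (hs ℓ)

theorem csmul (c : ℂ) (hs : RegV 𝒜 s) : RegV 𝒜 fun x => c • s x := hs.smul (const_mem c)

theorem neg (hs : RegV 𝒜 s) : RegV 𝒜 fun x => -s x := by
  simpa using hs.csmul (-1)

theorem sum {ι : Type*} (A : Finset ι) {s : ι → T → V} (h : ∀ i ∈ A, RegV 𝒜 (s i)) :
    RegV 𝒜 fun x => ∑ i ∈ A, s i x := fun ℓ => by
  simp only [map_sum]; exact fsum_mem _ fun i hi => h i hi ℓ

theorem map (φ : V →ₗ[ℂ] W) (hs : RegV 𝒜 s) : RegV 𝒜 fun x => φ (s x) := fun ℓ => hs (ℓ ∘ₗ φ)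

theorem prod {t : T → W} (hs : RegV 𝒜 s) (ht : RegV 𝒜 t) : RegV 𝒜 fun x => (s x, t x) := by
  have := (hs.map (LinearMap.inl ℂ V W)).add (ht.map (LinearMap.inr ℂ V W))
  simpa using this

theorem coord {ι : Type*} (b : Basis ι ℂ V) (hs : RegV 𝒜 s) (i : ι) :
    (fun x => b.repr (s x) i) ∈ 𝒜 := hs (b.coord i)

theorem of_coord {ι : Type*} [Finite ι] (b : Basis ι ℂ V) (h : ∀ i, (fun x => b.repr (s x) i) ∈ 𝒜) :
    RegV 𝒜 s := by
  have := Fintype.ofFinite ι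
  have e : s = fun x => ∑ i, b.repr (s x) i • b i := funext fun x => (b.sum_repr _).symm
  rw [e]; exact sum _ fun i _ => (const _).smul (h i)

/-- regularity can be tested after an injective linear map -/
theorem of_injective (φ : V →ₗ[ℂ] W) (hφ : Function.Injective φ) (h : RegV 𝒜 fun x => φ (s x)) :
    RegV 𝒜 s := by
  obtain ⟨ψ, hψ⟩ := φ.exists_leftInverse_of_injective (LinearMap.ker_eq_bot.2 hφ)
  have e : s = fun x => ψ (φ (s x)) := funext fun x => (LinearMap.congr_fun hψ (s x)).symm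
  rw [e]; exact h.map ψ

theorem subtype {N : Submodule ℂ V} (hs : RegV 𝒜 s) (h : ∀ x, s x ∈ N) :
    RegV 𝒜 fun x => (⟨s x, h x⟩ : N) := of_injective N.subtype N.injective_subtype hs

theorem bilin [FiniteDimensional ℂ V] (B : V →ₗ[ℂ] W →ₗ[ℂ] U) {t : T → W} (hs : RegV 𝒜 s)
    (ht : RegV 𝒜 t) : RegV 𝒜 fun x => B (s x) (t x) := by
  let b := finBasis ℂ V
  have e : (fun x => B (s x) (t x)) = fun x => ∑ i, b.repr (s x) i • B (b i) (t x) := by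
    funext x
    conv_lhs => rw [← b.sum_repr (s x)]
    simp only [map_sum, map_smul, LinearMap.sum_apply, LinearMap.smul_apply]
  rw [e]; exact sum _ fun i _ => (ht.map _).smul (hs.coord b i)


theorem precomp {T' : Type} {𝒜' : Subalgebra ℂ (T' → ℂ)} (u : T' → T)
    (hu : ∀ f ∈ 𝒜, (fun y => f (u y)) ∈ 𝒜') (hs : RegV 𝒜 s) : RegV 𝒜' fun y => s (u y) :=
  fun ℓ => hu _ (hs ℓ)


end RegV

theorem regV_iff_basis {ι : Type*} [Finite ι] (b : Basis ι ℂ V) {s : T → V} :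
    RegV 𝒜 s ↔ ∀ i, (fun x => b.repr (s x) i) ∈ 𝒜 := ⟨fun h => h.coord b, RegV.of_coord b⟩

theorem regV_pi {ι : Type} [Finite ι] {s : T → ι → ℂ} :
    RegV 𝒜 s ↔ ∀ i, (fun x => s x i) ∈ 𝒜 := by
  simpa using regV_iff_basis (𝒜 := 𝒜) (Pi.basisFun ℂ ι) (s := s)

/-! ### regular maps -/

namespace RegM
variable {φ ψ : T → V →ₗ[ℂ] W}

theorem const (φ : V →ₗ[ℂ] W) : RegM 𝒜 fun _ => φ := fun _ => RegV.const _

theorem id : RegM 𝒜 fun _ => (LinearMap.id : V →ₗ[ℂ] V) := const _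

theorem add (hφ : RegM 𝒜 φ) (hψ : RegM 𝒜 ψ) : RegM 𝒜 fun x => φ x + ψ x :=
  fun v => (hφ v).add (hψ v)

theorem sub (hφ : RegM 𝒜 φ) (hψ : RegM 𝒜 ψ) : RegM 𝒜 fun x => φ x - ψ x :=
  fun v => (hφ v).sub (hψ v)

theorem neg (hφ : RegM 𝒜 φ) : RegM 𝒜 fun x => -φ x := fun v => (hφ v).neg

theorem smul {f : T → ℂ} (hf : f ∈ 𝒜) (hφ : RegM 𝒜 φ) : RegM 𝒜 fun x => f x • φ x :=
  fun v => (hφ v).smul hf

theorem smul_id {f : T → ℂ} (hf : f ∈ 𝒜) :
    RegM 𝒜 fun x => f x • (LinearMap.id : V →ₗ[ℂ] V) := id.smul hf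

theorem sum {ι : Type*} (A : Finset ι) {φ : ι → T → V →ₗ[ℂ] W} (h : ∀ i ∈ A, RegM 𝒜 (φ i)) :
    RegM 𝒜 fun x => ∑ i ∈ A, φ i x := fun v => by
  simp only [LinearMap.sum_apply]; exact RegV.sum _ fun i hi => h i hi v

theorem of_basis {ι : Type*} [Finite ι] (b : Basis ι ℂ V) (h : ∀ i, RegV 𝒜 fun x => φ x (b i)) :
    RegM 𝒜 φ := fun v => by
  have := Fintype.ofFinite ι
  have e : (fun x => φ x v) = fun x => ∑ i, b.repr v i • φ x (b i) := by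
    funext x
    conv_lhs => rw [← b.sum_repr v]
    simp only [map_sum, map_smul]
  rw [e]; exact RegV.sum _ fun i _ => (h i).csmul _

/-- regularity can be tested on a spanning set -/
theorem of_span {S : Set V} (hS : Submodule.span ℂ S = ⊤) (h : ∀ v ∈ S, RegV 𝒜 fun x => φ x v) :
    RegM 𝒜 φ := fun v => by
  have hv : v ∈ Submodule.span ℂ S := hS ▸ Submodule.mem_top
  induction hv using Submodule.span_induction with
  | mem v hv => exact h v hv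
  | zero => simpa using RegV.zero
  | add v w _ _ hv hw => simpa using hv.add hw
  | smul c v _ hv => simpa using hv.csmul c

theorem of_regV (h : RegV 𝒜 φ) : RegM 𝒜 φ := fun v => h.map (LinearMap.applyₗ v)

theorem regV [FiniteDimensional ℂ V] (h : RegM 𝒜 φ) : RegV 𝒜 φ := by
  let b := finBasis ℂ V
  have e : φ = fun x => ∑ i, LinearMap.smulRightₗ (b.coord i) (φ x (b i)) := by
    funext x
    refine b.ext fun j => ?_
    simp [LinearMap.sum_apply, Finsupp.single_apply]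
  rw [e]; exact RegV.sum _ fun i _ => (h (b i)).map _

theorem apply [FiniteDimensional ℂ V] (hφ : RegM 𝒜 φ) {s : T → V} (hs : RegV 𝒜 s) :
    RegV 𝒜 fun x => φ x (s x) :=
  RegV.bilin (LinearMap.applyₗ (R := ℂ) (M := V) (M₂ := W)) hs hφ.regV

theorem comp [FiniteDimensional ℂ W] {χ : T → W →ₗ[ℂ] U} (hχ : RegM 𝒜 χ) (hφ : RegM 𝒜 φ) :
    RegM 𝒜 fun x => χ x ∘ₗ φ x := fun v => hχ.apply (hφ v)

theorem comp_const (hφ : RegM 𝒜 φ) (a : U →ₗ[ℂ] V) : RegM 𝒜 fun x => φ x ∘ₗ a :=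
  fun u => hφ (a u)

theorem const_comp (a : W →ₗ[ℂ] U) (hφ : RegM 𝒜 φ) : RegM 𝒜 fun x => a ∘ₗ φ x :=
  fun v => (hφ v).map a

theorem prod {χ : T → V →ₗ[ℂ] U} (hφ : RegM 𝒜 φ) (hχ : RegM 𝒜 χ) :
    RegM 𝒜 fun x => (φ x).prod (χ x) := fun v => (hφ v).prod (hχ v)

theorem coprod {χ : T → U →ₗ[ℂ] W} (hφ : RegM 𝒜 φ) (hχ : RegM 𝒜 χ) :
    RegM 𝒜 fun x => (φ x).coprod (χ x) := fun v => (hφ v.1).add (hχ v.2)

theorem prodMap {V' W' : Type} [AddCommGroup V'] [Module ℂ V'] [AddCommGroup W'] [Module ℂ W']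
    {χ : T → V' →ₗ[ℂ] W'} (hφ : RegM 𝒜 φ) (hχ : RegM 𝒜 χ) :
    RegM 𝒜 fun x => (φ x).prodMap (χ x) := fun v => (hφ v.1).prod (hχ v.2)

theorem dualMap [FiniteDimensional ℂ V] (hφ : RegM 𝒜 φ) : RegM 𝒜 fun x => (φ x).dualMap :=
  fun ℓ => regV (const_comp ℓ hφ)

theorem smulRight {ℓ : T → Dual ℂ V} {s : T → W} (hℓ : RegV 𝒜 ℓ) (hs : RegV 𝒜 s) :
    RegM 𝒜 fun x => LinearMap.smulRight (ℓ x) (s x) :=
  fun v => hs.smul (regV_scalar.1 (of_regV hℓ v))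

theorem codRestrict {N : Submodule ℂ W} (hφ : RegM 𝒜 φ) (h : ∀ x v, φ x v ∈ N) :
    RegM 𝒜 fun x => (φ x).codRestrict N (h x) := fun v => (hφ v).subtype fun x => h x v

theorem linearCombination {ι : Type} [Fintype ι] {s : ι → T → V} (hs : ∀ i, RegV 𝒜 (s i)) :
    RegM 𝒜 fun x => Fintype.linearCombination ℂ fun i => s i x := fun c => by
  simp only [Fintype.linearCombination_apply]
  exact RegV.sum _ fun i _ => (hs i).csmul _

theorem toMatrix {ι κ : Type*} [Fintype ι] [DecidableEq ι] [Finite κ] (b : Basis ι ℂ V)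
    (c : Basis κ ℂ W) (hφ : RegM 𝒜 φ) (j : κ) (i : ι) :
    (fun x => LinearMap.toMatrix b c (φ x) j i) ∈ 𝒜 := by
  simp only [LinearMap.toMatrix_apply]; exact (hφ (b i)).coord c j

theorem of_toMatrix {ι κ : Type*} [Fintype ι] [DecidableEq ι] [Finite κ] (b : Basis ι ℂ V)
    (c : Basis κ ℂ W) (h : ∀ j i, (fun x => LinearMap.toMatrix b c (φ x) j i) ∈ 𝒜) :
    RegM 𝒜 φ :=
  of_basis b fun i => RegV.of_coord c fun j => by simpa only [LinearMap.toMatrix_apply] using h j i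

theorem toLin {ι κ : Type*} [Fintype ι] [DecidableEq ι] [Finite κ] (b : Basis ι ℂ V)
    (c : Basis κ ℂ W) {M : T → Matrix κ ι ℂ} (h : ∀ j i, (fun x => M x j i) ∈ 𝒜) :
    RegM 𝒜 fun x => Matrix.toLin b c (M x) :=
  of_toMatrix b c fun j i => by simpa only [LinearMap.toMatrix_toLin] using h j i

theorem mulVecLin {ι κ : Type} [Fintype ι] [Finite κ] {M : T → Matrix κ ι ℂ}
    (h : ∀ j i, (fun x => M x j i) ∈ 𝒜) : RegM 𝒜 fun x => (M x).mulVecLin := fun v =>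
  regV_pi.2 fun j => by
    simp only [Matrix.mulVecLin_apply, Matrix.mulVec, dotProduct]
    exact fsum_mem _ fun i _ => fmul_mem (h j i) (const_mem _)

theorem det [FiniteDimensional ℂ V] {φ : T → V →ₗ[ℂ] V} (hφ : RegM 𝒜 φ) :
    (fun x => LinearMap.det (φ x)) ∈ 𝒜 := by
  let b := finBasis ℂ V
  simp only [← LinearMap.det_toMatrix b]
  exact det_mem (hφ.toMatrix b b)

theorem trace [FiniteDimensional ℂ V] {φ : T → V →ₗ[ℂ] V} (hφ : RegM 𝒜 φ) :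
    (fun x => LinearMap.trace ℂ V (φ x)) ∈ 𝒜 := hφ.regV (LinearMap.trace ℂ V)

/-- minors of a regular family are regular functions -/
theorem minor {ι κ ν : Type*} [Fintype ι] [DecidableEq ι] [Finite κ] [Fintype ν] [DecidableEq ν]
    (b : Basis ι ℂ V) (c : Basis κ ℂ W) (hφ : RegM 𝒜 φ) (r : ν → κ) (e : ν → ι) :
    (fun x => ((LinearMap.toMatrix b c (φ x)).submatrix r e).det) ∈ 𝒜 :=
  det_mem fun _ _ => hφ.toMatrix b c _ _

theorem precomp {T' : Type} {𝒜' : Subalgebra ℂ (T' → ℂ)} (u : T' → T)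
    (hu : ∀ f ∈ 𝒜, (fun y => f (u y)) ∈ 𝒜') (hφ : RegM 𝒜 φ) : RegM 𝒜' fun y => φ (u y) :=
  fun v => (hφ v).precomp u hu

/-- the adjugate of a regular family of endomorphisms -/
theorem exists_adj [FiniteDimensional ℂ V] {φ : T → V →ₗ[ℂ] V} (hφ : RegM 𝒜 φ) :
    ∃ ψ : T → V →ₗ[ℂ] V, RegM 𝒜 ψ ∧ (∀ x v, ψ x (φ x v) = LinearMap.det (φ x) • v) ∧
      ∀ x v, φ x (ψ x v) = LinearMap.det (φ x) • v := by
  let b := finBasis ℂ V
  refine ⟨fun x => Matrix.toLin b b (LinearMap.toMatrix b b (φ x)).adjugate,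
    toLin b b (adjugate_mem (hφ.toMatrix b b)), fun x v => ?_, fun x v => ?_⟩
  · have := congrArg (fun M => Matrix.toLin b b M v)
      (Matrix.adjugate_mul (LinearMap.toMatrix b b (φ x)))
    simpa [Matrix.toLin_mul b b b] using this
  · have := congrArg (fun M => Matrix.toLin b b M v)
      (Matrix.mul_adjugate (LinearMap.toMatrix b b (φ x)))
    simpa [Matrix.toLin_mul b b b] using this

/-- a family injective at `x₀` has a regular left quasi-inverse -/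
theorem exists_left [FiniteDimensional ℂ V] (hφ : RegM 𝒜 φ) {x₀ : T}
    (h : Function.Injective (φ x₀)) : ∃ f ∈ 𝒜, f x₀ ≠ 0 ∧ ∃ σ : T → W →ₗ[ℂ] V, RegM 𝒜 σ ∧
      ∀ x v, σ x (φ x v) = f x • v := by
  obtain ⟨π, hπ⟩ := (φ x₀).exists_leftInverse_of_injective (LinearMap.ker_eq_bot.2 h)
  have hA := const_comp π hφ
  obtain ⟨ψ, hψ, h1, -⟩ := hA.exists_adj
  exact ⟨_, hA.det, by simp [hπ], fun x => ψ x ∘ₗ π, hψ.comp_const π, fun x v => h1 x v⟩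


theorem near_injective [FiniteDimensional ℂ V] (hφ : RegM 𝒜 φ) {x₀ : T}
    (h : Function.Injective (φ x₀)) : Near 𝒜 x₀ fun x => Function.Injective (φ x) := by
  obtain ⟨f, hf, h0, σ, -, hσ⟩ := hφ.exists_left h
  refine ⟨f, hf, h0, fun x hx v w hvw => ?_⟩
  have := hσ x v
  rw [hvw, hσ x w] at this
  exact (smul_right_injective V hx this).symm


end RegM

theorem regM_iff_regV [FiniteDimensional ℂ V] {φ : T → V →ₗ[ℂ] W} : RegM 𝒜 φ ↔ RegV 𝒜 φ :=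
  ⟨RegM.regV, RegM.of_regV⟩


/-- linear independence is an open condition -/
theorem near_linearIndependent {ι : Type} [Finite ι] {s : ι → T → V} (hs : ∀ i, RegV 𝒜 (s i))
    {x₀ : T} (h : LinearIndependent ℂ fun i => s i x₀) :
    Near 𝒜 x₀ fun x => LinearIndependent ℂ fun i => s i x := by
  have := Fintype.ofFinite ι
  simp only [linearIndependent_iff_injective_fintypeLinearCombination] at *
  exact (RegM.linearCombination hs).near_injective h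

end Crest.Agent.N265.Alg
end
end

-- ▼ part N265/K/Alg0
section

/-!
# Row 265, layer K: bundle toolkit I (task K-ALG1, part 2: local theory; helper82)

Constant rank, image, kernel, annihilator, local frames, local liftings.
`AlgAt 𝒜 L x₀` is the local condition, `Alg 𝒜 L ↔ ∀ x₀, AlgAt 𝒜 L x₀` by definition.
-/

set_option autoImplicit false
set_option linter.dupNamespace false

noncomputable section

namespace Crest.Agent.N265.Alg

open Module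

variable {T : Type} {𝒜 : Subalgebra ℂ (T → ℂ)}
variable {V W U : Type} [AddCommGroup V] [Module ℂ V] [AddCommGroup W] [Module ℂ W]
  [AddCommGroup U] [Module ℂ U]

/-- the local condition in `Alg` -/
def AlgAt (𝒜 : Subalgebra ℂ (T → ℂ)) (L : T → Submodule ℂ V) (x₀ : T) : Prop :=
  ∃ f ∈ 𝒜, ∃ E : T → V →ₗ[ℂ] V, RegM 𝒜 E ∧ f x₀ ≠ 0 ∧
    ∀ x, LinearMap.range (E x) ≤ L x ∧ ∀ v ∈ L x, E x v = f x • v


/-! ### ranks of regular maps -/

namespace RegM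
variable {φ : T → V →ₗ[ℂ] W}

/-- the rank is lower semicontinuous -/
theorem rank_lsc [FiniteDimensional ℂ V] (hφ : RegM 𝒜 φ) (x₀ : T) :
    Near 𝒜 x₀ fun x => finrank ℂ (LinearMap.range (φ x₀)) ≤ finrank ℂ (LinearMap.range (φ x)) := by
  obtain ⟨N, hN⟩ := (LinearMap.ker (φ x₀)).exists_isCompl
  have hS := hφ.comp_const N.subtype
  have h0 : Function.Injective (φ x₀ ∘ₗ N.subtype) := by
    rw [← LinearMap.ker_eq_bot, LinearMap.ker_comp, ← Submodule.disjoint_iff_comap_eq_bot]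
    exact hN.disjoint.symm
  refine (hS.near_injective h0).mono fun x hx => ?_
  have e1 := (φ x₀).finrank_range_add_finrank_ker
  have e2 := Submodule.finrank_add_eq_of_isCompl hN
  have e3 := LinearMap.finrank_range_of_inj hx
  have e4 := Submodule.finrank_mono (LinearMap.range_comp_le_range N.subtype (φ x))
  omega

/-- Cramer: where the rank does not jump there is a regular quasi-inverse -/
theorem quasi_inv [FiniteDimensional ℂ V] (hφ : RegM 𝒜 φ) {x₀ : T}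
    (h : Near 𝒜 x₀ fun x =>
      finrank ℂ (LinearMap.range (φ x)) ≤ finrank ℂ (LinearMap.range (φ x₀))) :
    ∃ f ∈ 𝒜, f x₀ ≠ 0 ∧ ∃ σ : T → W →ₗ[ℂ] V, RegM 𝒜 σ ∧
      ∀ x v, φ x (σ x (φ x v)) = f x • φ x v := by
  obtain ⟨N, hN⟩ := (LinearMap.ker (φ x₀)).exists_isCompl
  have hS := hφ.comp_const N.subtype
  have h0 : Function.Injective (φ x₀ ∘ₗ N.subtype) := by
    rw [← LinearMap.ker_eq_bot, LinearMap.ker_comp, ← Submodule.disjoint_iff_comap_eq_bot]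
    exact hN.disjoint.symm
  obtain ⟨f, hf, f0, τ, hτ, hfτ⟩ := hS.exists_left h0
  obtain ⟨g, hg, g0, hgx⟩ := (hS.near_injective h0).and h
  refine ⟨fun x => g x * f x, fmul_mem hg hf, mul_ne_zero g0 f0,
    fun x => g x • (N.subtype ∘ₗ τ x), (const_comp _ hτ).smul hg, fun x v => ?_⟩
  by_cases hx : g x = 0
  · simp [hx]
  obtain ⟨hi, hr⟩ := hgx x hx
  have e1 := (φ x₀).finrank_range_add_finrank_ker
  have e2 := Submodule.finrank_add_eq_of_isCompl hN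
  have e3 := LinearMap.finrank_range_of_inj hi
  have e : LinearMap.range (φ x ∘ₗ N.subtype) = LinearMap.range (φ x) :=
    Submodule.eq_of_le_of_finrank_le (LinearMap.range_comp_le_range _ _) (by omega)
  obtain ⟨u, hu⟩ : φ x v ∈ LinearMap.range (φ x ∘ₗ N.subtype) := e ▸ ⟨v, rfl⟩
  rw [← hu, LinearMap.smul_apply, LinearMap.comp_apply, hfτ, map_smul, map_smul, map_smul,
    smul_smul]
  rfl

end RegM

/-! ### the local theory -/

namespace AlgAt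
variable {L L' : T → Submodule ℂ V} {M : T → Submodule ℂ W} {x₀ : T} {φ : T → V →ₗ[ℂ] W}

/-- it is enough to have the projector near `x₀` -/
theorem of_near {f : T → ℂ} (hf : f ∈ 𝒜) {E : T → V →ₗ[ℂ] V} (hE : RegM 𝒜 E) (h0 : f x₀ ≠ 0)
    (h : Near 𝒜 x₀ fun x => (∀ v, E x v ∈ L x) ∧ ∀ v ∈ L x, E x v = f x • v) :
    AlgAt 𝒜 L x₀ := by
  obtain ⟨g, hg, g0, h⟩ := h
  refine ⟨fun x => g x * f x, fmul_mem hg hf, fun x => g x • E x, hE.smul hg, mul_ne_zero g0 h0,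
    fun x => ?_⟩
  by_cases hx : g x = 0
  · simp [hx]
  refine ⟨?_, fun v hv => by rw [LinearMap.smul_apply, (h x hx).2 v hv, smul_smul]⟩
  rintro _ ⟨v, rfl⟩
  exact (L x).smul_mem _ ((h x hx).1 v)

/-- a convenient form of the definition -/
theorem out (h : AlgAt 𝒜 L x₀) : ∃ f ∈ 𝒜, f x₀ ≠ 0 ∧ ∃ E : T → V →ₗ[ℂ] V, RegM 𝒜 E ∧
    (∀ x v, E x v ∈ L x) ∧ (∀ x, ∀ v ∈ L x, E x v = f x • v) ∧
    (∀ x, f x ≠ 0 → LinearMap.range (E x) = L x) ∧
    ∀ x, f x ≠ 0 → LinearMap.ker (f x • LinearMap.id - E x) = L x := by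
  obtain ⟨f, hf, E, hE, h0, h⟩ := h
  refine ⟨f, hf, h0, E, hE, fun x v => (h x).1 ⟨v, rfl⟩, fun x => (h x).2, fun x hx => ?_,
    fun x hx => ?_⟩
  · refine le_antisymm (h x).1 fun v hv => ⟨(f x)⁻¹ • v, ?_⟩
    rw [map_smul, (h x).2 v hv, smul_smul, inv_mul_cancel₀ hx, one_smul]
  · ext v
    simp only [LinearMap.mem_ker, LinearMap.sub_apply, LinearMap.smul_apply, LinearMap.id_apply,
      sub_eq_zero]
    refine ⟨fun hv => ?_, fun hv => ((h x).2 v hv).symm⟩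
    rw [← (L x).smul_mem_iff hx, hv]
    exact (h x).1 ⟨v, rfl⟩

theorem congr (h : AlgAt 𝒜 L x₀) (h' : Near 𝒜 x₀ fun x => L x = L' x) : AlgAt 𝒜 L' x₀ := by
  obtain ⟨f, hf, h0, E, hE, h1, h2, -⟩ := h.out
  exact of_near hf hE h0 (h'.mono fun x hx => hx ▸ ⟨h1 x, h2 x⟩)


theorem const (N : Submodule ℂ V) : AlgAt 𝒜 (fun _ => N) x₀ := by
  obtain ⟨N', hN⟩ := N.exists_isCompl
  refine of_near (const_mem 1) (RegM.const (N.subtype ∘ₗ N.projectionOnto N' hN)) one_ne_zero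
    (Near.of_forall fun _ => ⟨fun v => (N.projectionOnto N' hN v).2, fun v hv => ?_⟩)
  have := Submodule.projectionOnto_apply_left hN ⟨v, hv⟩
  simpa using congrArg Subtype.val this

/-- every vector of the fibre extends to a regular section -/
theorem exists_section (h : AlgAt 𝒜 L x₀) {v : V} (hv : v ∈ L x₀) :
    ∃ s : T → V, RegV 𝒜 s ∧ (∀ x, s x ∈ L x) ∧ s x₀ = v := by
  obtain ⟨f, -, h0, E, hE, h1, h2, -⟩ := h.out
  refine ⟨fun x => E x ((f x₀)⁻¹ • v), hE _, fun x => h1 x _, ?_⟩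
  simp only [map_smul, h2 x₀ v hv, smul_smul, inv_mul_cancel₀ h0, one_smul]


theorem near_map_eq_range (h : AlgAt 𝒜 L x₀) : ∃ E : T → V →ₗ[ℂ] V, RegM 𝒜 E ∧
    Near 𝒜 x₀ fun x => ∀ φ : V →ₗ[ℂ] W, LinearMap.range (φ ∘ₗ E x) = (L x).map φ := by
  obtain ⟨f, hf, f0, E, hE, -, -, h3, -⟩ := h.out
  exact ⟨E, hE, f, hf, f0, fun x hx φ => by rw [LinearMap.range_comp, h3 x hx]⟩

variable [FiniteDimensional ℂ V]

theorem rank_lsc (hφ : RegM 𝒜 φ) (h : AlgAt 𝒜 L x₀) :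
    Near 𝒜 x₀ fun x => finrank ℂ ((L x₀).map (φ x₀)) ≤ finrank ℂ ((L x).map (φ x)) := by
  obtain ⟨E, hE, h⟩ := h.near_map_eq_range (W := W)
  refine (h.and ((hφ.comp hE).rank_lsc x₀)).mono fun x hx => ?_
  rw [← h.self, ← hx.1]; exact hx.2

theorem near_finrank (h : AlgAt 𝒜 L x₀) :
    Near 𝒜 x₀ fun x => finrank ℂ (L x) = finrank ℂ (L x₀) := by
  obtain ⟨f, hf, f0, E, hE, -, -, h3, h4⟩ := h.out
  refine ((Near.of_ne hf f0).and ((hE.rank_lsc x₀).and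
    (((RegM.smul_id hf).sub hE).rank_lsc x₀))).mono fun x hx => ?_
  obtain ⟨hx, h1, h2⟩ := hx
  have e1 := (f x₀ • LinearMap.id - E x₀).finrank_range_add_finrank_ker
  have e2 := (f x • LinearMap.id - E x).finrank_range_add_finrank_ker
  rw [h3 x hx, h3 x₀ f0] at h1
  rw [h4 x₀ f0] at e1
  rw [h4 x hx] at e2
  omega

end AlgAt

theorem finrank_map_add_inf_ker [FiniteDimensional ℂ V] (L : Submodule ℂ V) (φ : V →ₗ[ℂ] W) :
    finrank ℂ (L.map φ) + finrank ℂ (L ⊓ LinearMap.ker φ : Submodule ℂ V) = finrank ℂ L := by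
  have h := (φ ∘ₗ L.subtype).finrank_range_add_finrank_ker
  rw [LinearMap.range_comp, Submodule.range_subtype, LinearMap.ker_comp] at h
  rw [← h, ← Submodule.finrank_map_subtype_eq L (Submodule.comap _ _), Submodule.map_comap_subtype]

namespace AlgAt
variable {L L' : T → Submodule ℂ V} {M : T → Submodule ℂ W} {x₀ : T} {φ : T → V →ₗ[ℂ] W}
variable [FiniteDimensional ℂ V]

/-- the kernel dimension is upper semicontinuous -/
theorem ker_usc (hφ : RegM 𝒜 φ) (h : AlgAt 𝒜 L x₀) :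
    Near 𝒜 x₀ fun x => finrank ℂ (L x ⊓ LinearMap.ker (φ x) : Submodule ℂ V) ≤
      finrank ℂ (L x₀ ⊓ LinearMap.ker (φ x₀) : Submodule ℂ V) := by
  refine ((h.rank_lsc hφ).and h.near_finrank).mono fun x hx => ?_
  have e1 := finrank_map_add_inf_ker (L x) (φ x)
  have e2 := finrank_map_add_inf_ker (L x₀) (φ x₀)
  omega

/-- from the kernel form of the rank hypothesis to the image form -/
theorem near_rank_of_ker (h : AlgAt 𝒜 L x₀)
    (hr : Near 𝒜 x₀ fun x => finrank ℂ (L x₀ ⊓ LinearMap.ker (φ x₀) : Submodule ℂ V) ≤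
      finrank ℂ (L x ⊓ LinearMap.ker (φ x) : Submodule ℂ V)) :
    Near 𝒜 x₀ fun x => finrank ℂ ((L x).map (φ x)) ≤ finrank ℂ ((L x₀).map (φ x₀)) := by
  refine (hr.and h.near_finrank).mono fun x hx => ?_
  have e1 := finrank_map_add_inf_ker (L x) (φ x)
  have e2 := finrank_map_add_inf_ker (L x₀) (φ x₀)
  omega

/-- The main lemma: local lifting, together with the projector of `L`. -/
theorem lift (h : AlgAt 𝒜 L x₀) (hφ : RegM 𝒜 φ)
    (hr : Near 𝒜 x₀ fun x => finrank ℂ ((L x).map (φ x)) ≤ finrank ℂ ((L x₀).map (φ x₀))) :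
    ∃ f ∈ 𝒜, f x₀ ≠ 0 ∧ ∃ σ : T → W →ₗ[ℂ] V, RegM 𝒜 σ ∧ (∀ x w, σ x w ∈ L x) ∧
      ∀ x, ∀ w ∈ (L x).map (φ x), φ x (σ x w) = f x • w := by
  obtain ⟨f, hf, f0, E, hE, h1, h2, h3, -⟩ := h.out
  have e : ∀ x, f x ≠ 0 → LinearMap.range (φ x ∘ₗ E x) = (L x).map (φ x) := fun x hx => by
    rw [LinearMap.range_comp, h3 x hx]
  obtain ⟨g, hg, g0, σ, hσ, hq⟩ := (hφ.comp hE).quasi_inv (x₀ := x₀)
    (((Near.of_ne hf f0).and hr).mono fun x hx => by rw [e x hx.1, e x₀ f0]; exact hx.2)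
  refine ⟨fun x => f x * g x, fmul_mem hf hg, mul_ne_zero f0 g0, fun x => f x • (E x ∘ₗ σ x),
    (hE.comp hσ).smul hf, fun x w => (L x).smul_mem _ (h1 x _), ?_⟩
  rintro x _ ⟨v, hv, rfl⟩
  have := hq x v
  simp only [LinearMap.comp_apply, h2 x v hv, map_smul, smul_smul] at this
  simp only [LinearMap.smul_apply, LinearMap.comp_apply, map_smul, this, mul_comm]

theorem map [FiniteDimensional ℂ W] (h : AlgAt 𝒜 L x₀) (hφ : RegM 𝒜 φ)
    (hr : Near 𝒜 x₀ fun x => finrank ℂ ((L x).map (φ x)) ≤ finrank ℂ ((L x₀).map (φ x₀))) :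
    AlgAt 𝒜 (fun x => (L x).map (φ x)) x₀ := by
  obtain ⟨f, hf, f0, σ, hσ, h1, h2⟩ := h.lift hφ hr
  exact of_near hf (hφ.comp hσ) f0 (Near.of_forall fun x => ⟨fun w => ⟨_, h1 x w, rfl⟩, h2 x⟩)

theorem ker [FiniteDimensional ℂ W] (h : AlgAt 𝒜 L x₀) (hφ : RegM 𝒜 φ)
    (hr : Near 𝒜 x₀ fun x => finrank ℂ ((L x).map (φ x)) ≤ finrank ℂ ((L x₀).map (φ x₀))) :
    AlgAt 𝒜 (fun x => L x ⊓ LinearMap.ker (φ x)) x₀ := by
  obtain ⟨g, hg, g0, σ, hσ, h1, h2⟩ := h.lift hφ hr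
  obtain ⟨f, hf, f0, E, hE, e1, e2, -⟩ := h.out
  refine of_near (fmul_mem hg hf) ((hE.smul hg).sub (hσ.comp (hφ.comp hE))) (mul_ne_zero g0 f0)
    (Near.of_forall fun x => ⟨fun v => ⟨(L x).sub_mem ((L x).smul_mem _ (e1 x v)) (h1 x _), ?_⟩,
      fun v hv => ?_⟩)
  · have := h2 x (φ x (E x v)) ⟨_, e1 x v, rfl⟩
    simp [this]
  · have : φ x v = 0 := hv.2
    simp [e2 x v hv.1, this, smul_smul]

theorem ker' [FiniteDimensional ℂ W] (h : AlgAt 𝒜 L x₀) (hφ : RegM 𝒜 φ)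
    (hr : Near 𝒜 x₀ fun x => finrank ℂ (L x₀ ⊓ LinearMap.ker (φ x₀) : Submodule ℂ V) ≤
      finrank ℂ (L x ⊓ LinearMap.ker (φ x) : Submodule ℂ V)) :
    AlgAt 𝒜 (fun x => L x ⊓ LinearMap.ker (φ x)) x₀ := h.ker hφ (h.near_rank_of_ker hr)

/-- `L ⊓ φ⁻¹ M` -/
theorem inf_comap [FiniteDimensional ℂ W] (h : AlgAt 𝒜 L x₀) (hM : AlgAt 𝒜 M x₀) (hφ : RegM 𝒜 φ)
    (hr : Near 𝒜 x₀ fun x => finrank ℂ (L x₀ ⊓ (M x₀).comap (φ x₀) : Submodule ℂ V) ≤
      finrank ℂ (L x ⊓ (M x).comap (φ x) : Submodule ℂ V)) :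
    AlgAt 𝒜 (fun x => L x ⊓ (M x).comap (φ x)) x₀ := by
  obtain ⟨f, hf, f0, E, hE, -, -, -, h4⟩ := hM.out
  have e : ∀ x, f x ≠ 0 → LinearMap.ker ((f x • LinearMap.id - E x) ∘ₗ φ x) =
      (M x).comap (φ x) := fun x hx => by rw [LinearMap.ker_comp, h4 x hx]
  refine (h.ker' (((RegM.smul_id hf).sub hE).comp hφ) (((Near.of_ne hf f0).and hr).mono
    fun x hx => ?_)).congr ((Near.of_ne hf f0).mono fun x hx => by rw [e x hx])
  rw [e x hx.1, e x₀ f0]; exact hx.2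


theorem perp (h : AlgAt 𝒜 L x₀) : AlgAt 𝒜 (fun x => (L x).dualAnnihilator) x₀ := by
  obtain ⟨f, hf, f0, E, hE, h1, h2, -⟩ := h.out
  refine of_near hf ((RegM.smul_id hf).sub hE).dualMap f0 (Near.of_forall fun x =>
    ⟨fun ℓ => ?_, fun ℓ hℓ => ?_⟩)
  · rw [Submodule.mem_dualAnnihilator]
    intro v hv
    simp [h2 x v hv]
  · rw [Submodule.mem_dualAnnihilator] at hℓ
    ext v
    simp [hℓ _ (h1 x v)]

omit [FiniteDimensional ℂ V] in
theorem map_equiv (h : AlgAt 𝒜 L x₀) (e : V ≃ₗ[ℂ] W) :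
    AlgAt 𝒜 (fun x => (L x).map e.toLinearMap) x₀ := by
  obtain ⟨f, hf, f0, E, hE, h1, h2, -⟩ := h.out
  refine of_near hf (RegM.const_comp e.toLinearMap (hE.comp_const e.symm.toLinearMap)) f0
    (Near.of_forall fun x => ⟨fun w => ⟨_, h1 x _, rfl⟩, ?_⟩)
  rintro _ ⟨v, hv, rfl⟩
  simp [h2 x v hv]

omit [FiniteDimensional ℂ V] in
theorem comap_equiv (h : AlgAt 𝒜 M x₀) (e : V ≃ₗ[ℂ] W) :
    AlgAt 𝒜 (fun x => (M x).comap e.toLinearMap) x₀ := by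
  simpa only [Submodule.comap_equiv_eq_map_symm] using h.map_equiv e.symm

theorem coperp {N : T → Submodule ℂ (Dual ℂ V)} (h : AlgAt 𝒜 N x₀) :
    AlgAt 𝒜 (fun x => (N x).dualCoannihilator) x₀ :=
  h.perp.comap_equiv (evalEquiv ℂ V)

omit [FiniteDimensional ℂ V] in
theorem prod (h : AlgAt 𝒜 L x₀) (hM : AlgAt 𝒜 M x₀) :
    AlgAt 𝒜 (fun x => (L x).prod (M x)) x₀ := by
  obtain ⟨f, hf, f0, E, hE, h1, h2, -⟩ := h.out
  obtain ⟨g, hg, g0, F, hF, k1, k2, -⟩ := hM.out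
  refine of_near (fmul_mem hf hg) ((hE.smul hg).prodMap (hF.smul hf)) (mul_ne_zero f0 g0)
    (Near.of_forall fun x => ⟨fun v => ⟨(L x).smul_mem _ (h1 x _), (M x).smul_mem _ (k1 x _)⟩,
      fun v hv => ?_⟩)
  ext
  · simp [h2 x _ hv.1, smul_smul, mul_comm]
  · simp [k2 x _ hv.2, smul_smul]

theorem sup (h : AlgAt 𝒜 L x₀) (h' : AlgAt 𝒜 L' x₀)
    (hr : Near 𝒜 x₀ fun x => finrank ℂ (L x ⊔ L' x : Submodule ℂ V) ≤
      finrank ℂ (L x₀ ⊔ L' x₀ : Submodule ℂ V)) : AlgAt 𝒜 (fun x => L x ⊔ L' x) x₀ := by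
  have e : ∀ x, ((L x).prod (L' x)).map ((LinearMap.id : V →ₗ[ℂ] V).coprod LinearMap.id) =
      L x ⊔ L' x := fun x => by simp
  simpa only [e] using (h.prod h').map (RegM.const (LinearMap.id.coprod LinearMap.id))
    (hr.mono fun x hx => by rw [e, e]; exact hx)

theorem inf (h : AlgAt 𝒜 L x₀) (h' : AlgAt 𝒜 L' x₀)
    (hr : Near 𝒜 x₀ fun x => finrank ℂ (L x₀ ⊓ L' x₀ : Submodule ℂ V) ≤
      finrank ℂ (L x ⊓ L' x : Submodule ℂ V)) : AlgAt 𝒜 (fun x => L x ⊓ L' x) x₀ :=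
  h.inf_comap h' RegM.id hr

/-- local frames -/
theorem frame (h : AlgAt 𝒜 L x₀) : ∃ s : Fin (finrank ℂ (L x₀)) → T → V,
    (∀ i, RegV 𝒜 (s i)) ∧ (∀ i x, s i x ∈ L x) ∧ Near 𝒜 x₀ fun x =>
      (LinearIndependent ℂ fun i => s i x) ∧ Submodule.span ℂ (Set.range fun i => s i x) = L x := by
  let b := finBasis ℂ (L x₀)
  choose s hs h1 h2 using fun i => h.exists_section (b i).2
  have li : LinearIndependent ℂ fun i => s i x₀ := by
    simp only [h2]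
    exact b.linearIndependent.map' (L x₀).subtype (Submodule.ker_subtype _)
  refine ⟨s, hs, h1, ((near_linearIndependent hs li).and h.near_finrank).mono fun x hx =>
    ⟨hx.1, Submodule.eq_of_le_of_finrank_le ?_ ?_⟩⟩
  · rw [Submodule.span_le]; rintro _ ⟨i, rfl⟩; exact h1 i x
  · rw [finrank_span_eq_card hx.1, hx.2, Fintype.card_fin]

omit [FiniteDimensional ℂ V] in
theorem precomp {T' : Type} {𝒜' : Subalgebra ℂ (T' → ℂ)} (u : T' → T)
    (hu : ∀ f ∈ 𝒜, (fun y => f (u y)) ∈ 𝒜') {y₀ : T'} (h : AlgAt 𝒜 L (u y₀)) :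
    AlgAt 𝒜' (fun y => L (u y)) y₀ := by
  obtain ⟨f, hf, E, hE, h0, h⟩ := h
  exact ⟨_, hu f hf, _, hE.precomp u hu, h0, fun y => h (u y)⟩

/-- injectivity on `L` is an open condition -/
theorem near_inj (h : AlgAt 𝒜 L x₀) (hφ : RegM 𝒜 φ) (h0 : L x₀ ⊓ LinearMap.ker (φ x₀) = ⊥) :
    Near 𝒜 x₀ fun x => L x ⊓ LinearMap.ker (φ x) = ⊥ :=
  (h.ker_usc hφ).mono fun x hx => by
    rw [h0, finrank_bot, Nat.le_zero] at hx
    exact Submodule.finrank_eq_zero.1 hx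

/-- surjectivity `L → M` is an open condition -/
theorem near_surj [FiniteDimensional ℂ W] (h : AlgAt 𝒜 L x₀) (hM : AlgAt 𝒜 M x₀) (hφ : RegM 𝒜 φ)
    (hle : Near 𝒜 x₀ fun x => (L x).map (φ x) ≤ M x) (h0 : (L x₀).map (φ x₀) = M x₀) :
    Near 𝒜 x₀ fun x => (L x).map (φ x) = M x :=
  (hle.and ((h.rank_lsc hφ).and hM.near_finrank)).mono fun x hx =>
    Submodule.eq_of_le_of_finrank_le hx.1 (by rw [hx.2.2, ← h0]; exact hx.2.1)


end AlgAt

/-- the range of a regular map whose rank does not jump -/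
theorem RegM.algAt_range [FiniteDimensional ℂ V] [FiniteDimensional ℂ W] {φ : T → V →ₗ[ℂ] W}
    (hφ : RegM 𝒜 φ) {x₀ : T} (hr : Near 𝒜 x₀ fun x =>
      finrank ℂ (LinearMap.range (φ x)) ≤ finrank ℂ (LinearMap.range (φ x₀))) :
    AlgAt 𝒜 (fun x => LinearMap.range (φ x)) x₀ := by
  simpa only [Submodule.map_top] using (AlgAt.const ⊤).map hφ
    (hr.mono fun x hx => by rw [Submodule.map_top, Submodule.map_top]; exact hx)

theorem AlgAt.of_span [FiniteDimensional ℂ V] {ι : Type} [Finite ι] {s : ι → T → V}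
    (hs : ∀ i, RegV 𝒜 (s i)) {L : T → Submodule ℂ V} {x₀ : T}
    (hL : Near 𝒜 x₀ fun x => L x = Submodule.span ℂ (Set.range fun i => s i x))
    (hr : Near 𝒜 x₀ fun x => finrank ℂ (L x) ≤ finrank ℂ (L x₀)) : AlgAt 𝒜 L x₀ := by
  have := Fintype.ofFinite ι
  refine ((RegM.linearCombination hs).algAt_range ((hL.and hr).mono fun x hx => ?_)).congr
    (hL.mono fun x hx => by rw [Fintype.range_linearCombination, hx])
  rw [Fintype.range_linearCombination, Fintype.range_linearCombination, ← hx.1, ← hL.self]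
  exact hx.2

end Crest.Agent.N265.Alg
end
end

-- ▼ part N265/K/Alg1

/-!
# Row 265, layer K: bundle toolkit I (task K-ALG1, part 3: global statements; helper82)

Constant rank, image, kernel, annihilator, local frames, local liftings.
`AlgAt 𝒜 L x₀` is the local condition, `Alg 𝒜 L ↔ ∀ x₀, AlgAt 𝒜 L x₀` by definition.
-/

set_option autoImplicit false
set_option linter.dupNamespace false

noncomputable section

namespace Crest.Agent.N265.Alg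

open Module

variable {T : Type} {𝒜 : Subalgebra ℂ (T → ℂ)}
variable {V W U : Type} [AddCommGroup V] [Module ℂ V] [AddCommGroup W] [Module ℂ W]
  [AddCommGroup U] [Module ℂ U]

/-! ### the global statements -/

/-- the rank is lower semicontinuous -/
theorem rank_lsc [FiniteDimensional ℂ V] {L : T → Submodule ℂ V} {φ : T → V →ₗ[ℂ] W}
    (hφ : RegM 𝒜 φ) (h : Alg 𝒜 L) (x₀ : T) :
    Near 𝒜 x₀ fun x => finrank ℂ ((L x₀).map (φ x₀)) ≤ finrank ℂ ((L x).map (φ x)) :=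
  AlgAt.rank_lsc hφ (h x₀)

namespace Alg
variable {L L' K : T → Submodule ℂ V} {M : T → Submodule ℂ W} {φ : T → V →ₗ[ℂ] W}

theorem algAt (h : Alg 𝒜 L) (x₀ : T) : AlgAt 𝒜 L x₀ := h x₀

theorem const (N : Submodule ℂ V) : Alg 𝒜 fun _ => N := fun _ => AlgAt.const N

theorem congr (h : Alg 𝒜 L) (e : ∀ x, L x = L' x) : Alg 𝒜 L' := funext e ▸ h


theorem map_equiv (h : Alg 𝒜 L) (e : V ≃ₗ[ℂ] W) : Alg 𝒜 fun x => (L x).map e.toLinearMap :=
  fun x₀ => (h.algAt x₀).map_equiv e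

theorem comap_equiv (h : Alg 𝒜 M) (e : V ≃ₗ[ℂ] W) : Alg 𝒜 fun x => (M x).comap e.toLinearMap :=
  fun x₀ => (h.algAt x₀).comap_equiv e

theorem prod (h : Alg 𝒜 L) (hM : Alg 𝒜 M) : Alg 𝒜 fun x => (L x).prod (M x) :=
  fun x₀ => (h.algAt x₀).prod (hM.algAt x₀)

theorem precomp {T' : Type} {𝒜' : Subalgebra ℂ (T' → ℂ)} (u : T' → T)
    (hu : ∀ f ∈ 𝒜, (fun y => f (u y)) ∈ 𝒜') (h : Alg 𝒜 L) : Alg 𝒜' fun y => L (u y) :=
  fun y₀ => (h.algAt (u y₀)).precomp u hu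

theorem exists_section (h : Alg 𝒜 L) {x₀ : T} {v : V} (hv : v ∈ L x₀) :
    ∃ s : T → V, RegV 𝒜 s ∧ (∀ x, s x ∈ L x) ∧ s x₀ = v := (h.algAt x₀).exists_section hv

variable [FiniteDimensional ℂ V]

theorem near_finrank (h : Alg 𝒜 L) (x₀ : T) :
    Near 𝒜 x₀ fun x => finrank ℂ (L x) = finrank ℂ (L x₀) := (h.algAt x₀).near_finrank

theorem perp (h : Alg 𝒜 L) : Alg 𝒜 fun x => (L x).dualAnnihilator := fun x₀ => (h.algAt x₀).perp

theorem coperp {N : T → Submodule ℂ (Dual ℂ V)} (h : Alg 𝒜 N) :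
    Alg 𝒜 fun x => (N x).dualCoannihilator := fun x₀ => (h.algAt x₀).coperp

theorem frame (h : Alg 𝒜 L) (x₀ : T) : ∃ s : Fin (finrank ℂ (L x₀)) → T → V,
    (∀ i, RegV 𝒜 (s i)) ∧ (∀ i x, s i x ∈ L x) ∧ Near 𝒜 x₀ fun x =>
      (LinearIndependent ℂ fun i => s i x) ∧ Submodule.span ℂ (Set.range fun i => s i x) = L x :=
  (h.algAt x₀).frame

theorem of_span {ι : Type} [Finite ι] {s : ι → T → V} (hs : ∀ i, RegV 𝒜 (s i))
    (hL : ∀ x, L x = Submodule.span ℂ (Set.range fun i => s i x))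
    (hr : ∀ x₀, Near 𝒜 x₀ fun x => finrank ℂ (L x) ≤ finrank ℂ (L x₀)) : Alg 𝒜 L :=
  fun x₀ => AlgAt.of_span hs (Near.of_forall hL) (hr x₀)

theorem sup (h : Alg 𝒜 L) (h' : Alg 𝒜 L')
    (hr : ∀ x₀, Near 𝒜 x₀ fun x => finrank ℂ (L x ⊔ L' x : Submodule ℂ V) ≤
      finrank ℂ (L x₀ ⊔ L' x₀ : Submodule ℂ V)) : Alg 𝒜 fun x => L x ⊔ L' x :=
  fun x₀ => (h.algAt x₀).sup (h'.algAt x₀) (hr x₀)

theorem inf (h : Alg 𝒜 L) (h' : Alg 𝒜 L')
    (hr : ∀ x₀, Near 𝒜 x₀ fun x => finrank ℂ (L x₀ ⊓ L' x₀ : Submodule ℂ V) ≤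
      finrank ℂ (L x ⊓ L' x : Submodule ℂ V)) : Alg 𝒜 fun x => L x ⊓ L' x :=
  fun x₀ => (h.algAt x₀).inf (h'.algAt x₀) (hr x₀)





/-- local lifting -/
theorem lift (h : Alg 𝒜 L) (hM : Alg 𝒜 M) [FiniteDimensional ℂ W] (hφ : RegM 𝒜 φ)
    (e : ∀ x, M x = (L x).map (φ x)) (x₀ : T) :
    ∃ f ∈ 𝒜, f x₀ ≠ 0 ∧ ∃ σ : T → W →ₗ[ℂ] V, RegM 𝒜 σ ∧ (∀ x, LinearMap.range (σ x) ≤ L x) ∧
      ∀ x, ∀ w ∈ M x, φ x (σ x w) = f x • w := by
  obtain ⟨f, hf, f0, σ, hσ, h1, h2⟩ := (h.algAt x₀).lift hφ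
    ((hM.near_finrank x₀).mono fun x hx => by rw [← e, ← e, hx])
  refine ⟨f, hf, f0, σ, hσ, fun x => ?_, fun x w hw => h2 x w (e x ▸ hw)⟩
  rintro _ ⟨w, rfl⟩; exact h1 x w

variable [FiniteDimensional ℂ W]

theorem map (h : Alg 𝒜 L) (hφ : RegM 𝒜 φ) (hr : ∀ x₀, Near 𝒜 x₀ fun x =>
    finrank ℂ ((L x).map (φ x)) ≤ finrank ℂ ((L x₀).map (φ x₀))) :
    Alg 𝒜 fun x => (L x).map (φ x) := fun x₀ => (h.algAt x₀).map hφ (hr x₀)

theorem ker (h : Alg 𝒜 L) (hφ : RegM 𝒜 φ) (hr : ∀ x₀, Near 𝒜 x₀ fun x =>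
    finrank ℂ ((L x).map (φ x)) ≤ finrank ℂ ((L x₀).map (φ x₀))) :
    Alg 𝒜 fun x => L x ⊓ LinearMap.ker (φ x) := fun x₀ => (h.algAt x₀).ker hφ (hr x₀)

theorem map_of_finrank (h : Alg 𝒜 L) (hφ : RegM 𝒜 φ) {n : ℕ}
    (hr : ∀ x, finrank ℂ ((L x).map (φ x)) = n) : Alg 𝒜 fun x => (L x).map (φ x) :=
  h.map hφ fun x₀ => Near.of_forall fun x => by rw [hr, hr]




theorem ker_of_map (h : Alg 𝒜 L) (hM : Alg 𝒜 M) (hφ : RegM 𝒜 φ)
    (e : ∀ x, M x = (L x).map (φ x)) : Alg 𝒜 fun x => L x ⊓ LinearMap.ker (φ x) :=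
  h.ker hφ fun x₀ => (hM.near_finrank x₀).mono fun x hx => by rw [← e, ← e, hx]

theorem map_of_ker (h : Alg 𝒜 L) (hK : Alg 𝒜 K) (hφ : RegM 𝒜 φ)
    (e : ∀ x, K x = L x ⊓ LinearMap.ker (φ x)) : Alg 𝒜 fun x => (L x).map (φ x) :=
  h.map hφ fun x₀ => (h.algAt x₀).near_rank_of_ker
    ((hK.near_finrank x₀).mono fun x hx => by rw [← e, ← e, hx])

theorem map_of_inj (h : Alg 𝒜 L) (hφ : RegM 𝒜 φ) (e : ∀ x, L x ⊓ LinearMap.ker (φ x) = ⊥) :
    Alg 𝒜 fun x => (L x).map (φ x) := h.map_of_ker (const ⊥) hφ fun x => (e x).symm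

theorem range (hφ : RegM 𝒜 φ) (hr : ∀ x₀, Near 𝒜 x₀ fun x =>
    finrank ℂ (LinearMap.range (φ x)) ≤ finrank ℂ (LinearMap.range (φ x₀))) :
    Alg 𝒜 fun x => LinearMap.range (φ x) := fun x₀ => hφ.algAt_range (hr x₀)


theorem inf_comap (h : Alg 𝒜 L) (hM : Alg 𝒜 M) (hφ : RegM 𝒜 φ) (hr : ∀ x₀, Near 𝒜 x₀ fun x =>
    finrank ℂ (L x₀ ⊓ (M x₀).comap (φ x₀) : Submodule ℂ V) ≤
      finrank ℂ (L x ⊓ (M x).comap (φ x) : Submodule ℂ V)) :
    Alg 𝒜 fun x => L x ⊓ (M x).comap (φ x) :=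
  fun x₀ => (h.algAt x₀).inf_comap (hM.algAt x₀) hφ (hr x₀)

theorem comap (hM : Alg 𝒜 M) (hφ : RegM 𝒜 φ) (hr : ∀ x₀, Near 𝒜 x₀ fun x =>
    finrank ℂ ((M x₀).comap (φ x₀)) ≤ finrank ℂ ((M x).comap (φ x))) :
    Alg 𝒜 fun x => (M x).comap (φ x) := by
  simpa only [top_inf_eq] using (const ⊤).inf_comap hM hφ fun x₀ => (hr x₀).mono fun x hx => by
    rw [top_inf_eq, top_inf_eq]; exact hx



end Alg

end Crest.Agent.N265.Alg
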