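import Mathlib
import Crest.Agent.N265.K.Alg1
import Crest.Agent.N265.K.Kos
import Crest.Agent.N265.K.PowB
import Crest.Agent.N265.K.AlgCore
import Crest.Agent.N265.K.Alg

-- ▼ part N265/K/Alg2
section

/-!
# Row 265, K-ALG2: tensor, exterior, symmetric powers and Hom of algebraic families (helper40)

Primed names are local copies of small closure lemmas (K-ALG1, K-POW).
-/

set_option autoImplicit false
set_option linter.dupNamespace false

noncomputable section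

namespace Crest.Agent.N265.Alg

open TensorProduct _root_.Crest.Agent.N265.Pow _root_.Crest.Agent.N265.Pow.Ks

variable {T : Type} {𝒜 : Subalgebra ℂ (T → ℂ)}
variable {V W U V' W' : Type} [AddCommGroup V] [Module ℂ V] [AddCommGroup W] [Module ℂ W]
  [AddCommGroup U] [Module ℂ U] [AddCommGroup V'] [Module ℂ V'] [AddCommGroup W'] [Module ℂ W']

/-! ### closure properties -/

lemma regV_const' (v : V) : RegV 𝒜 fun _ : T => v := fun ℓ => 𝒜.algebraMap_mem (ℓ v)
lemma RegV.add' {s t : T → V} (hs : RegV 𝒜 s) (ht : RegV 𝒜 t) : RegV 𝒜 fun x => s x + t x :=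
  fun ℓ => by simp only [map_add]; exact 𝒜.add_mem (hs ℓ) (ht ℓ)
lemma RegV.sub' {s t : T → V} (hs : RegV 𝒜 s) (ht : RegV 𝒜 t) : RegV 𝒜 fun x => s x - t x :=
  fun ℓ => by simp only [map_sub]; exact 𝒜.sub_mem (hs ℓ) (ht ℓ)
lemma RegV.smul' {f : T → ℂ} (hf : f ∈ 𝒜) {s : T → V} (hs : RegV 𝒜 s) :
    RegV 𝒜 fun x => f x • s x :=
  fun ℓ => by simp only [map_smul, smul_eq_mul]; exact 𝒜.mul_mem hf (hs ℓ)
lemma RegV.lin' (F : V →ₗ[ℂ] W) {s : T → V} (hs : RegV 𝒜 s) : RegV 𝒜 fun x => F (s x) :=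
  fun ℓ => hs (ℓ ∘ₗ F)
lemma regV_sum' {ι : Type} (I : Finset ι) {s : ι → T → V} (hs : ∀ i ∈ I, RegV 𝒜 (s i)) :
    RegV 𝒜 fun x => ∑ i ∈ I, s i x := fun ℓ => by
  have := 𝒜.sum_mem (t := I) (f := fun i x => ℓ (s i x)) fun i hi => hs i hi ℓ
  convert this using 1
  funext x
  simp [map_sum]

/-- a regular family of maps applied to a regular family of vectors -/
lemma RegM.app' [FiniteDimensional ℂ V] {φ : T → V →ₗ[ℂ] W} (hφ : RegM 𝒜 φ) {s : T → V}
    (hs : RegV 𝒜 s) : RegV 𝒜 fun x => φ x (s x) := by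
  have : (fun x => φ x (s x)) = fun x => ∑ i, (bs V).coord i (s x) • φ x (bs V i) :=
    funext fun x => (sum_bs _ _).symm
  rw [this]
  exact regV_sum' _ fun i _ => RegV.smul' (hs _) (hφ _)

lemma regM_const' (φ : V →ₗ[ℂ] W) : RegM 𝒜 fun _ : T => φ := fun v => regV_const' (φ v)
lemma RegM.add' {φ ψ : T → V →ₗ[ℂ] W} (h : RegM 𝒜 φ) (h' : RegM 𝒜 ψ) :
    RegM 𝒜 fun x => φ x + ψ x := fun v => RegV.add' (h v) (h' v)
lemma RegM.sub' {φ ψ : T → V →ₗ[ℂ] W} (h : RegM 𝒜 φ) (h' : RegM 𝒜 ψ) :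
    RegM 𝒜 fun x => φ x - ψ x := fun v => RegV.sub' (h v) (h' v)
lemma RegM.smul' {f : T → ℂ} (hf : f ∈ 𝒜) {φ : T → V →ₗ[ℂ] W} (h : RegM 𝒜 φ) :
    RegM 𝒜 fun x => f x • φ x := fun v => RegV.smul' hf (h v)
/-- the complementary projector `f - E` -/
lemma RegM.compl' {f : T → ℂ} (hf : f ∈ 𝒜) {E : T → V →ₗ[ℂ] V} (h : RegM 𝒜 E) :
    RegM 𝒜 fun x => f x • LinearMap.id - E x :=
  (RegM.smul' hf (regM_const' LinearMap.id)).sub' h

/-- regularity inside a subspace is regularity in the ambient space -/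
lemma regV_subtype (P : Submodule ℂ V) {s : T → P} : RegV 𝒜 s ↔ RegV 𝒜 fun x => (s x : V) := by
  refine ⟨fun h => RegV.lin' P.subtype h, fun h ℓ => ?_⟩
  obtain ⟨g, hg⟩ := LinearMap.exists_extend ℓ
  have := h g
  rw [← hg]
  exact this


/-- a family of linear maps is regular as a family of vectors of `Hom` -/
lemma regV_hom [FiniteDimensional ℂ V] {φ : T → V →ₗ[ℂ] W} : RegV 𝒜 φ ↔ RegM 𝒜 φ := by
  refine ⟨fun h v => RegV.lin' (LinearMap.applyₗ v) h, fun h => ?_⟩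
  have : φ = fun x => ∑ i, LinearMap.smulRightₗ ((bs V).coord i) (φ x (bs V i)) := by
    funext x
    ext v
    simp only [LinearMap.sum_apply, LinearMap.smulRightₗ_apply]
    exact (sum_bs _ _).symm
  rw [this]
  exact regV_sum' _ fun i _ => RegV.lin' _ (h _)

/-! ### regular families of vectors -/

lemma RegV.tmul [FiniteDimensional ℂ V] {s : T → V} {t : T → W} (hs : RegV 𝒜 s) (ht : RegV 𝒜 t) :
    RegV 𝒜 fun x => s x ⊗ₜ[ℂ] t x := RegV.bilin (TensorProduct.mk ℂ V W) hs ht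

lemma RegV.iE_mul [FiniteDimensional ℂ V] {s : T → V} {w : T → EA V} (hs : RegV 𝒜 s)
    (hw : RegV 𝒜 w) : RegV 𝒜 fun x => iE (s x) * w x :=
  RegV.bilin ((LinearMap.mul ℂ (EA V)) ∘ₗ iE) hs hw







/-! ### regular families of maps -/

lemma RegM.tensor [FiniteDimensional ℂ W] {φ : T → V →ₗ[ℂ] W} {ψ : T → V' →ₗ[ℂ] W'}
    (hφ : RegM 𝒜 φ) (hψ : RegM 𝒜 ψ) : RegM 𝒜 fun x => TensorProduct.map (φ x) (ψ x) := by
  intro z
  induction z using TensorProduct.induction_on with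
  | zero => simpa using regV_const' (0 : W ⊗[ℂ] W')
  | tmul v w => exact RegV.tmul (hφ v) (hψ w)
  | add a b ha hb => simpa only [map_add] using ha.add' hb

lemma lamM_coe' (k : ℕ) (φ : V →ₗ[ℂ] W) (z : Lam k V) :
    (lamM k φ z : EA W) = ExteriorAlgebra.map φ z := by
  have h1 : (Lam k W).subtype ∘ₗ lamM k φ =
      (ExteriorAlgebra.map φ).toLinearMap ∘ₗ (Lam k V).subtype := by
    apply exteriorPower.linearMap_ext
    ext m
    simp
  exact LinearMap.congr_fun h1 z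

lemma RegM.extA [FiniteDimensional ℂ W] {φ : T → V →ₗ[ℂ] W} (hφ : RegM 𝒜 φ) (z : EA V) :
    RegV 𝒜 fun x => ExteriorAlgebra.map (φ x) z := by
  induction z using EA_ind with
  | h0 c => simpa using regV_const' (algebraMap ℂ (EA W) c)
  | ha a b ha hb => simpa only [map_add] using ha.add' hb
  | hm a v ha => simpa using RegV.iE_mul (hφ v) ha


lemma RegM.lamM [FiniteDimensional ℂ W] {φ : T → V →ₗ[ℂ] W} (hφ : RegM 𝒜 φ) (k : ℕ) :
    RegM 𝒜 fun x => lamM k (φ x) := fun z =>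
  (regV_subtype _).2 (by simpa only [lamM_coe'] using hφ.extA z)



/-- `h ↦ ψ ∘ h ∘ φ` -/
def homM (φ : V →ₗ[ℂ] V') (ψ : W' →ₗ[ℂ] W) : (V' →ₗ[ℂ] W') →ₗ[ℂ] (V →ₗ[ℂ] W) :=
  LinearMap.llcomp ℂ V W' W ψ ∘ₗ LinearMap.lcomp ℂ W' φ
@[simp] lemma homM_apply (φ : V →ₗ[ℂ] V') (ψ : W' →ₗ[ℂ] W) (h : V' →ₗ[ℂ] W') :
    homM φ ψ h = ψ ∘ₗ h ∘ₗ φ := rfl

lemma RegM.homM [FiniteDimensional ℂ V] [FiniteDimensional ℂ W'] {φ : T → V →ₗ[ℂ] V'}
    {ψ : T → W' →ₗ[ℂ] W} (hφ : RegM 𝒜 φ) (hψ : RegM 𝒜 ψ) :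
    RegM 𝒜 fun x => homM (φ x) (ψ x) := fun h =>
  regV_hom.2 fun v => hψ.app' (RegV.lin' h (hφ v))

/-! ### projectors -/

lemma lamM_scalar' {E : V →ₗ[ℂ] V} {L : Submodule ℂ V} {f : ℂ} (h : ∀ v ∈ L, E v = f • v) (k : ℕ) :
    ∀ z ∈ lamS k L, lamM k E z = f ^ k • z := by
  have key : ∀ n : ℕ, ∀ w ∈ (L.map iE) ^ n, ExteriorAlgebra.map E w = f ^ n • w := by
    refine pow_ind _ (fun c => by simp) (fun n x y hx hy => by simp [hx, hy]) ?_
    rintro n _ ⟨v, hv, rfl⟩ x _ hx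
    rw [map_mul, ExteriorAlgebra.map_apply_ι, hx, h v hv, map_smul, smul_mul_smul_comm, pow_succ']
  exact fun z hz => Subtype.ext ((lamM_coe' k E z).trans (key k z hz))


lemma tens_scalar' {E : V →ₗ[ℂ] V} {L : Submodule ℂ V} {f : ℂ} (h : ∀ v ∈ L, E v = f • v)
    {E' : W →ₗ[ℂ] W} {L' : Submodule ℂ W} {f' : ℂ} (h' : ∀ v ∈ L', E' v = f' • v) :
    ∀ z ∈ tens L L', TensorProduct.map E E' z = (f * f') • z := by
  have : tens L L' ≤ LinearMap.ker (TensorProduct.map E E' - (f * f') • LinearMap.id) :=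
    Submodule.map₂_le.2 fun v hv w hw => by
      simp [h v hv, h' w hw, smul_tmul', mul_smul, smul_comm f f']
  intro z hz
  simpa [sub_eq_zero] using this hz

lemma lamM_range' {E : V →ₗ[ℂ] W} {L : Submodule ℂ W} (h : LinearMap.range E ≤ L) (k : ℕ) :
    LinearMap.range (lamM k E) ≤ lamS k L := by
  have key : ∀ n : ℕ, ∀ w ∈ (LinearMap.range (iE (V := V))) ^ n,
      ExteriorAlgebra.map E w ∈ (L.map iE) ^ n := by
    refine pow_ind _ (fun c => by simp) (fun n x y hx hy => by simpa using add_mem hx hy) ?_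
    rintro n _ ⟨v, rfl⟩ x _ hx
    rw [map_mul, ExteriorAlgebra.map_apply_ι]
    exact mul_mem_pow ⟨_, h ⟨v, rfl⟩, rfl⟩ hx
  rintro _ ⟨z, rfl⟩
  change (lamM k E z : EA W) ∈ (L.map iE) ^ k
  rw [lamM_coe']
  exact key k z z.2


lemma tens_range' {E : V →ₗ[ℂ] W} {L : Submodule ℂ W} (h : LinearMap.range E ≤ L)
    {E' : V' →ₗ[ℂ] W'} {L' : Submodule ℂ W'} (h' : LinearMap.range E' ≤ L') :
    LinearMap.range (TensorProduct.map E E') ≤ tens L L' := by
  rintro _ ⟨z, rfl⟩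
  induction z using TensorProduct.induction_on with
  | zero => simp
  | tmul v w => exact Submodule.apply_mem_map₂ (TensorProduct.mk ℂ W W') (h ⟨v, rfl⟩) (h' ⟨w, rfl⟩)
  | add a b ha hb => simpa only [map_add] using add_mem ha hb

/-! ### algebraic families -/

theorem Alg.tens [FiniteDimensional ℂ V] {L : T → Submodule ℂ V} {L' : T → Submodule ℂ W}
    (h : Alg 𝒜 L) (h' : Alg 𝒜 L') : Alg 𝒜 fun x => tens (L x) (L' x) := by
  intro x₀
  obtain ⟨f, hf, E, hE, h0, hL⟩ := h x₀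
  obtain ⟨f', hf', E', hE', h0', hL'⟩ := h' x₀
  exact ⟨f * f', 𝒜.mul_mem hf hf', _, hE.tensor hE', mul_ne_zero h0 h0', fun x =>
    ⟨tens_range' (hL x).1 (hL' x).1, tens_scalar' (hL x).2 (hL' x).2⟩⟩

theorem Alg.lamS [FiniteDimensional ℂ V] {L : T → Submodule ℂ V} (h : Alg 𝒜 L) (k : ℕ) :
    Alg 𝒜 fun x => lamS k (L x) := by
  intro x₀
  obtain ⟨f, hf, E, hE, h0, hL⟩ := h x₀
  exact ⟨f ^ k, 𝒜.pow_mem hf k, _, hE.lamM k, pow_ne_zero k h0, fun x =>
    ⟨lamM_range' (hL x).1 k, lamM_scalar' (hL x).2 k⟩⟩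


/-- `Hom(V, L')` -/
def homTo (V : Type) [AddCommGroup V] [Module ℂ V] (L' : Submodule ℂ W) :
    Submodule ℂ (V →ₗ[ℂ] W) where
  carrier := {h | ∀ v, h v ∈ L'}
  add_mem' := fun ha hb v => add_mem (ha v) (hb v)
  zero_mem' := fun _ => zero_mem _
  smul_mem' := fun c _ ha v => L'.smul_mem c (ha v)
/-- `Hom(V / L, W)` -/
def homKill (L : Submodule ℂ V) (W : Type) [AddCommGroup W] [Module ℂ W] :
    Submodule ℂ (V →ₗ[ℂ] W) where
  carrier := {h | ∀ v ∈ L, h v = 0}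
  add_mem' := fun ha hb v hv => by simp [ha v hv, hb v hv]
  zero_mem' := fun _ _ => rfl
  smul_mem' := fun c _ ha v hv => by simp [ha v hv]
/-- the maps sending `L` to `L'` -/
def homMap (L : Submodule ℂ V) (L' : Submodule ℂ W) : Submodule ℂ (V →ₗ[ℂ] W) where
  carrier := {h | ∀ v ∈ L, h v ∈ L'}
  add_mem' := fun ha hb v hv => add_mem (ha v hv) (hb v hv)
  zero_mem' := fun _ _ => zero_mem _
  smul_mem' := fun c _ ha v hv => L'.smul_mem c (ha v hv)

lemma mem_homTo {L' : Submodule ℂ W} {h : V →ₗ[ℂ] W} : h ∈ homTo V L' ↔ ∀ v, h v ∈ L' := Iff.rfl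
lemma mem_homKill {L : Submodule ℂ V} {h : V →ₗ[ℂ] W} :
    h ∈ homKill L W ↔ ∀ v ∈ L, h v = 0 := Iff.rfl
lemma mem_homMap {L : Submodule ℂ V} {L' : Submodule ℂ W} {h : V →ₗ[ℂ] W} :
    h ∈ homMap L L' ↔ ∀ v ∈ L, h v ∈ L' := Iff.rfl
lemma mem_homMap' {L : Submodule ℂ V} {L' : Submodule ℂ W} {h : V →ₗ[ℂ] W} :
    h ∈ homMap L L' ↔ L.map h ≤ L' := Submodule.map_le_iff_le_comap.symm

section hom
variable [FiniteDimensional ℂ V] [FiniteDimensional ℂ W]

theorem Alg.homTo {L' : T → Submodule ℂ W} (h' : Alg 𝒜 L') : Alg 𝒜 fun x => homTo V (L' x) := by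
  intro x₀
  obtain ⟨f', hf', E', hE', h0', hL'⟩ := h' x₀
  refine ⟨f', hf', _, (regM_const' LinearMap.id).homM hE', h0', fun x => ⟨?_, fun h hh => ?_⟩⟩
  · rintro _ ⟨h, rfl⟩ v
    exact (hL' x).1 ⟨_, rfl⟩
  · ext v
    exact (hL' x).2 _ (hh v)

theorem Alg.homKill {L : T → Submodule ℂ V} (h : Alg 𝒜 L) : Alg 𝒜 fun x => homKill (L x) W := by
  intro x₀
  obtain ⟨f, hf, E, hE, h0, hL⟩ := h x₀
  refine ⟨f, hf, _, (hE.compl' hf).homM (regM_const' LinearMap.id), h0,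
    fun x => ⟨?_, fun h hh => ?_⟩⟩
  · rintro _ ⟨h, rfl⟩ v hv
    simp [(hL x).2 v hv]
  · ext v
    simp [hh _ ((hL x).1 ⟨v, rfl⟩)]

theorem Alg.homMap {L : T → Submodule ℂ V} {L' : T → Submodule ℂ W} (h : Alg 𝒜 L)
    (h' : Alg 𝒜 L') : Alg 𝒜 fun x => homMap (L x) (L' x) := by
  intro x₀
  obtain ⟨f, hf, E, hE, h0, hL⟩ := h x₀
  obtain ⟨f', hf', E', hE', h0', hL'⟩ := h' x₀
  refine ⟨f * f', 𝒜.mul_mem hf hf', _,
    (RegM.smul' hf' ((hE.compl' hf).homM (regM_const' LinearMap.id))).add' (hE.homM hE'),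
    mul_ne_zero h0 h0', fun x => ⟨?_, fun h hh => ?_⟩⟩
  · rintro _ ⟨h, rfl⟩ v hv
    simpa [(hL x).2 v hv] using (L' x).smul_mem (f x) ((hL' x).1 ⟨h v, rfl⟩)
  · ext v
    simp [(hL' x).2 _ (hh _ ((hL x).1 ⟨v, rfl⟩)), smul_sub, mul_smul, smul_comm (f x) (f' x)]

/-- `Hom(V / L, L')` -/
theorem Alg.homKill_inf_homTo {L : T → Submodule ℂ V} {L' : T → Submodule ℂ W} (h : Alg 𝒜 L)
    (h' : Alg 𝒜 L') : Alg 𝒜 fun x =>
      _root_.Crest.Agent.N265.Alg.homKill (L x) W ⊓ _root_.Crest.Agent.N265.Alg.homTo V (L' x) := by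
  intro x₀
  obtain ⟨f, hf, E, hE, h0, hL⟩ := h x₀
  obtain ⟨f', hf', E', hE', h0', hL'⟩ := h' x₀
  refine ⟨f * f', 𝒜.mul_mem hf hf', _, (hE.compl' hf).homM hE',
    mul_ne_zero h0 h0', fun x => ⟨?_, fun h hh => ?_⟩⟩
  · rintro _ ⟨h, rfl⟩
    exact ⟨fun v hv => by simp [(hL x).2 v hv], fun v => (hL' x).1 ⟨_, rfl⟩⟩
  · ext v
    simp [(hL' x).2 _ (hh.2 _), hh.1 _ ((hL x).1 ⟨v, rfl⟩), mul_smul]

end hom

end Crest.Agent.N265.Alg
end
end

-- ▼ part N265/K/PowD
section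

/-!
# Row 265, layer K: diagonalisable operators (`Alg.Diag`; task K-POW; helper96)
-/

set_option autoImplicit false

noncomputable section

namespace Crest.Agent.N265.Alg

open TensorProduct Module Crest.Agent.N265.Pow

variable {V W : Type} [AddCommGroup V] [Module ℂ V] [AddCommGroup W] [Module ℂ W]
variable {S S' S'' : Set ℂ} {g : V →ₗ[ℂ] V} {h : W →ₗ[ℂ] W}

theorem diag_iff : Diag S g ↔
    ∀ p : Submodule ℂ V, (∀ c ∈ S, ∀ v, g v = c • v → v ∈ p) → p = ⊤ := by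
  constructor
  · intro H p hp
    rw [eq_top_iff, ← H]
    exact iSup₂_le fun c hc v hv => hp c hc v (Module.End.mem_eigenspace_iff.1 hv)
  · intro H
    exact H _ fun c hc v hv =>
      Submodule.mem_iSup_of_mem c (Submodule.mem_iSup_of_mem hc (Module.End.mem_eigenspace_iff.2 hv))

theorem diag_iff_span : Diag S g ↔ Submodule.span ℂ {v | ∃ c ∈ S, g v = c • v} = ⊤ := by
  rw [diag_iff]
  constructor
  · intro H
    exact H _ fun c hc v hv => Submodule.subset_span ⟨c, hc, hv⟩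
  · intro H p hp
    rw [eq_top_iff, ← H, Submodule.span_le]
    rintro v ⟨c, hc, hv⟩
    exact hp c hc v hv

theorem Diag.eq_top (H : Diag S g) {p : Submodule ℂ V} (hp : ∀ c ∈ S, ∀ v, g v = c • v → v ∈ p) :
    p = ⊤ := diag_iff.1 H p hp

theorem Diag.mem (H : Diag S g) {p : Submodule ℂ V} (hp : ∀ c ∈ S, ∀ v, g v = c • v → v ∈ p)
    (v : V) : v ∈ p := H.eq_top hp ▸ Submodule.mem_top

/-- induction over eigenvectors -/
theorem Diag.induction (H : Diag S g) {P : V → Prop} (h0 : P 0)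
    (hadd : ∀ v w, P v → P w → P (v + w)) (he : ∀ c ∈ S, ∀ v, g v = c • v → P v) (v : V) : P v := by
  have hv : v ∈ ⨆ c ∈ S, Module.End.eigenspace g c := H ▸ Submodule.mem_top
  refine Submodule.iSup_induction _ (motive := P) hv (fun c w hw => ?_) h0 hadd
  by_cases hc : c ∈ S
  · rw [iSup_pos hc] at hw
    exact he c hc w (Module.End.mem_eigenspace_iff.1 hw)
  · rw [iSup_neg hc] at hw
    exact (Submodule.mem_bot ℂ).1 hw ▸ h0

/-- linear maps agreeing on eigenvectors are equal -/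
theorem Diag.ext (H : Diag S g) {f f' : V →ₗ[ℂ] W} (he : ∀ c ∈ S, ∀ v, g v = c • v → f v = f' v) :
    f = f' :=
  LinearMap.ext (H.mem (p := LinearMap.eqLocus f f') he)

theorem diag_of_span {s : Set V} (hs : Submodule.span ℂ s = ⊤)
    (he : ∀ v ∈ s, ∃ c ∈ S, g v = c • v) : Diag S g :=
  diag_iff_span.2 (eq_top_iff.2 (hs ▸ Submodule.span_mono he))

theorem diag_of_basis {ι : Type} (b : Basis ι ℂ V) (he : ∀ i, ∃ c ∈ S, g (b i) = c • b i) :
    Diag S g :=
  diag_of_span b.span_eq (by rintro _ ⟨i, rfl⟩; exact he i)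

theorem Diag.mono (H : Diag S g) (hS : S ⊆ S') : Diag S' g :=
  diag_iff.2 fun _ hp => H.eq_top fun c hc => hp c (hS hc)

theorem diag_smul_id {c : ℂ} (hc : c ∈ S) : Diag S (c • LinearMap.id : V →ₗ[ℂ] V) :=
  diag_iff.2 fun _ hp => eq_top_iff.2 fun v _ => hp c hc v rfl

theorem diag_id (h1 : (1 : ℂ) ∈ S) : Diag S (LinearMap.id : V →ₗ[ℂ] V) := by
  simpa using diag_smul_id (V := V) h1


theorem Diag.smul (H : Diag S g) {a : ℂ} (hS : ∀ c ∈ S, a * c ∈ S') : Diag S' (a • g) :=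
  diag_iff.2 fun _ hp => H.eq_top fun c hc v hv =>
    hp _ (hS c hc) v (by rw [LinearMap.smul_apply, hv, smul_smul])

/-- every vector is a finite sum of eigenvectors with distinct eigenvalues -/
theorem Diag.exists_sum (H : Diag S g) (v : V) : ∃ (s : Finset ℂ) (u : ℂ → V), ↑s ⊆ S ∧
    (∀ c, g (u c) = c • u c) ∧ (∀ c, c ∉ s → u c = 0) ∧ ∑ c ∈ s, u c = v := by
  classical
  induction v using H.induction with
  | h0 => exact ⟨∅, 0, by simp, by simp, by simp, by simp⟩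
  | hadd v w h1 h2 =>
    obtain ⟨s, u, hs, hu, hu0, rfl⟩ := h1
    obtain ⟨s', u', hs', hu', hu0', rfl⟩ := h2
    refine ⟨s ∪ s', u + u', by simpa using ⟨hs, hs'⟩, fun c => by simp [hu, hu'], fun c hc => ?_, ?_⟩
    · rw [Finset.mem_union, not_or] at hc
      simp [hu0 c hc.1, hu0' c hc.2]
    · simp only [Pi.add_apply, Finset.sum_add_distrib]
      rw [Finset.sum_subset Finset.subset_union_left fun c _ hc => hu0 c hc,
        Finset.sum_subset Finset.subset_union_right fun c _ hc => hu0' c hc]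
  | he c hc v hv =>
    refine ⟨{c}, Pi.single c v, by simpa using hc, fun c' => ?_, fun c' hc' => ?_, by simp⟩
    · by_cases hc' : c' = c
      · subst hc'
        simpa using hv
      · simp [hc']
    · rw [Finset.mem_singleton] at hc'
      simp [hc']

/-- a `g`-stable submodule contains the eigencomponents of its elements -/
theorem mem_of_sum_mem {p : Submodule ℂ V} (hp : ∀ v ∈ p, g v ∈ p) (s : Finset ℂ) :
    ∀ u : ℂ → V, (∀ c ∈ s, g (u c) = c • u c) → ∑ c ∈ s, u c ∈ p → ∀ c ∈ s, u c ∈ p := by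
  classical
  induction s using Finset.induction_on with
  | empty => simp
  | insert a s ha ih =>
    intro u hu hs
    have h1 : ∑ c ∈ s, (c - a) • u c ∈ p := by
      have h2 := p.sub_mem (hp _ hs) (p.smul_mem a hs)
      rw [map_sum, Finset.smul_sum, ← Finset.sum_sub_distrib, Finset.sum_insert ha,
        hu a (Finset.mem_insert_self _ _), sub_self, zero_add] at h2
      convert h2 using 2 with c hc
      rw [hu c (Finset.mem_insert_of_mem hc), sub_smul]
    have h3 : ∀ c ∈ s, u c ∈ p := fun c hc => by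
      have h4 := ih _ (fun c hc => by
        rw [map_smul, hu c (Finset.mem_insert_of_mem hc), smul_comm]) h1 c hc
      have hne : c - a ≠ 0 := sub_ne_zero.2 fun h => ha (h ▸ hc)
      exact (p.smul_mem_iff hne).1 h4
    intro c hc
    rcases Finset.mem_insert.1 hc with rfl | hc
    · rw [Finset.sum_insert ha] at hs
      exact (p.add_mem_iff_left (p.sum_mem h3)).1 hs
    · exact h3 c hc

/-- elements of a stable submodule are sums of eigenvectors in the submodule -/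
theorem Diag.induction_sub (H : Diag S g) {p : Submodule ℂ V} (hp : ∀ v ∈ p, g v ∈ p)
    {q : Submodule ℂ V} (he : ∀ c ∈ S, ∀ v ∈ p, g v = c • v → v ∈ q) : p ≤ q := by
  intro v hv
  obtain ⟨s, u, hs, hu, -, rfl⟩ := H.exists_sum v
  exact q.sum_mem fun c hc =>
    he c (hs hc) _ (mem_of_sum_mem hp s u (fun c _ => hu c) hv c hc) (hu c)

/-- injective equivariant maps reflect `Diag` -/
theorem Diag.of_injective (H : Diag S h) {f : V →ₗ[ℂ] W} (hf : Function.Injective f)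
    (hc : ∀ v, f (g v) = h (f v)) : Diag S g := by
  refine diag_iff.2 fun p hp => eq_top_iff.2 fun v _ => ?_
  have h1 : LinearMap.range f ≤ p.map f := by
    refine H.induction_sub ?_ ?_
    · rintro _ ⟨v, rfl⟩
      exact ⟨g v, hc v⟩
    · rintro c hcS _ ⟨v, rfl⟩ hv
      exact ⟨v, hp c hcS v (hf (by rw [hc, hv, map_smul])), rfl⟩
  obtain ⟨w, hw, hwv⟩ := h1 ⟨v, rfl⟩
  exact hf hwv ▸ hw

theorem Diag.restrict (H : Diag S g) {p : Submodule ℂ V} (hp : ∀ v ∈ p, g v ∈ p) :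
    Diag S (g.restrict hp) :=
  H.of_injective p.injective_subtype fun _ => rfl

/-- surjective equivariant maps preserve `Diag` -/
theorem Diag.of_surjective (H : Diag S g) {f : V →ₗ[ℂ] W} (hf : Function.Surjective f)
    (hc : ∀ v, f (g v) = h (f v)) : Diag S h := by
  refine diag_iff.2 fun p hp => eq_top_iff.2 fun w _ => ?_
  obtain ⟨v, rfl⟩ := hf w
  exact H.mem (p := p.comap f) (fun c hcS v hv => hp c hcS _ (by rw [← hc, hv, map_smul])) v

theorem Diag.mapQ (H : Diag S g) {p : Submodule ℂ V} (hp : p ≤ p.comap g) :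
    Diag S (p.mapQ p g hp) :=
  H.of_surjective p.mkQ_surjective fun _ => rfl

theorem Diag.conj (H : Diag S g) (e : V ≃ₗ[ℂ] W) : Diag S (e.conj g) :=
  H.of_surjective (f := e.toLinearMap) e.surjective fun v => by simp [LinearEquiv.conj_apply]

/-- two stable pieces that span -/
theorem diag_of_iSup {ι : Type} {U : ι → Type} [∀ i, AddCommGroup (U i)] [∀ i, Module ℂ (U i)]
    {k : ∀ i, U i →ₗ[ℂ] U i} (H : ∀ i, Diag S (k i)) (f : ∀ i, U i →ₗ[ℂ] V)
    (hf : ⨆ i, LinearMap.range (f i) = ⊤) (hc : ∀ i u, f i (k i u) = g (f i u)) : Diag S g := by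
  refine diag_iff.2 fun p hp => eq_top_iff.2 (hf ▸ iSup_le fun i => ?_)
  rintro _ ⟨u, rfl⟩
  exact (H i).mem (p := p.comap (f i))
    (fun c hcS v hv => hp c hcS _ (by rw [← hc, hv, map_smul])) u

theorem Diag.prodMap (H : Diag S g) (H' : Diag S h) : Diag S (g.prodMap h) := by
  refine diag_iff.2 fun p hp => eq_top_iff.2 fun z _ => ?_
  rw [show z = LinearMap.inl ℂ V W z.1 + LinearMap.inr ℂ V W z.2 by simp]
  exact p.add_mem
    (H.mem (p := p.comap (LinearMap.inl ℂ V W)) (fun c hc v hv => hp c hc _ (by simp [hv])) _)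
    (H'.mem (p := p.comap (LinearMap.inr ℂ V W)) (fun c hc v hv => hp c hc _ (by simp [hv])) _)

theorem diag_pi {ι : Type} [Finite ι] {U : ι → Type} [∀ i, AddCommGroup (U i)]
    [∀ i, Module ℂ (U i)] {k : ∀ i, U i →ₗ[ℂ] U i} (H : ∀ i, Diag S (k i)) :
    Diag S (LinearMap.piMap k) := by
  classical
  refine diag_of_iSup H (fun i => LinearMap.single ℂ U i) (LinearMap.iSup_range_single ℂ U)
    fun i u => ?_
  ext j
  by_cases hj : j = i
  · subst hj
    simp
  · simp [hj]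

/-- bilinear maps whose values span -/
theorem Diag.bilin {U : Type} [AddCommGroup U] [Module ℂ U] {k : U →ₗ[ℂ] U} (H : Diag S g)
    (H' : Diag S' h) (hS : ∀ a ∈ S, ∀ b ∈ S', a * b ∈ S'') (B : V →ₗ[ℂ] W →ₗ[ℂ] U)
    (hB : Submodule.map₂ B ⊤ ⊤ = ⊤) (hc : ∀ v w, k (B v w) = B (g v) (h w)) : Diag S'' k := by
  refine diag_iff.2 fun p hp => eq_top_iff.2 (hB ▸ Submodule.map₂_le.2 fun v _ w _ => ?_)
  refine H.mem (p := p.comap (B.flip w)) (fun a ha v hv => ?_) v
  refine H'.mem (p := p.comap (B v)) (fun b hb w hw => hp _ (hS a ha b hb) _ ?_) w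
  rw [hc, hv, hw]
  simp [smul_smul, mul_comm]

theorem Diag.tmap (H : Diag S g) (H' : Diag S' h) (hS : ∀ a ∈ S, ∀ b ∈ S', a * b ∈ S'') :
    Diag S'' (TensorProduct.map g h) :=
  H.bilin H' hS (TensorProduct.mk ℂ V W) (TensorProduct.map₂_mk_top_top_eq_top ℂ V W)
    fun _ _ => rfl

/-- multilinear maps whose values span -/
theorem Diag.multilin {U : Type} [AddCommGroup U] [Module ℂ U] {k : U →ₗ[ℂ] U} {n : ℕ}
    (H : Diag S g) (hS : ∀ c : Fin n → ℂ, (∀ i, c i ∈ S) → ∏ i, c i ∈ S')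
    (m : MultilinearMap ℂ (fun _ : Fin n => V) U) (hm : Submodule.span ℂ (Set.range m) = ⊤)
    (hc : ∀ v, k (m v) = m (g ∘ v)) : Diag S' k := by
  classical
  refine diag_iff.2 fun p hp => eq_top_iff.2 (hm ▸ Submodule.span_le.2 ?_)
  rintro _ ⟨v, rfl⟩
  have key : ∀ s : Finset (Fin n), ∀ v : Fin n → V, (∀ i, i ∉ s → ∃ c ∈ S, g (v i) = c • v i) →
      m v ∈ p := by
    intro s
    induction s using Finset.induction_on with
    | empty =>
      intro v hv
      choose c hc1 hc2 using fun i => hv i (by simp)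
      refine hp _ (hS c hc1) _ ?_
      rw [hc, ← m.map_smul_univ]
      congr 1
      funext i
      exact hc2 i
    | insert a s ha ih =>
      intro v hv
      rw [← Function.update_eq_self a v]
      refine H.mem (p := p.comap (m.toLinearMap v a)) (fun c hcS w hw => ih _ fun i hi => ?_) (v a)
      by_cases hia : i = a
      · subst hia
        exact ⟨c, hcS, by simpa using hw⟩
      · simpa [Function.update_of_ne hia] using hv i (by simp [hia, hi])
  exact key Finset.univ v (by simp)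

theorem prod_mem_of_mul (h1 : (1 : ℂ) ∈ S) (hS : ∀ a ∈ S, ∀ b ∈ S, a * b ∈ S) {ι : Type}
    (s : Finset ι) (c : ι → ℂ) (hc : ∀ i ∈ s, c i ∈ S) : ∏ i ∈ s, c i ∈ S :=
  Finset.prod_induction c (· ∈ S) (fun a b ha hb => hS a ha b hb) h1 hc

theorem Diag.lamM' (H : Diag S g) (k : ℕ)
    (hS : ∀ c : Fin k → ℂ, (∀ i, c i ∈ S) → ∏ i, c i ∈ S') : Diag S' (lamM k g) :=
  H.multilin hS (exteriorPower.ιMulti ℂ k).toMultilinearMap (span_ιMulti k)
    fun v => exteriorPower.map_apply_ιMulti g v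


theorem Diag.lamM (H : Diag S g) (h1 : (1 : ℂ) ∈ S) (hS : ∀ a ∈ S, ∀ b ∈ S, a * b ∈ S) (k : ℕ) :
    Diag S (lamM k g) :=
  H.lamM' k fun c hc => prod_mem_of_mul h1 hS _ c fun i _ => hc i


/-- an eigenbasis (any dimension) -/
theorem Diag.exists_basis' (H : Diag S g) :
    ∃ (s : Set V) (b : Basis s ℂ V) (c : s → ℂ), ∀ i, c i ∈ S ∧ g (b i) = c i • b i := by
  obtain ⟨s, hs, hsp, hli⟩ := exists_linearIndependent ℂ {v | ∃ c ∈ S, g v = c • v}
  rw [diag_iff_span.1 H] at hsp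
  choose c hc using fun i : s => hs i.2
  exact ⟨s, Basis.mk hli (by simp [hsp]), c, fun i => by simpa using hc i⟩

/-- an eigenbasis indexed by `Fin (finrank V)` -/
theorem Diag.exists_basis [FiniteDimensional ℂ V] (H : Diag S g) :
    ∃ (b : Basis (Fin (finrank ℂ V)) ℂ V) (c : Fin (finrank ℂ V) → ℂ),
      ∀ i, c i ∈ S ∧ g (b i) = c i • b i := by
  obtain ⟨s, b, c, hc⟩ := H.exists_basis'
  let e := b.indexEquiv (Module.finBasis ℂ V)
  exact ⟨b.reindex e, c ∘ e.symm, fun i => by simpa using hc (e.symm i)⟩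

theorem Diag.dualMap [FiniteDimensional ℂ V] (H : Diag S g) : Diag S g.dualMap := by
  obtain ⟨b, c, hc⟩ := H.exists_basis
  refine diag_of_basis b.dualBasis fun i => ⟨c i, (hc i).1, b.ext fun j => ?_⟩
  by_cases hij : j = i
  · subst hij
    simp [(hc j).2]
  · simp [(hc j).2, hij]

/-- a one-sided inverse -/
theorem Diag.inv (H : Diag S g) {g' : V →ₗ[ℂ] V} (hg : ∀ v, g' (g v) = v)
    (hS : ∀ c ∈ S, c⁻¹ ∈ S') : Diag S' g' := by
  refine diag_iff.2 fun p hp => H.eq_top fun c hc v hv => ?_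
  have h1 := hg v
  rw [hv, map_smul] at h1
  by_cases h0 : c = 0
  · rw [← h1, h0, zero_smul]
    exact p.zero_mem
  · exact hp _ (hS c hc) v (by rw [eq_inv_smul_iff₀ h0, h1])

theorem Diag.symm {e : V ≃ₗ[ℂ] V} (H : Diag S e.toLinearMap) (hS : ∀ c ∈ S, c⁻¹ ∈ S') :
    Diag S' e.symm.toLinearMap :=
  H.inv e.symm_apply_apply hS

theorem Diag.symm_dualMap [FiniteDimensional ℂ V] {e : V ≃ₗ[ℂ] V} (H : Diag S e.toLinearMap)
    (hS : ∀ c ∈ S, c⁻¹ ∈ S') : Diag S' e.symm.dualMap.toLinearMap :=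
  (H.symm hS).dualMap

/-- `φ ↦ h ∘ φ ∘ g` on `Hom(V, W)` -/
theorem Diag.hom [FiniteDimensional ℂ V] (H : Diag S g) (H' : Diag S' h)
    (hS : ∀ a ∈ S, ∀ b ∈ S', a * b ∈ S'') {Φ : (V →ₗ[ℂ] W) →ₗ[ℂ] (V →ₗ[ℂ] W)}
    (hΦ : ∀ φ v, Φ φ v = h (φ (g v))) : Diag S'' Φ :=
  (H.dualMap.tmap H' hS).of_surjective (f := dualTensorHom ℂ V W)
    (dualTensorHomEquiv ℂ V W).surjective fun z => by
      induction z with
      | zero => simp
      | tmul ℓ w => ext v; simp [hΦ]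
      | add z z' h1 h2 => simp [h1, h2]

/-- `φ ↦ h φ g⁻¹` -/
theorem Diag.arrowCongr [FiniteDimensional ℂ V] {e : V ≃ₗ[ℂ] V} {e' : W ≃ₗ[ℂ] W}
    (H : Diag S e.toLinearMap) (H' : Diag S' e'.toLinearMap)
    (hS : ∀ a ∈ S, ∀ b ∈ S', a⁻¹ * b ∈ S'') : 
    Diag S'' (e.arrowCongr e' : (V →ₗ[ℂ] W) ≃ₗ[ℂ] (V →ₗ[ℂ] W)).toLinearMap :=
  (H.symm (S' := (fun a => a⁻¹) '' S) fun c hc => ⟨c, hc, rfl⟩).hom H'
    (by rintro _ ⟨a, ha, rfl⟩ b hb; exact hS a ha b hb) fun _ _ => rfl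

/-- a stable subspace has a stable complement -/
theorem Diag.exists_isCompl (H : Diag S g) {p : Submodule ℂ V} (hp : ∀ v ∈ p, g v ∈ p) :
    ∃ q : Submodule ℂ V, IsCompl p q ∧ ∀ v ∈ q, g v ∈ q := by
  obtain ⟨s, b, c, hc⟩ := (H.mapQ (p := p) hp).exists_basis'
  -- lift the eigenvectors of the quotient to eigenvectors
  have hl : ∀ i, ∃ v, p.mkQ v = b i ∧ g v = c i • v := by
    intro i
    classical
    obtain ⟨v, hv⟩ := p.mkQ_surjective (b i)
    obtain ⟨t, u, -, hu, hu0, rfl⟩ := H.exists_sum v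
    refine ⟨u (c i), ?_, hu _⟩
    have h1 := mem_of_sum_mem (g := p.mapQ p g hp) (p := ⊥) (by simp) (insert (c i) t)
      (fun a => p.mkQ (u a) - if a = c i then b i else 0) (fun a _ => by
        have : p.mapQ p g hp (p.mkQ (u a)) = a • p.mkQ (u a) := by
          rw [← map_smul, ← hu]; rfl
        by_cases ha : a = c i
        · rw [if_pos ha, map_sub, this, (hc i).2, smul_sub, ha]
        · rw [if_neg ha, sub_zero, this]) (by
        rw [Finset.sum_sub_distrib, Finset.sum_ite_eq', if_pos (Finset.mem_insert_self _ _),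
          ← map_sum, ← Finset.sum_subset (Finset.subset_insert (c i) t) fun a _ ha => hu0 a ha, hv,
          sub_self]
        exact Submodule.zero_mem _) (c i) (Finset.mem_insert_self _ _)
    simpa [sub_eq_zero] using h1
  choose v hv hv' using hl
  let σ : (V ⧸ p) →ₗ[ℂ] V := b.constr ℂ v
  have hσ : p.mkQ ∘ₗ σ = LinearMap.id := b.ext fun i => by
    rw [LinearMap.comp_apply, Basis.constr_basis, hv i, LinearMap.id_apply]
  have hσ' : ∀ x, p.mkQ (σ x) = x := LinearMap.congr_fun hσ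
  refine ⟨LinearMap.range σ, ⟨?_, ?_⟩, ?_⟩
  · rw [Submodule.disjoint_def]
    rintro _ hx ⟨x, rfl⟩
    rw [← hσ' x, Submodule.mkQ_apply, (Submodule.Quotient.mk_eq_zero p).2 hx, map_zero]
  · rw [codisjoint_iff, eq_top_iff]
    intro w _
    rw [← sub_add_cancel w (σ (p.mkQ w))]
    refine Submodule.add_mem_sup ?_ ⟨_, rfl⟩
    rw [← Submodule.Quotient.mk_eq_zero, ← Submodule.mkQ_apply, map_sub, hσ', sub_self]
  · have h2 : g ∘ₗ σ = σ ∘ₗ p.mapQ p g hp := b.ext fun i => by simp [σ, hv' i, (hc i).2]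
    rintro _ ⟨x, rfl⟩
    exact ⟨_, (LinearMap.congr_fun h2 x).symm⟩

end Crest.Agent.N265.Alg
end
end

-- ▼ part N265/K/ABDefs
section

/-!
# Row 265, layer K: basis-free bundles on a space (helper68)

* `GV`         : finite-dimensional space with the grading automorphism `g`
                 (`O(d)` has `g = chi d`); constructions `line, shift, triv, tens, dual, hom, prod, lam`;
* `IsAB X V L` : `L` is an algebraic equivariant family of subspaces of `V` on `X`;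
* `IsRM`, `IsRV` : regular equivariant families of maps / vectors;
* `kc X V L`   : the class in `K X` (through an eigenbasis);
* `PDer`, `dV`, `IsVar` : point derivations, derivatives of regular vectors, first order variation
                 of a family; `Spc.pd X x ξ` the point derivation of a tangent vector;
* `ACone`      : the basis-free cone condition;
* `Blk`        : coordinates of a block identified with an eigenbasis.
-/

set_option autoImplicit false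
noncomputable section
open MvPolynomial TensorProduct

namespace Crest.Agent.N265

open Alg _root_.Crest.Agent.N265.Pow

/-- finite-dimensional spaces with a grading automorphism -/
structure GV where
  V : Type
  [acg : AddCommGroup V]
  [mod : Module ℂ V]
  [fd : FiniteDimensional ℂ V]
  g : V ≃ₗ[ℂ] V

attribute [instance] GV.acg GV.mod GV.fd

namespace GV
/-- all degrees live in the blocks `B` -/
def In (V : GV) (B : Finset ℕ) : Prop := Diag (chi '' (DS B : Set D)) V.g.toLinearMap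
/-- trivial grading -/
abbrev triv (V : Type) [AddCommGroup V] [Module ℂ V] [FiniteDimensional ℂ V] : GV :=
  { V := V, g := LinearEquiv.refl ℂ V }
/-- `V ⊗ O(d)` -/
abbrev shift (V : GV) (d : D) : GV :=
  { V := V.V, g := V.g.trans (LinearEquiv.smulOfNeZero ℂ V.V (chi d) (chi_ne d)) }
/-- `O(d)` -/
abbrev line (d : D) : GV := (triv ℂ).shift d
abbrev tens (V W : GV) : GV := { V := V.V ⊗[ℂ] W.V, g := TensorProduct.congr V.g W.g }
abbrev dual (V : GV) : GV := { V := Module.Dual ℂ V.V, g := V.g.symm.dualMap }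
abbrev hom (V W : GV) : GV := { V := V.V →ₗ[ℂ] W.V, g := LinearEquiv.arrowCongr V.g W.g }
abbrev prod (V W : GV) : GV := { V := V.V × W.V, g := V.g.prodCongr W.g }
abbrev pi {ι : Type} [Fintype ι] (V : ι → GV) : GV :=
  { V := ∀ i, (V i).V, g := LinearEquiv.piCongrRight fun i => (V i).g }
/-- `⊕ O(deg i)` in coordinates -/
abbrev co {ι : Type} [Fintype ι] (deg : ι → D) : GV := { V := ι → ℂ, g := gd deg }
/-- a constant map of degree zero -/
def Deg0 (V W : GV) (f : V.V →ₗ[ℂ] W.V) : Prop := ∀ v, f (V.g v) = W.g (f v)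
/-- a stable subspace -/
def Stab (V : GV) (U : Submodule ℂ V.V) : Prop := U.map V.g.toLinearMap = U
abbrev lam (k : ℕ) (V : GV) : GV :=
  { V := Lam k V.V
    g := LinearEquiv.ofLinearMap (lamM k V.g.toLinearMap) (lamM k V.g.symm.toLinearMap)
      (by rw [← exteriorPower.map_comp]; simp [exteriorPower.map_id])
      (by rw [← exteriorPower.map_comp]; simp [exteriorPower.map_id]) }
end GV

/-- algebraic equivariant families of subspaces -/
structure IsAB (X : Spc) (V : GV) (L : Pt → Submodule ℂ V.V) : Prop where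
  hin : V.In X.B
  alg : Alg X.fn fun x => L x.1
  eqv : ∀ x ∈ X.pts, (L x).map V.g.toLinearMap = L (gpt x)
/-- regular equivariant families of linear maps -/
structure IsRM (X : Spc) (V W : GV) (φ : Pt → V.V →ₗ[ℂ] W.V) : Prop where
  reg : RegM X.fn fun x => φ x.1
  eqv : ∀ x ∈ X.pts, φ (gpt x) ∘ₗ V.g.toLinearMap = W.g.toLinearMap ∘ₗ φ x
/-- regular equivariant families of vectors -/
structure IsRV (X : Spc) (V : GV) (s : Pt → V.V) : Prop where
  reg : RegV X.fn fun x => s x.1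
  eqv : ∀ x ∈ X.pts, s (gpt x) = V.g (s x)

/-- the bundle `A` presents the family `L` in the eigenbasis `b` of `V` -/
def PresB {X : Spc} (A : Bun X) (V : GV) (L : Pt → Submodule ℂ V.V)
    (b : Module.Basis A.ι ℂ V.V) : Prop :=
  (∀ i, V.g (b i) = chi (A.deg i) • b i) ∧
    ∀ x ∈ X.pts, A.L x = (L x).map b.equivFun.toLinearMap
/-- the bundle `A` presents the family `L` in some eigenbasis of `V` -/
def Pres {X : Spc} (A : Bun X) (V : GV) (L : Pt → Submodule ℂ V.V) : Prop :=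
  ∃ b, PresB A V L b

/-- equivariance of a family -/
def Eqv (X : Spc) (V : GV) (L : Pt → Submodule ℂ V.V) : Prop :=
  ∀ x ∈ X.pts, (L x).map V.g.toLinearMap = L (gpt x)
/-- every vector of the family is the value of a regular section (rank is lower semicontinuous) -/
def GenA (X : Spc) {V : Type} [AddCommGroup V] [Module ℂ V] (L : Pt → Submodule ℂ V) : Prop :=
  ∀ x : X.pts, ∀ v ∈ L x.1, ∃ σ : X.pts → V, RegV X.fn σ ∧ (∀ y, σ y ∈ L y.1) ∧ σ x = v
/-- the annihilators are generated (rank is upper semicontinuous) -/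
def CogA (X : Spc) {V : Type} [AddCommGroup V] [Module ℂ V] (L : Pt → Submodule ℂ V) : Prop :=
  GenA X fun x => (L x).dualAnnihilator
/-- the span of the eigenvectors whose degree satisfies `P` -/
def GV.part (V : GV) (P : D → Prop) : Submodule ℂ V.V :=
  ⨆ d, ⨆ _ : P d, Module.End.eigenspace V.g.toLinearMap (chi d)

open Classical in
/-- the class of a family (`0` if it is not a bundle) -/
def kc (X : Spc) (V : GV) (L : Pt → Submodule ℂ V.V) : K X :=
  if h : ∃ A : Bun X, Pres A V L then h.choose.kl else 0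

/-- the basis-free cone condition -/
structure ACone (W Q : Spc) (V : GV) (E : Pt → Submodule ℂ V.V) (s : Pt → V.V) : Prop where
  sub : Q.Sub W
  ab : IsAB Q V E
  rv : IsRV W V s
  zero : ∀ x ∈ W.pts, x ∈ Q.pts ↔ s x = 0
  syz : ∀ x ∈ Q.pts, ∀ a ∈ (E x).dualAnnihilator, ∃ μ : Pt → Module.Dual ℂ V.V,
    RegV W.fn (fun y => μ y.1) ∧ μ x = a ∧ ∀ y ∈ W.pts, μ y (s y) = 0

/-! ### first order calculus -/

section Tan
variable {T : Type} {V : Type} [AddCommGroup V] [Module ℂ V] [FiniteDimensional ℂ V]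

/-- point derivations of `𝒜` at `x₀` -/
def PDer (𝒜 : Subalgebra ℂ (T → ℂ)) (x₀ : T) (δ : (T → ℂ) →ₗ[ℂ] ℂ) : Prop :=
  ∀ f ∈ 𝒜, ∀ g ∈ 𝒜, δ (f * g) = f x₀ * δ g + g x₀ * δ f
/-- derivative of a vector valued function -/
def dV (δ : (T → ℂ) →ₗ[ℂ] ℂ) (σ : T → V) : V :=
  (Module.evalEquiv ℂ V).symm
    { toFun := fun ℓ => δ fun x => ℓ (σ x)
      map_add' := fun ℓ ℓ' => by rw [← map_add]; rfl
      map_smul' := fun c ℓ => by rw [RingHom.id_apply, ← map_smul]; rfl }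
theorem dV_spec (δ : (T → ℂ) →ₗ[ℂ] ℂ) (σ : T → V) (ℓ : Module.Dual ℂ V) :
    ℓ (dV δ σ) = δ fun x => ℓ (σ x) := by
  simp [dV]
/-- `φ` lifts the first order variation `L x₀ → V / L x₀` of the family `L` along `δ` -/
def IsVar (𝒜 : Subalgebra ℂ (T → ℂ)) (x₀ : T) (δ : (T → ℂ) →ₗ[ℂ] ℂ) (L : T → Submodule ℂ V)
    (φ : V →ₗ[ℂ] V) : Prop :=
  ∀ σ : T → V, RegV 𝒜 σ → (∀ x, σ x ∈ L x) → dV δ σ - φ (σ x₀) ∈ L x₀
end Tan

open Classical in
/-- the point derivation of a tangent vector -/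
def Spc.pd (X : Spc) (x ξ : Pt) : (X.pts → ℂ) →ₗ[ℂ] ℂ :=
  if h : ∃ δ : (X.pts → ℂ) →ₗ[ℂ] ℂ, ∀ r : R, δ (fun y => eval y.1 r) = dAt x ξ r then h.choose else 0

/-! ### blocks of coordinates -/

/-- an eigenbasis of a space that has only `T`-weights -/
structure Blk (V : GV) where
  n : ℕ
  e : Module.Basis (Fin n) ℂ V.V
  w : Fin n → ℤ
  he : ∀ i, V.g (e i) = chi (w i • eT) • e i

namespace Blk
variable {V : GV} (β : Blk V)
/-- the variables of block `b` -/
def var (b : ℕ) (i : Fin β.n) : Var := (b, i.1, β.w i)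
/-- the vector with the coordinates of block `b` -/
def vec (b : ℕ) : Pt →ₗ[ℂ] V.V where
  toFun y := ∑ i, y (β.var b i) • β.e i
  map_add' y z := by simp [add_smul, Finset.sum_add_distrib]
  map_smul' c y := by simp [Finset.smul_sum, mul_smul]
/-- the point with block `b` coordinates `v` -/
def pt (b : ℕ) (v : V.V) : Pt := ∑ i, Pi.single (β.var b i) (β.e.repr v i)
/-- `y` uses only the variables of `β` in block `b` -/
def Supp (b : ℕ) (y : Pt) : Prop := ∀ v : Var, (∀ i, v ≠ β.var b i) → y v = 0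
end Blk

end Crest.Agent.N265
end
end

-- ▼ part N265/K/AB1
section

/-! # Task AB1: closure properties of `GV.In`, `IsRV`, `IsRM` -/

set_option autoImplicit false
noncomputable section
open MvPolynomial TensorProduct Module

namespace Crest.Agent.N265
open Alg _root_.Crest.Agent.N265.Pow
variable {X Y : Spc} {U V W V' W' : GV} {B : Finset ℕ}

lemma chiS_one : (1 : ℂ) ∈ chi '' (DS B : Set D) := ⟨0, zero_mem (DS B), chi_zero⟩
lemma chiS_mul : ∀ a ∈ chi '' (DS B : Set D), ∀ b ∈ chi '' (DS B : Set D),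
    a * b ∈ chi '' (DS B : Set D) := by
  rintro _ ⟨d, hd, rfl⟩ _ ⟨e, he, rfl⟩
  exact ⟨d + e, add_mem (S := AddSubgroup D) hd he, chi_add d e⟩
lemma chiS_inv : ∀ a ∈ chi '' (DS B : Set D), a⁻¹ ∈ chi '' (DS B : Set D) := by
  rintro _ ⟨d, hd, rfl⟩
  exact ⟨-d, neg_mem (S := AddSubgroup D) hd, chi_neg d⟩

namespace GV
lemma shift_g (V : GV) (d : D) (v : V.V) : (V.shift d).g v = chi d • V.g v := rfl
lemma In.mono {B' : Finset ℕ} (h : V.In B) (hB : B ⊆ B') : V.In B' :=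
  Diag.mono h (Set.image_mono (DS_mono hB))
lemma in_triv (M : Type) [AddCommGroup M] [Module ℂ M] [FiniteDimensional ℂ M] :
    (triv M).In B := diag_id chiS_one
lemma In.shift (h : V.In B) {d : D} (hd : d ∈ DS B) : (V.shift d).In B :=
  Diag.smul (a := chi d) h fun c hc => chiS_mul _ ⟨d, hd, rfl⟩ c hc
lemma in_line {d : D} (hd : d ∈ DS B) : (line d).In B := (in_triv ℂ).shift hd
lemma In.tens (h : V.In B) (h' : W.In B) : (V.tens W).In B := Diag.tmap h h' chiS_mul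
lemma In.dual (h : V.In B) : V.dual.In B := Diag.symm_dualMap h chiS_inv
lemma In.hom (h : V.In B) (h' : W.In B) : (V.hom W).In B :=
  Diag.arrowCongr h h' fun a ha b hb => chiS_mul _ (chiS_inv a ha) b hb
lemma In.prod (h : V.In B) (h' : W.In B) : (V.prod W).In B := Diag.prodMap h h'
lemma in_pi {ι : Type} [Fintype ι] {V : ι → GV} (h : ∀ i, (V i).In B) : (pi V).In B :=
  diag_pi (k := fun i => (V i).g.toLinearMap) h
lemma in_co {ι : Type} [Fintype ι] {deg : ι → D} (h : ∀ i, deg i ∈ DS B) : (co deg).In B := by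
  classical
  refine diag_of_basis (Pi.basisFun ℂ ι) fun i => ⟨_, ⟨deg i, h i, rfl⟩, funext fun j => ?_⟩
  change chi (deg j) * _ = _
  by_cases hj : j = i
  · subst hj; simp
  · simp [hj]
lemma In.lam (h : V.In B) (k : ℕ) : (lam k V).In B := Diag.lamM h chiS_one chiS_mul k
lemma In.of_inj (h : W.In B) {f : V.V →ₗ[ℂ] W.V} (hf : Deg0 V W f) (hi : Function.Injective f) :
    V.In B := Diag.of_injective h hi hf
lemma In.exists_basis (h : V.In B) : ∃ (n : ℕ) (b : Basis (Fin n) ℂ V.V) (deg : Fin n → D),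
    (∀ i, deg i ∈ DS B) ∧ ∀ i, V.g (b i) = chi (deg i) • b i := by
  obtain ⟨b, c, hc⟩ := Diag.exists_basis h
  choose deg h1 h2 using fun i => (hc i).1
  exact ⟨_, b, deg, h1, fun i => by rw [h2]; exact (hc i).2⟩
lemma In.exists_blk (h : V.In ∅) : Nonempty (Blk V) := by
  obtain ⟨n, b, deg, h1, h2⟩ := h.exists_basis
  refine ⟨⟨n, b, fun i => deg i none, fun i => ?_⟩⟩
  have : deg i none • eT = deg i := by
    ext j
    cases j with
    | none => simp [eT]
    | some j => simp [eT, h1 i j (Finset.notMem_empty j)]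
  rw [this, h2]
lemma Deg0.comp {f : V.V →ₗ[ℂ] W.V} {f' : W.V →ₗ[ℂ] U.V} (h' : Deg0 W U f') (h : Deg0 V W f) :
    Deg0 V U (f' ∘ₗ f) := fun v => by rw [LinearMap.comp_apply, h, h', LinearMap.comp_apply]
lemma deg0_id : Deg0 V V LinearMap.id := fun _ => rfl
lemma stab_of_le {M : Submodule ℂ V.V} (h : ∀ v ∈ M, V.g v ∈ M) : V.Stab M :=
  Submodule.eq_of_le_of_finrank_eq (Submodule.map_le_iff_le_comap.2 h)
    (LinearEquiv.finrank_map_eq V.g M)
lemma Stab.mem_iff {M : Submodule ℂ V.V} (h : V.Stab M) {v : V.V} : V.g v ∈ M ↔ v ∈ M := by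
  conv_lhs => rw [← h]
  rw [Submodule.mem_map_equiv, LinearEquiv.symm_apply_apply]
lemma mem_part {P : D → Prop} {d : D} (hd : P d) {v : V.V} (hv : V.g v = chi d • v) :
    v ∈ V.part P :=
  Submodule.mem_iSup_of_mem d (Submodule.mem_iSup_of_mem hd (Module.End.mem_eigenspace_iff.2 hv))
lemma part_le {P : D → Prop} {M : Submodule ℂ V.V}
    (h : ∀ d, P d → ∀ v, V.g v = chi d • v → v ∈ M) : V.part P ≤ M :=
  iSup₂_le fun d hd v hv => h d hd v (Module.End.mem_eigenspace_iff.1 hv)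
lemma stab_part (P : D → Prop) : V.Stab (V.part P) :=
  stab_of_le (part_le (M := (V.part P).comap V.g.toLinearMap) fun d hd v hv =>
    mem_part hd (by rw [LinearEquiv.coe_coe, hv, map_smul, hv]))
lemma Deg0.map_part {f : V.V →ₗ[ℂ] W.V} (h : Deg0 V W f) (P : D → Prop) :
    (V.part P).map f ≤ W.part P :=
  Submodule.map_le_iff_le_comap.2 (part_le fun d hd v hv =>
    mem_part hd (by rw [← h, hv, map_smul]))
lemma In.isCompl_part (h : V.In B) (P : D → Prop) :
    IsCompl (V.part P) (V.part fun d => ¬ P d) := by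
  refine ⟨?_, codisjoint_iff.2 (Diag.eq_top h ?_)⟩
  · have hi := (Module.End.eigenspaces_iSupIndep V.g.toLinearMap).comp chi_inj
    exact hi.disjoint_biSup_biSup (s := {d | P d}) (t := {d | ¬ P d})
      (Set.disjoint_left.2 fun d h1 h2 => h2 h1)
  · rintro _ ⟨d, -, rfl⟩ v hv
    by_cases hd : P d
    · exact Submodule.mem_sup_left (mem_part hd hv)
    · exact Submodule.mem_sup_right (mem_part hd hv)
/-- a stable subspace is graded -/
lemma Stab.eq_part_sup (hV : V.In B) {M : Submodule ℂ V.V} (h : V.Stab M) (P : D → Prop) :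
    M ⊓ V.part P ⊔ M ⊓ V.part (fun d => ¬ P d) = M := by
  refine le_antisymm (sup_le inf_le_left inf_le_left)
    (Diag.induction_sub hV (fun v hv => h.mem_iff.2 hv) ?_)
  rintro _ ⟨d, -, rfl⟩ v hvM hv
  by_cases hd : P d
  · exact Submodule.mem_sup_left ⟨hvM, mem_part hd hv⟩
  · exact Submodule.mem_sup_right ⟨hvM, mem_part hd hv⟩
end GV
open GV

lemma repr_g {ι : Type} [Fintype ι] {b : Basis ι ℂ V.V} {deg : ι → D}
    (hb : ∀ i, V.g (b i) = chi (deg i) • b i) (v : V.V) (i : ι) :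
    b.repr (V.g v) i = chi (deg i) * b.repr v i := by
  classical
  have : (b.coord i) ∘ₗ V.g.toLinearMap = chi (deg i) • b.coord i := b.ext fun j => by
    by_cases hj : j = i
    · subst hj; simp [hb]
    · simp [hb, hj]
  exact LinearMap.congr_fun this v

/-! ### vectors and maps -/
namespace IsRV
variable {s t : Pt → V.V}
lemma const {v : V.V} (h : V.g v = v) : IsRV X V fun _ => v :=
  ⟨RegV.const v, fun _ _ => h.symm⟩
lemma zero : IsRV X V fun _ => 0 := const (map_zero _)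
lemma add (h : IsRV X V s) (h' : IsRV X V t) : IsRV X V fun x => s x + t x :=
  ⟨h.reg.add h'.reg, fun x hx => by rw [h.eqv x hx, h'.eqv x hx, map_add]⟩
lemma sub (h : IsRV X V s) (h' : IsRV X V t) : IsRV X V fun x => s x - t x :=
  ⟨h.reg.sub h'.reg, fun x hx => by rw [h.eqv x hx, h'.eqv x hx, map_sub]⟩
lemma csmul (h : IsRV X V s) (c : ℂ) : IsRV X V fun x => c • s x :=
  ⟨h.reg.csmul c, fun x hx => by rw [h.eqv x hx, map_smul]⟩
lemma sum {ι : Type} (I : Finset ι) {s : ι → Pt → V.V} (h : ∀ i ∈ I, IsRV X V (s i)) :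
    IsRV X V fun x => ∑ i ∈ I, s i x :=
  ⟨RegV.sum I fun i hi => (h i hi).reg, fun x hx => by
    rw [map_sum]; exact Finset.sum_congr rfl fun i hi => (h i hi).eqv x hx⟩
lemma smul (h : IsRV X V s) {d : D} {r : R} (hr : Hmg d r) :
    IsRV X (V.shift d) fun x => eval x r • s x :=
  ⟨h.reg.smul (X.eval_mem_fn r), fun x hx => by
    rw [shift_g, h.eqv x hx, hr.eval_gpt, map_smul, smul_smul]⟩
lemma lin (h : IsRV X V s) {f : V.V →ₗ[ℂ] W.V} (hf : Deg0 V W f) : IsRV X W fun x => f (s x) :=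
  ⟨h.reg.map f, fun x hx => by rw [h.eqv x hx, hf]⟩
lemma bilin {t : Pt → W.V} (h : IsRV X V s) (h' : IsRV X W t) (β : V.V →ₗ[ℂ] W.V →ₗ[ℂ] U.V)
    (hβ : ∀ v w, β (V.g v) (W.g w) = U.g (β v w)) : IsRV X U fun x => β (s x) (t x) :=
  ⟨RegV.bilin β h.reg h'.reg, fun x hx => by rw [h.eqv x hx, h'.eqv x hx, hβ]⟩
lemma tmul {t : Pt → W.V} (h : IsRV X V s) (h' : IsRV X W t) :
    IsRV X (V.tens W) fun x => s x ⊗ₜ[ℂ] t x :=
  h.bilin (U := V.tens W) h' (TensorProduct.mk ℂ V.V W.V) fun _ _ => rfl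
lemma pair {t : Pt → W.V} (h : IsRV X V s) (h' : IsRV X W t) :
    IsRV X (V.prod W) fun x => (s x, t x) :=
  ⟨h.reg.prod h'.reg, fun x hx => by rw [h.eqv x hx, h'.eqv x hx]; rfl⟩
lemma pi {ι : Type} [Fintype ι] {V : ι → GV} {s : ∀ i, Pt → (V i).V}
    (h : ∀ i, IsRV X (V i) (s i)) : IsRV X (GV.pi V) fun x i => s i x := by
  classical
  refine ⟨?_, fun x hx => funext fun i => (h i).eqv x hx⟩
  have e : (fun (x : X.pts) i => s i x.1) =
      fun x => ∑ i, LinearMap.single ℂ (fun i => (V i).V) i (s i x.1) := by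
    funext x
    exact (Finset.univ_sum_single _).symm
  change RegV X.fn fun (x : X.pts) i => s i x.1
  rw [e]
  exact RegV.sum _ fun i _ => (h i).reg.map _
lemma congr (h : IsRV X V s) (e : ∀ x ∈ X.pts, s x = t x) : IsRV X V t :=
  ⟨(funext fun x : X.pts => e x.1 x.2 : (fun x : X.pts => s x.1) = fun x => t x.1) ▸ h.reg,
    fun x hx => by rw [← e x hx, ← e _ (X.inv x hx), h.eqv x hx]⟩
lemma pull (h : IsRV X V s) (p : Proj Y X) : IsRV Y V fun y => s (restr X.B y) :=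
  ⟨h.reg.precomp p.pt p.fn_comp, fun y hy => by rw [restr_gpt, h.eqv _ (p.map y hy)]⟩
lemma mono (h : IsRV X V s) (p : Y.Sub X) : IsRV Y V s :=
  (h.pull p.proj).congr fun y hy => by rw [X.restr_eq (p.2 hy)]
/-- coordinates in an eigenbasis are homogeneous polynomials -/
lemma exists_poly (h : IsRV X V s) {ι : Type} [Fintype ι] (b : Basis ι ℂ V.V) {deg : ι → D}
    (hb : ∀ i, V.g (b i) = chi (deg i) • b i) : ∃ r : ι → R, (∀ i, Hmg (deg i) (r i)) ∧
      ∀ x ∈ X.pts, ∀ i, eval x (r i) = b.repr (s x) i := by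
  choose r hr using fun i => Spc.mem_fn.1 (h.reg.coord b i)
  refine ⟨fun i => hc (deg i) (r i), fun i => hc_hmg _ _, fun x hx i => ?_⟩
  rw [Spc.eval_hc (fun y hy => ?_) hx, ← hr i ⟨x, hx⟩]
  rw [← hr i ⟨_, X.inv y hy⟩, ← hr i ⟨y, hy⟩]
  change b.repr (s (gpt y)) i = chi (deg i) * b.repr (s y) i
  rw [h.eqv y hy, repr_g hb]
end IsRV
lemma Blk.isRV_vec (β : Blk V) (b : ℕ) : IsRV X (V.shift (eB b)) (β.vec b) := by
  refine ⟨?_, fun x _ => ?_⟩
  · change RegV X.fn fun x : X.pts => ∑ i, x.1 (β.var b i) • β.e i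
    exact RegV.sum _ fun i _ => (RegV.const _).smul
      (Spc.mem_fn.2 ⟨MvPolynomial.X (β.var b i), fun x => by rw [eval_X]⟩)
  · rw [shift_g]
    change ∑ i, gpt x (β.var b i) • β.e i = chi (eB b) • V.g (∑ i, x (β.var b i) • β.e i)
    rw [map_sum, Finset.smul_sum]
    refine Finset.sum_congr rfl fun i _ => ?_
    rw [map_smul, β.he, smul_smul, smul_smul]
    congr 1
    simp only [gpt, vdeg, Blk.var, chi_add]
    ring
lemma Blk.var_inj (β : Blk V) (b : ℕ) : Function.Injective (β.var b) := fun _ _ h =>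
  Fin.ext (congrArg (fun v : Var => v.2.1) h)
lemma Blk.repr_vec' (β : Blk V) (b : ℕ) (y : Pt) (i : Fin β.n) :
    β.e.repr (β.vec b y) i = y (β.var b i) := by
  change β.e.repr (∑ i, y (β.var b i) • β.e i) i = _
  rw [β.e.repr_sum_self]
lemma Blk.pt_var (β : Blk V) (b : ℕ) (v : V.V) (i : Fin β.n) :
    β.pt b v (β.var b i) = β.e.repr v i := by
  simp [Blk.pt, Finset.sum_apply, Pi.single_apply, (β.var_inj b).eq_iff]
lemma Blk.vec_pt (β : Blk V) (b : ℕ) (v : V.V) : β.vec b (β.pt b v) = v :=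
  β.e.ext_elem fun i => by rw [β.repr_vec', β.pt_var]
lemma Blk.supp_pt (β : Blk V) (b : ℕ) (v : V.V) : β.Supp b (β.pt b v) := fun w hw => by
  simp [Blk.pt, Finset.sum_apply, hw]
lemma Blk.pt_vec (β : Blk V) (b : ℕ) {y : Pt} (h : β.Supp b y) : β.pt b (β.vec b y) = y := by
  funext w
  by_cases hw : ∃ i, w = β.var b i
  · obtain ⟨i, rfl⟩ := hw
    rw [β.pt_var, β.repr_vec']
  · push Not at hw
    rw [β.supp_pt b _ w hw, h w hw]
lemma Blk.vec_restr (β : Blk V) {b : ℕ} (hb : b ∈ B) (y : Pt) :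
    β.vec b (restr B y) = β.vec b y :=
  β.e.ext_elem fun i => by rw [β.repr_vec', β.repr_vec']; exact if_pos hb
lemma Blk.repr_vec (β : Blk V) (b : ℕ) (y : Pt) (i : Fin β.n) :
    β.e.repr (β.vec b y) i = y (β.var b i) := β.repr_vec' b y i

lemma isRM_iff {φ : Pt → V.V →ₗ[ℂ] W.V} : IsRM X V W φ ↔ IsRV X (V.hom W) φ := by
  refine ⟨fun h => ⟨h.reg.regV, fun x hx => LinearMap.ext fun v => ?_⟩,
    fun h => ⟨RegM.of_regV h.reg, fun x hx => LinearMap.ext fun v => ?_⟩⟩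
  · have := LinearMap.congr_fun (h.eqv x hx) (V.g.symm v)
    simpa using this
  · rw [h.eqv x hx]
    simp
lemma IsRM.mk' {φ : Pt → V.V →ₗ[ℂ] W.V} (h : RegM X.fn fun x => φ x.1)
    (he : ∀ x ∈ X.pts, ∀ v, φ (gpt x) (V.g v) = W.g (φ x v)) : IsRM X V W φ :=
  ⟨h, fun x hx => LinearMap.ext (he x hx)⟩
namespace IsRM
variable {φ ψ : Pt → V.V →ₗ[ℂ] W.V}
lemma eqv_apply (h : IsRM X V W φ) {x : Pt} (hx : x ∈ X.pts) (v : V.V) :
    φ (gpt x) (V.g v) = W.g (φ x v) := LinearMap.congr_fun (h.eqv x hx) v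
lemma const {f : V.V →ₗ[ℂ] W.V} (hf : Deg0 V W f) : IsRM X V W fun _ => f :=
  mk' (RegM.const f) fun _ _ => hf
lemma id : IsRM X V V fun _ => LinearMap.id := const deg0_id
lemma zero : IsRM X V W fun _ => 0 := const fun _ => (map_zero _).symm
lemma add (h : IsRM X V W φ) (h' : IsRM X V W ψ) : IsRM X V W fun x => φ x + ψ x :=
  isRM_iff.2 ((isRM_iff.1 h).add (isRM_iff.1 h'))
lemma sub (h : IsRM X V W φ) (h' : IsRM X V W ψ) : IsRM X V W fun x => φ x - ψ x :=
  isRM_iff.2 ((isRM_iff.1 h).sub (isRM_iff.1 h'))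
lemma csmul (h : IsRM X V W φ) (c : ℂ) : IsRM X V W fun x => c • φ x :=
  isRM_iff.2 ((isRM_iff.1 h).csmul c)
lemma comp {χ : Pt → W.V →ₗ[ℂ] U.V} (h' : IsRM X W U χ) (h : IsRM X V W φ) :
    IsRM X V U fun x => χ x ∘ₗ φ x :=
  mk' (h'.reg.comp h.reg) fun x hx v => by
    rw [LinearMap.comp_apply, h.eqv_apply hx, h'.eqv_apply hx, LinearMap.comp_apply]
lemma app (h : IsRM X V W φ) {s : Pt → V.V} (hs : IsRV X V s) : IsRV X W fun x => φ x (s x) :=
  ⟨h.reg.apply hs.reg, fun x hx => by rw [hs.eqv x hx, h.eqv_apply hx]⟩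
lemma smul (h : IsRM X V W φ) {d : D} {r : R} (hr : Hmg d r) :
    IsRM X V (W.shift d) fun x => eval x r • φ x :=
  mk' (h.reg.smul (X.eval_mem_fn r)) fun x hx v => by
    rw [shift_g, LinearMap.smul_apply, h.eqv_apply hx, hr.eval_gpt, LinearMap.smul_apply, map_smul,
      smul_smul]
lemma shift (h : IsRM X V W φ) (d : D) : IsRM X (V.shift d) (W.shift d) φ :=
  mk' h.reg fun x hx v => by rw [shift_g, shift_g, map_smul, h.eqv_apply hx]
lemma of_bilin {s : Pt → U.V} (hs : IsRV X U s) (β : U.V →ₗ[ℂ] V.V →ₗ[ℂ] W.V)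
    (hβ : ∀ u v, β (U.g u) (V.g v) = W.g (β u v)) : IsRM X V W fun x => β (s x) :=
  mk' (RegM.of_regV (hs.reg.map β)) fun x hx v => by rw [hs.eqv x hx, hβ]
lemma tensor {χ : Pt → V'.V →ₗ[ℂ] W'.V} (h : IsRM X V W φ) (h' : IsRM X V' W' χ) :
    IsRM X (V.tens V') (W.tens W') fun x => TensorProduct.map (φ x) (χ x) :=
  ⟨h.reg.tensor h'.reg, fun x hx => TensorProduct.ext' fun v w => by
    change φ (gpt x) (V.g v) ⊗ₜ[ℂ] χ (gpt x) (V'.g w) = W.g (φ x v) ⊗ₜ[ℂ] W'.g (χ x w)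
    rw [h.eqv_apply hx, h'.eqv_apply hx]⟩
lemma symm_apply (h : IsRM X V W φ) {x : Pt} (hx : x ∈ X.pts) (v : V.V) :
    W.g.symm (φ (gpt x) v) = φ x (V.g.symm v) := by
  rw [LinearEquiv.symm_apply_eq, ← h.eqv_apply hx, LinearEquiv.apply_symm_apply]
lemma homM {χ : Pt → V'.V →ₗ[ℂ] W'.V} (h : IsRM X V W φ) (h' : IsRM X V' W' χ) :
    IsRM X (W.hom V') (V.hom W') fun x => Alg.homM (φ x) (χ x) :=
  mk' (h.reg.homM h'.reg) fun x hx f => LinearMap.ext fun v => by
    change χ (gpt x) (V'.g (f (W.g.symm (φ (gpt x) v)))) = W'.g (χ x (f (φ x (V.g.symm v))))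
    rw [h'.eqv_apply hx, h.symm_apply hx]
lemma dualMap (h : IsRM X V W φ) : IsRM X W.dual V.dual fun x => (φ x).dualMap :=
  mk' h.reg.dualMap fun x hx ℓ => LinearMap.ext fun v => by
    change ℓ (W.g.symm (φ (gpt x) v)) = ℓ (φ x (V.g.symm v))
    rw [h.symm_apply hx]
lemma lamM (h : IsRM X V W φ) (k : ℕ) :
    IsRM X (lam k V) (lam k W) fun x => lamM k (φ x) :=
  ⟨h.reg.lamM k, fun x hx => by
    change Pow.lamM k (φ (gpt x)) ∘ₗ Pow.lamM k V.g.toLinearMap =
      Pow.lamM k W.g.toLinearMap ∘ₗ Pow.lamM k (φ x)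
    rw [← exteriorPower.map_comp, ← exteriorPower.map_comp, h.eqv x hx]⟩
lemma prod {χ : Pt → V.V →ₗ[ℂ] U.V} (h : IsRM X V W φ) (h' : IsRM X V U χ) :
    IsRM X V (W.prod U) fun x => (φ x).prod (χ x) :=
  mk' (h.reg.prod h'.reg) fun _ hx v => Prod.ext (h.eqv_apply hx v) (h'.eqv_apply hx v)
lemma coprod {χ : Pt → U.V →ₗ[ℂ] W.V} (h : IsRM X V W φ) (h' : IsRM X U W χ) :
    IsRM X (V.prod U) W fun x => (φ x).coprod (χ x) :=
  mk' (h.reg.coprod h'.reg) fun x hx v => by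
    change φ (gpt x) (V.g v.1) + χ (gpt x) (U.g v.2) = W.g (φ x v.1 + χ x v.2)
    rw [h.eqv_apply hx, h'.eqv_apply hx, map_add]
lemma pi {ι : Type} [Fintype ι] {W : ι → GV} {φ : ∀ i, Pt → V.V →ₗ[ℂ] (W i).V}
    (h : ∀ i, IsRM X V (W i) (φ i)) : IsRM X V (GV.pi W) fun x => LinearMap.pi fun i => φ i x := by
  classical
  refine mk' (fun v => ?_) fun x hx v => funext fun i => (h i).eqv_apply hx v
  have e : (fun x : X.pts => (LinearMap.pi fun i => φ i x.1) v) =
      fun x => ∑ i, LinearMap.single ℂ (fun i => (W i).V) i (φ i x.1 v) := by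
    funext x
    exact (Finset.univ_sum_single _).symm
  rw [e]
  exact RegV.sum _ fun i _ => ((h i).reg v).map _
lemma toSpan {s : Pt → V.V} (hs : IsRV X V s) :
    IsRM X (line 0) V fun x => LinearMap.toSpanSingleton ℂ V.V (s x) :=
  mk' (fun c => hs.reg.csmul c) fun x hx c => by
    change (chi 0 • c) • s (gpt x) = V.g (c • s x)
    rw [chi_zero, one_smul, hs.eqv x hx, map_smul]
lemma congr (h : IsRM X V W φ) (e : ∀ x ∈ X.pts, φ x = ψ x) : IsRM X V W ψ :=
  isRM_iff.2 ((isRM_iff.1 h).congr e)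
lemma pull (h : IsRM X V W φ) (p : Proj Y X) : IsRM Y V W fun y => φ (restr X.B y) :=
  isRM_iff.2 ((isRM_iff.1 h).pull p)
lemma mono (h : IsRM X V W φ) (p : Y.Sub X) : IsRM Y V W φ := isRM_iff.2 ((isRM_iff.1 h).mono p)
end IsRM
lemma isRM_mev {ι κ : Type} [Fintype ι] [Fintype κ] {a : ι → D} {b : κ → D} {Φ : Matrix κ ι R}
    (h : MHmg a b Φ) : IsRM X (co a) (co b) fun x => mev x Φ :=
  IsRM.mk' (regM_mev X Φ) fun x _ v => h.mev_gpt x v

end Crest.Agent.N265
end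
end

-- ▼ part N265/K/AB1b

/-! # Task AB1b: closure properties of `Eqv`, `GenA`, `CogA`, `IsAB` -/

set_option autoImplicit false
set_option linter.unusedSectionVars false
noncomputable section
open MvPolynomial TensorProduct Module

namespace Crest.Agent.N265
open Alg _root_.Crest.Agent.N265.Pow GV
variable {X Y : Spc} {U V W V' W' : GV} {B : Finset ℕ}

/-! ### equivariance -/
namespace Eqv
variable {L L' : Pt → Submodule ℂ V.V} {M : Pt → Submodule ℂ W.V} {φ : Pt → V.V →ₗ[ℂ] W.V}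
lemma mem_iff (h : Eqv X V L) {x : Pt} (hx : x ∈ X.pts) {v : V.V} :
    V.g v ∈ L (gpt x) ↔ v ∈ L x := by
  rw [← h x hx, Submodule.mem_map_equiv, LinearEquiv.symm_apply_apply]
lemma of_mem_iff (h : ∀ x ∈ X.pts, ∀ v, V.g v ∈ L (gpt x) ↔ v ∈ L x) : Eqv X V L :=
  fun x hx => by
    ext w
    rw [Submodule.mem_map_equiv, ← h x hx, LinearEquiv.apply_symm_apply]
lemma const {N : Submodule ℂ V.V} (h : V.Stab N) : Eqv X V fun _ => N := fun _ _ => h
lemma map (h : Eqv X V L) (hφ : IsRM X V W φ) : Eqv X W fun x => (L x).map (φ x) :=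
  fun x hx => by
    dsimp only
    rw [← h x hx, ← Submodule.map_comp, ← Submodule.map_comp, hφ.eqv x hx]
lemma comap (h : Eqv X W M) (hφ : IsRM X V W φ) : Eqv X V fun x => (M x).comap (φ x) :=
  of_mem_iff fun x hx v => by
    rw [Submodule.mem_comap, Submodule.mem_comap, hφ.eqv_apply hx]
    exact h.mem_iff hx
lemma ker (hφ : IsRM X V W φ) : Eqv X V fun x => LinearMap.ker (φ x) :=
  (const (N := ⊥) (Submodule.map_bot _)).comap hφ
lemma range (hφ : IsRM X V W φ) : Eqv X W fun x => LinearMap.range (φ x) := fun x hx => by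
  dsimp only
  rw [← LinearMap.range_comp, ← hφ.eqv x hx, LinearMap.range_comp, LinearEquiv.range,
    Submodule.map_top]
lemma inf (h : Eqv X V L) (h' : Eqv X V L') : Eqv X V fun x => L x ⊓ L' x :=
  of_mem_iff fun _ hx _ => and_congr (h.mem_iff hx) (h'.mem_iff hx)
lemma sup (h : Eqv X V L) (h' : Eqv X V L') : Eqv X V fun x => L x ⊔ L' x := fun x hx => by
  dsimp only
  rw [Submodule.map_sup, h x hx, h' x hx]
lemma iSup {α : Type} {F : α → Pt → Submodule ℂ V.V} (h : ∀ a, Eqv X V (F a)) :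
    Eqv X V fun x => ⨆ a, F a x := fun x hx => by
  dsimp only
  rw [Submodule.map_iSup]
  exact iSup_congr fun a => h a x hx
lemma iInf {α : Type} {F : α → Pt → Submodule ℂ V.V} (h : ∀ a, Eqv X V (F a)) :
    Eqv X V fun x => ⨅ a, F a x := of_mem_iff fun _ hx _ => by
  rw [Submodule.mem_iInf, Submodule.mem_iInf]
  exact forall_congr' fun a => (h a).mem_iff hx
lemma tens (h : Eqv X V L) (h' : Eqv X W M) : Eqv X (V.tens W) fun x => tens (L x) (M x) :=
  fun x hx => by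
    dsimp only
    rw [← h x hx, ← h' x hx, ← tens_map]
    rfl
lemma shift (h : Eqv X V L) (d : D) : Eqv X (V.shift d) L := of_mem_iff fun x hx _ =>
  ((L (gpt x)).smul_mem_iff (chi_ne d)).trans (h.mem_iff hx)
lemma perp (h : Eqv X V L) : Eqv X V.dual fun x => (L x).dualAnnihilator :=
  of_mem_iff fun x hx ℓ => by
    rw [Submodule.mem_dualAnnihilator, Submodule.mem_dualAnnihilator, ← h x hx]
    constructor
    · intro H v hv
      simpa using H (V.g v) ⟨v, hv, rfl⟩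
    · rintro H _ ⟨v, hv, rfl⟩
      simpa using H v hv
lemma homMap (h : Eqv X V L) (h' : Eqv X W M) : Eqv X (V.hom W) fun x => homMap (L x) (M x) :=
  of_mem_iff fun x hx f => by
    rw [mem_homMap, mem_homMap, ← h x hx]
    constructor
    · intro H v hv
      rw [← h'.mem_iff hx]
      simpa using H (V.g v) ⟨v, hv, rfl⟩
    · rintro H _ ⟨v, hv, rfl⟩
      simpa using (h'.mem_iff hx).2 (H v hv)
lemma congr (h : Eqv X V L) (e : ∀ x ∈ X.pts, L x = L' x) : Eqv X V L' := fun x hx => by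
  rw [← e x hx, ← e _ (X.inv x hx)]; exact h x hx
lemma pull (h : Eqv X V L) (p : Proj Y X) : Eqv Y V fun y => L (restr X.B y) := fun y hy => by
  dsimp only
  rw [restr_gpt]; exact h _ (p.map y hy)
lemma finrank (h : Eqv X V L) {x : Pt} (hx : x ∈ X.pts) :
    finrank ℂ (L (gpt x)) = finrank ℂ (L x) := by
  rw [← h x hx, LinearEquiv.finrank_map_eq]
end Eqv

/-! ### generated and cogenerated families -/
section Gen
variable {M N : Type} [AddCommGroup M] [Module ℂ M] [FiniteDimensional ℂ M] [AddCommGroup N]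
  [Module ℂ N] [FiniteDimensional ℂ N] {L L' : Pt → Submodule ℂ M} {P : Pt → Submodule ℂ N}
  {φ : Pt → M →ₗ[ℂ] N}

/-- the values at `x` of the regular sections of `L` -/
def secs (X : Spc) (L : Pt → Submodule ℂ M) (x : X.pts) : Submodule ℂ M where
  carrier := {v | ∃ σ : X.pts → M, RegV X.fn σ ∧ (∀ y, σ y ∈ L y.1) ∧ σ x = v}
  add_mem' := by
    rintro _ _ ⟨s, h1, h2, rfl⟩ ⟨t, k1, k2, rfl⟩
    exact ⟨_, h1.add k1, fun y => add_mem (h2 y) (k2 y), rfl⟩
  zero_mem' := ⟨_, RegV.zero, fun _ => zero_mem _, rfl⟩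
  smul_mem' := by
    rintro c _ ⟨s, h1, h2, rfl⟩
    exact ⟨_, h1.csmul c, fun y => Submodule.smul_mem _ _ (h2 y), rfl⟩
omit [FiniteDimensional ℂ M] in
lemma genA_iff : GenA X L ↔ ∀ x : X.pts, L x.1 ≤ secs X L x := Iff.rfl
omit [FiniteDimensional ℂ M] in
lemma secs_mono (h : ∀ y : X.pts, L y.1 ≤ L' y.1) (x : X.pts) : secs X L x ≤ secs X L' x := by
  rintro _ ⟨s, h1, h2, rfl⟩
  exact ⟨s, h1, fun y => h y (h2 y), rfl⟩
omit [FiniteDimensional ℂ M] [FiniteDimensional ℂ N] in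
lemma ann_comap (f : M →ₗ[ℂ] N) (Q : Submodule ℂ N) :
    (Q.comap f).dualAnnihilator = Q.dualAnnihilator.map f.dualMap := by
  have e : Q.comap f = LinearMap.ker (Q.mkQ ∘ₗ f) := by rw [LinearMap.ker_comp, Submodule.ker_mkQ]
  rw [e, ← LinearMap.range_dualMap_eq_dualAnnihilator_ker, ← LinearMap.dualMap_comp_dualMap,
    LinearMap.range_comp, LinearMap.range_dualMap_eq_dualAnnihilator_ker, Submodule.ker_mkQ]
lemma ann_iInf {α : Type} (F : α → Submodule ℂ M) :
    (⨅ a, F a).dualAnnihilator = ⨆ a, (F a).dualAnnihilator := by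
  rw [← Subspace.dualCoannihilator_dualAnnihilator_eq (W := ⨆ a, (F a).dualAnnihilator),
    Submodule.dualCoannihilator_iSup_eq]
  simp only [Subspace.dualAnnihilator_dualCoannihilator_eq]
omit [FiniteDimensional ℂ N] in
lemma finrank_inf_comap_add [FiniteDimensional ℂ N] (A : Submodule ℂ M) (Q : Submodule ℂ N)
    (f : M →ₗ[ℂ] N) : finrank ℂ (A ⊓ Q.comap f : Submodule ℂ M) +
      finrank ℂ (A.map f ⊔ Q : Submodule ℂ N) = finrank ℂ A + finrank ℂ Q := by
  have h1 := finrank_map_add_inf_ker A (Q.mkQ ∘ₗ f)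
  have h2 := finrank_map_add_inf_ker (A.map f ⊔ Q) Q.mkQ
  rw [LinearMap.ker_comp, Submodule.ker_mkQ, Submodule.map_comp] at h1
  rw [Submodule.ker_mkQ, inf_eq_right.2 le_sup_right, Submodule.map_sup, Submodule.mkQ_map_self,
    sup_bot_eq] at h2
  omega

lemma genA_of_alg (h : Alg X.fn fun x => L x.1) : GenA X L := fun _ _ hv => h.exists_section hv
lemma cogA_of_alg (h : Alg X.fn fun x => L x.1) : CogA X L := genA_of_alg h.perp
/-- sections extending a basis of the fibre -/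
lemma GenA.frame (h : GenA X L) (x : X.pts) : ∃ s : Fin (finrank ℂ (L x.1)) → X.pts → M,
    (∀ i, RegV X.fn (s i)) ∧ (∀ y, Submodule.span ℂ (Set.range fun i => s i y) ≤ L y.1) ∧
      Near X.fn x fun y =>
        finrank ℂ (Submodule.span ℂ (Set.range fun i => s i y)) = finrank ℂ (L x.1) := by
  let b := finBasis ℂ (L x.1)
  choose s hs h1 h2 using fun i => h x _ (b i).2
  have li : LinearIndependent ℂ fun i => s i x := by
    simp only [h2]
    exact b.linearIndependent.map' (L x.1).subtype (Submodule.ker_subtype _)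
  refine ⟨s, hs, fun y => ?_, (near_linearIndependent hs li).mono fun y hy => ?_⟩
  · rw [Submodule.span_le]; rintro _ ⟨i, rfl⟩; exact h1 i y
  · rw [finrank_span_eq_card hy, Fintype.card_fin]
lemma GenA.usc (h : GenA X L) : X.USC fun x => -(finrank ℂ (L x) : ℤ) := usc_iff.2 fun x => by
  obtain ⟨s, -, h1, h2⟩ := h.frame x
  refine h2.mono fun y hy => ?_
  have := Submodule.finrank_mono (h1 y)
  omega
lemma CogA.usc (h : CogA X L) : X.USC fun x => (finrank ℂ (L x) : ℤ) := usc_iff.2 fun x =>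
  (usc_iff.1 (GenA.usc h) x).mono fun y hy => by
    have h1 := Subspace.finrank_add_finrank_dualAnnihilator_eq (L x.1)
    have h2 := Subspace.finrank_add_finrank_dualAnnihilator_eq (L y.1)
    omega
lemma GenA.alg_of_usc (h : GenA X L) (hr : X.USC fun x => (finrank ℂ (L x) : ℤ)) :
    Alg X.fn fun x => L x.1 := fun x => by
  obtain ⟨s, hs, h1, h2⟩ := h.frame x
  have hr' : Near X.fn x fun y => finrank ℂ (L y.1) ≤ finrank ℂ (L x.1) :=
    (usc_iff.1 hr x).mono fun y hy => by exact_mod_cast hy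
  exact AlgAt.of_span (L := fun x : X.pts => L x.1) hs ((h2.and hr').mono fun y hy =>
    (Submodule.eq_of_le_of_finrank_le (h1 y) (hy.2.trans hy.1.ge)).symm) hr'
lemma GenA.alg (h : GenA X L) (h' : CogA X L) : Alg X.fn fun x => L x.1 := h.alg_of_usc h'.usc
lemma CogA.alg_of_usc (h : CogA X L) (hr : X.USC fun x => -(finrank ℂ (L x) : ℤ)) :
    Alg X.fn fun x => L x.1 := by
  refine (GenA.alg_of_usc h (usc_iff.2 fun x => (usc_iff.1 hr x).mono fun y hy => ?_)).coperp.congr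
    fun x => Subspace.dualAnnihilator_dualCoannihilator_eq
  have h1 := Subspace.finrank_add_finrank_dualAnnihilator_eq (L x.1)
  have h2 := Subspace.finrank_add_finrank_dualAnnihilator_eq (L y.1)
  omega
lemma GenA.alg_of_rk (h : GenA X L) {n : ℕ} (hr : ∀ x ∈ X.pts, finrank ℂ (L x) = n) :
    Alg X.fn fun x => L x.1 :=
  h.alg_of_usc (usc_iff.2 fun x => Near.of_forall fun y => by rw [hr _ x.2, hr _ y.2])
lemma CogA.alg_of_rk (h : CogA X L) {n : ℕ} (hr : ∀ x ∈ X.pts, finrank ℂ (L x) = n) :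
    Alg X.fn fun x => L x.1 :=
  h.alg_of_usc (usc_iff.2 fun x => Near.of_forall fun y => by rw [hr _ x.2, hr _ y.2])
lemma GenA.congr (h : GenA X L) (e : ∀ x ∈ X.pts, L x = L' x) : GenA X L' := fun x v hv => by
  obtain ⟨s, h1, h2, h3⟩ := h x v (e x.1 x.2 ▸ hv)
  exact ⟨s, h1, fun y => e y.1 y.2 ▸ h2 y, h3⟩
lemma CogA.congr (h : CogA X L) (e : ∀ x ∈ X.pts, L x = L' x) : CogA X L' :=
  GenA.congr h fun x hx => by rw [e x hx]
lemma GenA.map (h : GenA X L) (hφ : RegM X.fn fun x => φ x.1) :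
    GenA X fun x => (L x).map (φ x) := by
  rintro x _ ⟨v, hv, rfl⟩
  obtain ⟨s, h1, h2, rfl⟩ := h x v hv
  exact ⟨_, hφ.apply h1, fun y => ⟨_, h2 y, rfl⟩, rfl⟩
lemma CogA.comap (h : CogA X P) (hφ : RegM X.fn fun x => φ x.1) :
    CogA X fun x => (P x).comap (φ x) :=
  (GenA.map (φ := fun x => (φ x).dualMap) h hφ.dualMap).congr fun _ _ => (ann_comap _ _).symm
lemma cogA_ker (hφ : RegM X.fn fun x => φ x.1) : CogA X fun x => LinearMap.ker (φ x) :=
  (cogA_of_alg (L := fun _ => ⊥) (Alg.const ⊥)).comap hφ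
lemma GenA.sup (h : GenA X L) (h' : GenA X L') : GenA X fun x => L x ⊔ L' x :=
  genA_iff.2 fun x => sup_le ((genA_iff.1 h x).trans (secs_mono (fun _ => le_sup_left) x))
    ((genA_iff.1 h' x).trans (secs_mono (fun _ => le_sup_right) x))
lemma CogA.inf (h : CogA X L) (h' : CogA X L') : CogA X fun x => L x ⊓ L' x :=
  (GenA.sup h h').congr fun _ _ => (Subspace.dualAnnihilator_inf_eq _ _).symm
lemma GenA.iSup {α : Type} {F : α → Pt → Submodule ℂ M} (h : ∀ a, GenA X (F a)) :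
    GenA X fun x => ⨆ a, F a x :=
  genA_iff.2 fun x => iSup_le fun a =>
    (genA_iff.1 (h a) x).trans (secs_mono (fun y => le_iSup (fun a => F a y.1) a) x)
lemma CogA.iInf {α : Type} {F : α → Pt → Submodule ℂ M} (h : ∀ a, CogA X (F a)) :
    CogA X fun x => ⨅ a, F a x :=
  (GenA.iSup (F := fun a x => (F a x).dualAnnihilator) h).congr fun _ _ => (ann_iInf _).symm
lemma GenA.tens (h : GenA X L) (h' : GenA X P) : GenA X fun x => tens (L x) (P x) :=
  genA_iff.2 fun x => tens_le.2 fun v hv w hw => by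
    obtain ⟨s, h1, h2, rfl⟩ := h x v hv
    obtain ⟨t, k1, k2, rfl⟩ := h' x w hw
    exact ⟨_, h1.tmul k1, fun y => tmul_mem (h2 y) (k2 y), rfl⟩
lemma GenA.pull (h : GenA X L) (p : Proj Y X) : GenA Y fun y => L (restr X.B y) := fun y v hv => by
  obtain ⟨s, h1, h2, h3⟩ := h (p.pt y) v hv
  exact ⟨fun z => s (p.pt z), h1.precomp p.pt p.fn_comp, fun z => h2 (p.pt z), h3⟩
lemma CogA.pull (h : CogA X L) (p : Proj Y X) : CogA Y fun y => L (restr X.B y) := GenA.pull h p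
lemma alg_lc (h : Alg X.fn fun x => L x.1) : X.LC fun x => finrank ℂ (L x) :=
  lc_iff.2 fun x => h.near_finrank x
end Gen

/-- maps of pairs `(L, L') → (M, M')` form a bundle -/
theorem alg_homMap_inf {T : Type} {𝒜 : Subalgebra ℂ (T → ℂ)} {M N : Type} [AddCommGroup M]
    [Module ℂ M] [FiniteDimensional ℂ M] [AddCommGroup N] [Module ℂ N] [FiniteDimensional ℂ N]
    {L L' : T → Submodule ℂ M} {P P' : T → Submodule ℂ N} (h : Alg 𝒜 L) (h₁ : Alg 𝒜 L')
    (h' : Alg 𝒜 P) (h₂ : Alg 𝒜 P') (hL : ∀ x, L' x ≤ L x) (hM : ∀ x, P' x ≤ P x) :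
    Alg 𝒜 fun x => Alg.homMap (L x) (P x) ⊓ Alg.homMap (L' x) (P' x) := by
  intro x₀
  obtain ⟨f, hf, f0, E, hE, e1, e2, -⟩ := (h.algAt x₀).out
  obtain ⟨f', hf', f0', E', hE', e1', e2', -⟩ := (h₁.algAt x₀).out
  obtain ⟨g, hg, g0, F, hF, k1, k2, -⟩ := (h'.algAt x₀).out
  obtain ⟨g', hg', g0', F', hF', k1', k2', -⟩ := (h₂.algAt x₀).out
  refine AlgAt.of_near (fmul_mem (fmul_mem hg hg') (fmul_mem hf hf'))
    (((((hE.compl' hf).smul hf').homM (RegM.smul_id (fmul_mem hg hg'))).add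
      (((hE'.compl' hf').comp hE).homM (hF.smul hg'))).add ((hE'.comp hE).homM (hF'.smul hg)))
    (mul_ne_zero (mul_ne_zero g0 g0') (mul_ne_zero f0 f0'))
    (Near.of_forall fun x => ⟨fun u => ⟨fun v hv => ?_, fun v hv => ?_⟩, fun u hu => ?_⟩)
  · simp only [LinearMap.add_apply, homM_apply, LinearMap.comp_apply, LinearMap.smul_apply,
      LinearMap.sub_apply, LinearMap.id_apply, e2 x v hv, sub_self, smul_zero, map_zero, zero_add]
    exact add_mem (Submodule.smul_mem _ _ (k1 x _)) (Submodule.smul_mem _ _ (hM x (k1' x _)))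
  · simp only [LinearMap.add_apply, homM_apply, LinearMap.comp_apply, LinearMap.smul_apply,
      LinearMap.sub_apply, LinearMap.id_apply, e2 x v (hL x hv), sub_self, smul_zero, map_zero,
      zero_add, e2' x _ (Submodule.smul_mem _ (f x) hv)]
    exact Submodule.smul_mem _ _ (k1' x _)
  · ext v
    have a1 := k2 x _ (hu.1 _ (sub_mem (Submodule.smul_mem _ (f' x) (e1 x v))
      (hL x (e1' x (E x v)))))
    have a2 := k2' x _ (hu.2 _ (e1' x (E x v)))
    simp only [LinearMap.add_apply, homM_apply, LinearMap.comp_apply, LinearMap.smul_apply,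
      LinearMap.sub_apply, LinearMap.id_apply, a1, a2]
    simp only [map_sub, map_smul]
    module

/-! ### bundles -/
namespace IsAB
variable {L L' : Pt → Submodule ℂ V.V} {M M' : Pt → Submodule ℂ W.V} {φ : Pt → V.V →ₗ[ℂ] W.V}
lemma eqv' (h : IsAB X V L) : Eqv X V L := h.eqv
lemma gen (h : IsAB X V L) : GenA X L := genA_of_alg h.alg
lemma cog (h : IsAB X V L) : CogA X L := cogA_of_alg h.alg
lemma lc (h : IsAB X V L) : X.LC fun x => finrank ℂ (L x) := alg_lc h.alg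
lemma const (hV : V.In X.B) {N : Submodule ℂ V.V} (h : V.Stab N) : IsAB X V fun _ => N :=
  ⟨hV, Alg.const N, Eqv.const h⟩
lemma top (hV : V.In X.B) : IsAB X V fun _ => ⊤ :=
  const hV (by rw [Stab, Submodule.map_top, LinearEquiv.range])
lemma bot (hV : V.In X.B) : IsAB X V fun _ => ⊥ := const hV (Submodule.map_bot _)
lemma congr (h : IsAB X V L) (e : ∀ x ∈ X.pts, L x = L' x) : IsAB X V L' :=
  ⟨h.hin, h.alg.congr fun x => e x.1 x.2, h.eqv'.congr e⟩
lemma pull (h : IsAB X V L) (p : Proj Y X) : IsAB Y V fun y => L (restr X.B y) :=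
  ⟨h.hin.mono p.sub, h.alg.precomp p.pt p.fn_comp, h.eqv'.pull p⟩
lemma mono (h : IsAB X V L) (p : Y.Sub X) : IsAB Y V L :=
  (h.pull p.proj).congr fun y hy => by rw [← p.1, Y.restr_eq hy]
lemma shift (h : IsAB X V L) {d : D} (hd : d ∈ DS X.B) : IsAB X (V.shift d) L :=
  ⟨h.hin.shift hd, h.alg, h.eqv'.shift d⟩
lemma tens (h : IsAB X V L) (h' : IsAB X W M) : IsAB X (V.tens W) fun x => tens (L x) (M x) :=
  ⟨h.hin.tens h'.hin, h.alg.tens h'.alg, h.eqv'.tens h'.eqv'⟩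
lemma perp (h : IsAB X V L) : IsAB X V.dual fun x => (L x).dualAnnihilator :=
  ⟨h.hin.dual, h.alg.perp, h.eqv'.perp⟩
lemma homTo (hV : V.In X.B) (h : IsAB X W M) : IsAB X (V.hom W) fun x => homTo V.V (M x) :=
  ⟨hV.hom h.hin, h.alg.homTo, ((top hV).eqv'.homMap h.eqv').congr fun _ _ => by
    ext f; simp [mem_homMap, mem_homTo]⟩
lemma homKill (h : IsAB X V L) (hW : W.In X.B) : IsAB X (V.hom W) fun x => homKill (L x) W.V :=
  ⟨h.hin.hom hW, h.alg.homKill, (h.eqv'.homMap (bot hW).eqv').congr fun _ _ => by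
    ext f; simp [mem_homMap, mem_homKill]⟩
lemma homMap (h : IsAB X V L) (h' : IsAB X W M) :
    IsAB X (V.hom W) fun x => homMap (L x) (M x) :=
  ⟨h.hin.hom h'.hin, h.alg.homMap h'.alg, h.eqv'.homMap h'.eqv'⟩
lemma homMap_inf (h : IsAB X V L) (h₁ : IsAB X V L') (h' : IsAB X W M) (h₂ : IsAB X W M')
    (hL : ∀ x ∈ X.pts, L' x ≤ L x) (hM : ∀ x ∈ X.pts, M' x ≤ M x) :
    IsAB X (V.hom W) fun x => Alg.homMap (L x) (M x) ⊓ Alg.homMap (L' x) (M' x) :=
  ⟨h.hin.hom h'.hin, alg_homMap_inf h.alg h₁.alg h'.alg h₂.alg (fun x => hL x.1 x.2)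
    (fun x => hM x.1 x.2), (h.eqv'.homMap h'.eqv').inf (h₁.eqv'.homMap h₂.eqv')⟩
lemma prod (h : IsAB X V L) (h' : IsAB X W M) : IsAB X (V.prod W) fun x => (L x).prod (M x) :=
  ⟨h.hin.prod h'.hin, h.alg.prod h'.alg, Eqv.of_mem_iff (V := V.prod W) fun _ hx _ =>
    and_congr (h.eqv'.mem_iff hx) (h'.eqv'.mem_iff hx)⟩
lemma pi {ι : Type} [Fintype ι] {V : ι → GV} {L : ∀ i, Pt → Submodule ℂ (V i).V}
    (h : ∀ i, IsAB X (V i) (L i)) :
    IsAB X (GV.pi V) fun x => Submodule.pi Set.univ fun i => L i x := by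
  classical
  have h1 : GenA X fun x => Submodule.pi Set.univ fun i => L i x :=
    (GenA.iSup fun i => (h i).gen.map (φ := fun _ => LinearMap.single ℂ (fun i => (V i).V) i)
      (RegM.const _)).congr fun x _ => Submodule.iSup_map_single (p := fun i => L i x)
  have h2 : CogA X fun x => Submodule.pi Set.univ fun i => L i x :=
    (CogA.iInf fun i => (h i).cog.comap
      (φ := fun _ => (LinearMap.proj i : (∀ i, (V i).V) →ₗ[ℂ] (V i).V))
      (RegM.const _)).congr fun x _ => Submodule.iInf_comap_proj (p := fun i => L i x)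
  refine ⟨in_pi fun i => (h i).hin, h1.alg h2, Eqv.of_mem_iff (V := GV.pi V) fun _ hx v => ?_⟩
  rw [Submodule.mem_pi, Submodule.mem_pi]
  exact forall₂_congr fun i _ => (h i).eqv'.mem_iff hx
lemma lamS (h : IsAB X V L) (k : ℕ) : IsAB X (lam k V) fun x => lamS k (L x) :=
  ⟨h.hin.lam k, h.alg.lamS k, fun x hx => by
    rw [← h.eqv x hx, ← lamS_map]
    rfl⟩
lemma span {s : Pt → V.V} (hV : V.In X.B) (hs : IsRV X V s) (h0 : ∀ x ∈ X.pts, s x ≠ 0) :
    IsAB X V fun x => Submodule.span ℂ {s x} := by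
  refine ⟨hV, GenA.alg_of_rk (L := fun x => Submodule.span ℂ {s x}) (genA_iff.2 fun x => ?_)
    (n := 1) fun x hx => finrank_span_singleton (h0 x hx), fun x hx => ?_⟩
  · exact (Submodule.span_singleton_le_iff_mem _ _).2
      ⟨_, hs.reg, fun y => Submodule.mem_span_singleton_self _, rfl⟩
  · rw [Submodule.map_span, Set.image_singleton, hs.eqv x hx]; rfl
lemma of_gen_cog (hV : V.In X.B) (he : Eqv X V L) (h : GenA X L) (h' : CogA X L) : IsAB X V L :=
  ⟨hV, h.alg h', he⟩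
lemma map_of_rk (h : IsAB X V L) (hW : W.In X.B) (hφ : IsRM X V W φ) {n : ℕ}
    (hr : ∀ x ∈ X.pts, finrank ℂ ((L x).map (φ x)) = n) : IsAB X W fun x => (L x).map (φ x) :=
  ⟨hW, h.alg.map_of_finrank hφ.reg fun x => hr x.1 x.2, h.eqv'.map hφ⟩
lemma map_of_inj (h : IsAB X V L) (hW : W.In X.B) (hφ : IsRM X V W φ)
    (hr : ∀ x ∈ X.pts, L x ⊓ LinearMap.ker (φ x) = ⊥) : IsAB X W fun x => (L x).map (φ x) :=
  ⟨hW, h.alg.map_of_inj hφ.reg fun x => hr x.1 x.2, h.eqv'.map hφ⟩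
lemma map_of_ker (h : IsAB X V L) (hW : W.In X.B) (hφ : IsRM X V W φ)
    (hk : IsAB X V fun x => L x ⊓ LinearMap.ker (φ x)) : IsAB X W fun x => (L x).map (φ x) :=
  ⟨hW, h.alg.map_of_ker hk.alg hφ.reg fun _ => rfl, h.eqv'.map hφ⟩
lemma ker_of_map (h : IsAB X V L) (hφ : IsRM X V W φ) (hm : IsAB X W fun x => (L x).map (φ x)) :
    IsAB X V fun x => L x ⊓ LinearMap.ker (φ x) :=
  ⟨h.hin, h.alg.ker_of_map hm.alg hφ.reg fun _ => rfl, h.eqv'.inf (Eqv.ker hφ)⟩
/-- preimage under a map that is onto modulo `M'` -/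
lemma comap_of_surj (h : IsAB X V L) (hM : IsAB X W M) (hM' : IsAB X W M') (hφ : IsRM X V W φ)
    (e : ∀ x ∈ X.pts, (L x).map (φ x) ⊔ M' x = M x) :
    IsAB X V fun x => L x ⊓ (M' x).comap (φ x) := by
  refine ⟨h.hin, h.alg.inf_comap hM'.alg hφ.reg fun x => ((h.alg.near_finrank x).and
    ((hM.alg.near_finrank x).and (hM'.alg.near_finrank x))).mono fun y hy => ?_,
    h.eqv'.inf (hM'.eqv'.comap hφ)⟩
  have h1 := finrank_inf_comap_add (L x.1) (M' x.1) (φ x.1)
  have h2 := finrank_inf_comap_add (L y.1) (M' y.1) (φ y.1)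
  rw [e _ x.2] at h1
  rw [e _ y.2] at h2
  omega
/-- image under a map that is injective modulo `L'`, `M'` -/
lemma map_sup_of_inj (h : IsAB X V L) (hL' : IsAB X V L') (hM' : IsAB X W M') (hφ : IsRM X V W φ)
    (e : ∀ x ∈ X.pts, L x ⊓ (M' x).comap (φ x) = L' x) :
    IsAB X W fun x => (L x).map (φ x) ⊔ M' x := by
  refine ⟨hM'.hin, ((h.gen.map hφ.reg).sup hM'.gen).alg_of_usc (usc_iff.2 fun x =>
    ((h.alg.near_finrank x).and ((hL'.alg.near_finrank x).and
      (hM'.alg.near_finrank x))).mono fun y hy => ?_), (h.eqv'.map hφ).sup hM'.eqv'⟩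
  have h1 := finrank_inf_comap_add (L x.1) (M' x.1) (φ x.1)
  have h2 := finrank_inf_comap_add (L y.1) (M' y.1) (φ y.1)
  rw [e _ x.2] at h1
  rw [e _ y.2] at h2
  omega
/-- the middle term of a complex that is exact in the middle -/
lemma of_exact {N' : Pt → Submodule ℂ U.V} {ψ : Pt → W.V →ₗ[ℂ] U.V} (h : IsAB X V L)
    (hM : IsAB X W M) (hM' : IsAB X W M') (hN' : IsAB X U N') (hφ : IsRM X V W φ)
    (hψ : IsRM X W U ψ)
    (e : ∀ x ∈ X.pts, (L x).map (φ x) ⊔ M' x = M x ⊓ (N' x).comap (ψ x)) :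
    IsAB X W fun x => M x ⊓ (N' x).comap (ψ x) :=
  of_gen_cog hM.hin (hM.eqv'.inf (hN'.eqv'.comap hψ)) (((h.gen.map hφ.reg).sup hM'.gen).congr e)
    (hM.cog.inf (hN'.cog.comap hψ.reg))
lemma inf_const (h : IsAB X V L) {N N' : Submodule ℂ V.V} (hN : V.Stab N) (hc : IsCompl N N')
    (e : ∀ x ∈ X.pts, L x ⊓ N ⊔ L x ⊓ N' = L x) : IsAB X V fun x => L x ⊓ N := by
  refine of_gen_cog h.hin (h.eqv'.inf (Eqv.const hN))
    ((h.gen.map (φ := fun _ => N.projection N' hc) (RegM.const _)).congr fun x hx => ?_)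
    (h.cog.inf (const h.hin hN).cog)
  apply le_antisymm
  · conv_lhs => rw [← e x hx]
    rw [Submodule.map_le_iff_le_comap]
    refine sup_le (fun v hv => ?_) fun v hv => ?_
    · rw [Submodule.mem_comap, Submodule.projection_apply_of_mem_left hc hv.2]; exact hv
    · rw [Submodule.mem_comap, (Submodule.projection_apply_eq_zero_iff hc).2 hv.2]
      exact zero_mem _
  · exact fun v hv => ⟨v, hv.1, Submodule.projection_apply_of_mem_left hc hv.2⟩
lemma comap_of_inj (h : IsAB X W M) (hV : V.In X.B) {f : V.V →ₗ[ℂ] W.V} (hf : Deg0 V W f)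
    (hi : Function.Injective f) (e : ∀ x ∈ X.pts, M x ≤ LinearMap.range f) :
    IsAB X V fun x => (M x).comap f := by
  obtain ⟨σ, hσ⟩ := f.exists_leftInverse_of_injective (LinearMap.ker_eq_bot.2 hi)
  have hσ' : ∀ v, σ (f v) = v := fun v => LinearMap.congr_fun hσ v
  refine of_gen_cog hV (h.eqv'.comap (IsRM.const hf))
    ((h.gen.map (φ := fun _ => σ) (RegM.const _)).congr fun x hx => ?_)
    (h.cog.comap (φ := fun _ => f) (RegM.const _))
  apply le_antisymm
  · rintro _ ⟨w, hw, rfl⟩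
    obtain ⟨v, rfl⟩ := e x hx hw
    rw [hσ']; exact hw
  · exact fun v hv => ⟨f v, hv, hσ' v⟩
lemma exists_range (h : IsAB X V L) : ∃ (W : GV) (ψ : Pt → W.V →ₗ[ℂ] V.V), W.In X.B ∧
    IsRM X W V ψ ∧ ∀ x ∈ X.pts, LinearMap.range (ψ x) = L x := by
  obtain ⟨n, b, deg, hd, hb⟩ := h.hin.exists_basis
  have d1 : Deg0 (co deg) V b.equivFun.symm.toLinearMap := fun c => by
    simp only [LinearEquiv.coe_coe, Basis.equivFun_symm_apply, map_sum, map_smul, hb, smul_smul,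
      gd_apply, mul_comm]
  have d2 : Deg0 V (co deg) b.equivFun.toLinearMap := fun v => by
    apply b.equivFun.symm.injective
    have := d1 (b.equivFun v)
    simp only [LinearEquiv.coe_coe, LinearEquiv.symm_apply_apply] at this ⊢
    exact this.symm
  obtain ⟨m, e, Φ, h1, h2, h3⟩ := Gen.exists_hmg (X := X) (a := deg)
    (L := fun x => (L x).map b.equivFun.toLinearMap)
    (gen_iff.2 (h.gen.map (φ := fun _ => b.equivFun.toLinearMap) (RegM.const _)))
    (isEqv_iff.2 (h.eqv'.map (IsRM.const d2))) hd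
  refine ⟨co e, fun x => b.equivFun.symm.toLinearMap ∘ₗ mev x Φ, in_co h1,
    (IsRM.const d1).comp (isRM_mev h2), fun x hx => ?_⟩
  rw [LinearMap.range_comp, h3 x hx, ← Submodule.map_comp]
  simp
/-- a regular map with kernel `L` near a point, and one with image `L` -/
lemma exists_ker (h : IsAB X V L) : ∃ (W : GV) (ψ : Pt → V.V →ₗ[ℂ] W.V), W.In X.B ∧
    IsRM X V W ψ ∧ ∀ x ∈ X.pts, LinearMap.ker (ψ x) = L x := by
  obtain ⟨W, ψ, h1, h2, h3⟩ := h.perp.exists_range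
  have d : Deg0 V V.dual.dual (Dual.eval ℂ V.V) := fun v => by
    ext ℓ
    simp
  refine ⟨W.dual, fun x => (ψ x).dualMap ∘ₗ Dual.eval ℂ V.V, h1.dual,
    h2.dualMap.comp (IsRM.const d), fun x hx => ?_⟩
  rw [LinearMap.ker_comp, LinearMap.ker_dualMap_eq_dualAnnihilator_range, h3 x hx,
    Subspace.comap_dualAnnihilator_dualAnnihilator]
end IsAB

end Crest.Agent.N265
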