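import Crest.Agent.N265.K.PB
import Crest.Agent.N265.Sp.Dim
import Crest.Agent.N265.Jac.Irr

-- ▼ part N265/K/Lam0
section

/-! # Task K7, part 0 (helper2): multiplicativity of `SdS`, the splitting principle -/

set_option autoImplicit false
noncomputable section
open Module

namespace Crest.Agent.N265
open Bun GM
variable {X Y P : Spc}

namespace L0

/-- an operator vanishes if it vanishes after surjective covers of irreducible spaces -/
lemma eq_of_cover {u v : Op X} (h : ∀ (Y : Spc) (p : Proj Y X), Y.Irred → ∃ (W : Spc) (q : Proj W Y),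
    Function.Surjective (push W Y) ∧ Op.pull (q.trans p) u = Op.pull (q.trans p) v) : u = v := by
  rw [← sub_eq_zero]
  refine Op.eq_zero_of_irred fun Y p hY => ?_
  obtain ⟨W, q, hs, e⟩ := h Y p hY
  obtain ⟨a, ha⟩ := hs (one Y)
  rw [← ha, ← push_smul q, Op.pull_pull, map_sub, e, sub_self, zero_smul, map_zero]

lemma eq_of_cover' {u v : Op X} (h : ∀ (Y : Spc) (p : Proj Y X), ∃ (W : Spc) (q : Proj W Y),
    Function.Surjective (push W Y) ∧ Op.pull (q.trans p) u = Op.pull (q.trans p) v) : u = v :=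
  eq_of_cover fun Y p _ => h Y p

lemma eq_of_irred {u v : Op X}
    (h : ∀ (Y : Spc) (p : Proj Y X), Y.Irred → Op.pull p u = Op.pull p v) : u = v :=
  eq_of_cover fun Y _ hY => ⟨Y, Proj.refl Y, fun a => ⟨a, push_self a⟩, h Y _ hY⟩

lemma exists_new (B : Finset ℕ) : ∃ b, b ∉ B := Infinite.exists_notMem_finset B

lemma surj_trans {W : Spc} (q : Proj W Y) (p : Proj Y X) (hq : Function.Surjective (push W Y))
    (hp : Function.Surjective (push Y X)) : Function.Surjective (push W X) := by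
  intro a
  obtain ⟨b, rfl⟩ := hp a
  obtain ⟨c, rfl⟩ := hq b
  exact ⟨c, (push_push q p c).symm⟩


lemma lbK_dpr (d : D) : lbK X (dpr X.B d) = lbK X d := by
  unfold lbK line
  simp only [dpr_of_mem (dpr_mem X.B d)]

/-- the image of a bundle under a map of constant rank -/
def img (A : Bun X) {κ : Type} [Fintype κ] [DecidableEq κ] (e : κ → D) (he : ∀ j, e j ∈ DS X.B)
    (Φ : Matrix κ A.ι R) (hΦ : MHmg A.deg e Φ) (n : ℕ)
    (hn : ∀ x ∈ X.pts, finrank ℂ ((A.L x).map (mev x Φ)) = n) : Bun X where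
  ι := κ
  deg := e
  hdeg := he
  L := fun x => (A.L x).map (mev x Φ)
  eqv := A.eqv.map hΦ
  alg := (A.alg.gen.map Φ).isAlg_of_rk hn

lemma mev_fromRows {ι κ μ : Type} [Fintype ι] (x : Pt) (q : Matrix κ ι R) (p : Matrix μ ι R)
    (v : ι → ℂ) : mev x (Matrix.fromRows q p) v = Sum.elim (mev x q v) (mev x p v) := by
  funext j
  rcases j with j | j <;> simp [mev_apply]

lemma mhmg_fromRows {ι κ μ : Type} {a : ι → D} {b : κ → D} {c : μ → D} {q : Matrix κ ι R}
    {p : Matrix μ ι R} (hq : MHmg a b q) (hp : MHmg a c p) :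
    MHmg a (Sum.elim b c) (Matrix.fromRows q p) := by
  rintro (j | j) i
  exacts [hq j i, hp j i]

lemma mev_inl {κ μ : Type} [Fintype κ] (x : Pt) (v : κ → ℂ) :
    mev x (B0.dl (id : κ ⊕ μ → κ ⊕ μ) Sum.inl) v = Sum.elim v 0 := by
  funext j
  rcases j with j | j
  · exact B0.mev_dl_of_eq x Sum.inl_injective v rfl
  · exact B0.mev_dl_of_ne x v fun i => Sum.inr_ne_inl

lemma mev_inr {κ μ : Type} [Fintype κ] [Fintype μ] (x : Pt) (v : κ ⊕ μ → ℂ) :
    mev x (B0.dl (Sum.inr : μ → κ ⊕ μ) id) v = fun j => v (Sum.inr j) := by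
  rw [B0.mev_dl_id]
  rfl

lemma elim_eq_zero {κ μ : Type} {v : κ → ℂ} {w : μ → ℂ} : Sum.elim v w = 0 ↔ v = 0 ∧ w = 0 := by
  constructor
  · intro h
    exact ⟨funext fun j => congrFun h (Sum.inl j), funext fun j => congrFun h (Sum.inr j)⟩
  · rintro ⟨rfl, rfl⟩
    funext j
    rcases j with j | j <;> rfl

/-- push-out of a short exact sequence along an ambient map `q` -/
lemma ses_push {A B C : Bun X} (f : Matrix B.ι A.ι R) (p : Matrix C.ι B.ι R)
    (hf : MHmg A.deg B.deg f) (hp : MHmg B.deg C.deg p)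
    (h : ∀ x ∈ X.pts, A.L x ⊓ LinearMap.ker (mev x f) = ⊥ ∧
      (A.L x).map (mev x f) = B.L x ⊓ LinearMap.ker (mev x p) ∧ (B.L x).map (mev x p) = C.L x)
    {κ : Type} [Fintype κ] [DecidableEq κ] (e : κ → D) (he : ∀ j, e j ∈ DS X.B)
    (q : Matrix κ B.ι R) (hq : MHmg B.deg e q) {a c : ℕ}
    (ha : ∀ x ∈ X.pts, finrank ℂ ((A.L x).map (mev x (q * f))) = a) (hC : C.Rk c) :
    ∃ (B' : Bun X) (g : Matrix B'.ι B.ι R), MHmg B.deg B'.deg g ∧
      SES (img A e he (q * f) (hq.mul hf) a ha) B' C ∧ ∀ x ∈ X.pts,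
        (B.L x).map (mev x g) = B'.L x ∧
        ∀ v, mev x g v = 0 ↔ mev x q v = 0 ∧ mev x p v = 0 := by
  classical
  set g : Matrix (κ ⊕ C.ι) B.ι R := Matrix.fromRows q p with hg
  have hgd : MHmg B.deg (Sum.elim e C.deg) g := mhmg_fromRows hq hp
  set i : Matrix (κ ⊕ C.ι) κ R := B0.dl (id : κ ⊕ C.ι → κ ⊕ C.ι) Sum.inl with hi
  set π : Matrix C.ι (κ ⊕ C.ι) R := B0.dl (Sum.inr : C.ι → κ ⊕ C.ι) id with hπ
  have key : ∀ x ∈ X.pts,
      (A.L x).map (mev x (q * f)) ⊓ LinearMap.ker (mev x i) = ⊥ ∧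
      ((A.L x).map (mev x (q * f))).map (mev x i) =
        (B.L x).map (mev x g) ⊓ LinearMap.ker (mev x π) ∧
      ((B.L x).map (mev x g)).map (mev x π) = C.L x := by
    intro x hx
    obtain ⟨-, h2, h3⟩ := h x hx
    refine ⟨?_, ?_, ?_⟩
    · refine eq_bot_iff.2 fun v hv => ?_
      have h4 : mev x i v = 0 := hv.2
      rw [hi, mev_inl, elim_eq_zero] at h4
      exact h4.1
    · ext w
      constructor
      · rintro ⟨_, ⟨v, hv, rfl⟩, rfl⟩
        have h4 : mev x f v ∈ B.L x ⊓ LinearMap.ker (mev x p) := h2 ▸ ⟨v, hv, rfl⟩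
        have h5 : mev x p (mev x f v) = 0 := h4.2
        refine ⟨⟨mev x f v, h4.1, ?_⟩, ?_⟩
        · rw [hg, mev_fromRows, hi, mev_inl, mev_mul, h5]
        · show mev x π _ = 0
          rw [hπ, mev_inr, hi, mev_inl]
          rfl
      · rintro ⟨⟨u, hu, rfl⟩, hw⟩
        have h4 : mev x π (mev x g u) = 0 := hw
        rw [hπ, mev_inr, hg, mev_fromRows] at h4
        have h5 : mev x p u = 0 := h4
        have h6 : u ∈ (A.L x).map (mev x f) := h2 ▸ ⟨hu, h5⟩
        obtain ⟨v, hv, rfl⟩ := h6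
        refine ⟨_, ⟨v, hv, rfl⟩, ?_⟩
        rw [hg, mev_fromRows, hi, mev_inl, mev_mul, h5]
    · rw [← h3, ← Submodule.map_comp]
      congr 1
      refine LinearMap.ext fun u => ?_
      rw [LinearMap.comp_apply, hπ, mev_inr, hg, mev_fromRows]
      rfl
  have hrk : ∀ x ∈ X.pts, finrank ℂ ((B.L x).map (mev x g)) = a + c := by
    intro x hx
    obtain ⟨h1, h2, h3⟩ := key x hx
    rw [B0.finrank_split ((B.L x).map (mev x g)) (mev x π), ← h2, h3, B0.finrank_map_of_inj h1,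
      ha x hx, hC x hx]
  refine ⟨img B (Sum.elim e C.deg) (by rintro (j | j); exacts [he j, C.hdeg j]) g hgd _ hrk, g,
    hgd, ⟨i, π, B0.mhmg_dl ?_, B0.mhmg_dl ?_, key⟩, fun x _ => ⟨rfl, fun v => ?_⟩⟩
  · rintro j k rfl
    rfl
  · rintro j k rfl
    rfl
  · exact (congrArg (· = 0) (mev_fromRows x q p v)).to_iff.trans elim_eq_zero

/-- a section as a matrix -/
def col {ι : Type} (s : ι → R) : Matrix ι Unit R := fun i _ => s i

lemma mev_col {ι : Type} (x : Pt) (s : ι → R) (v : Unit → ℂ) :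
    mev x (col s) v = v () • fun i => MvPolynomial.eval x (s i) := by
  funext i
  simp [mev_apply, col, mul_comm]

lemma map_col {ι : Type} (x : Pt) (s : ι → R) : (⊤ : Submodule ℂ (Unit → ℂ)).map (mev x (col s)) =
    Submodule.span ℂ {fun i => MvPolynomial.eval x (s i)} := by
  ext w
  rw [Submodule.mem_span_singleton]
  constructor
  · rintro ⟨v, -, rfl⟩
    exact ⟨v (), (mev_col x s v).symm⟩
  · rintro ⟨c, rfl⟩
    exact ⟨fun _ => c, trivial, mev_col x s _⟩

lemma ker_col {ι : Type} (x : Pt) (s : ι → R) (h : (fun i => MvPolynomial.eval x (s i)) ≠ 0) :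
    (⊤ : Submodule ℂ (Unit → ℂ)) ⊓ LinearMap.ker (mev x (col s)) = ⊥ := by
  refine eq_bot_iff.2 fun v hv => ?_
  have h1 : mev x (col s) v = 0 := hv.2
  rw [mev_col, smul_eq_zero] at h1
  funext u
  exact h1.resolve_right h

lemma mhmg_col {A : Bun X} {d : D} (hd : d ∈ DS X.B) {s : A.ι → R}
    (hs : ∀ i, Hmg (d + A.deg i) (s i)) : MHmg (line X (-d)).deg A.deg (col s) := by
  intro i u
  show Hmg (A.deg i - dpr X.B (-d)) (s i)
  rw [dpr_of_mem (neg_mem hd), sub_neg_eq_add, add_comm]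
  exact hs i

/-- the exact sequence of a nowhere vanishing section -/
lemma ses_of_sec {A B : Bun X} (f : Matrix B.ι A.ι R) (hf : MHmg A.deg B.deg f) {d : D}
    (hd : d ∈ DS X.B) (s : A.ι → R) (hs : ∀ i, Hmg (d + A.deg i) (s i))
    (h : ∀ x ∈ X.pts, (fun i => MvPolynomial.eval x (s i)) ≠ 0 ∧ (A.L x).map (mev x f) = B.L x ∧
      A.L x ⊓ LinearMap.ker (mev x f) = Submodule.span ℂ {fun i => MvPolynomial.eval x (s i)}) :
    SES (line X (-d)) A B :=
  ⟨col s, f, mhmg_col hd hs, hf, fun x hx => ⟨ker_col x s (h x hx).1,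
    (map_col x s).trans (h x hx).2.2.symm, (h x hx).2.1⟩⟩

lemma ses_of_iso {A B : Bun X} (f : Matrix B.ι A.ι R) (hf : MHmg A.deg B.deg f)
    (h : ∀ x ∈ X.pts, A.L x ⊓ LinearMap.ker (mev x f) = ⊥ ∧ (A.L x).map (mev x f) = B.L x) :
    SES A B (Bun.zero X) :=
  ⟨f, 0, hf, B0.mhmg_zero _ _, fun x hx => ⟨(h x hx).1, by
    rw [B0.mev_zero, LinearMap.ker_zero, inf_top_eq]; exact (h x hx).2,
    Subsingleton.elim (α := Submodule ℂ (Empty → ℂ)) _ _⟩⟩

lemma rk_zero : (Bun.zero X).Rk 0 := fun _ _ =>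
  finrank_zero_of_subsingleton (R := ℂ) (M := (⊤ : Submodule ℂ (Empty → ℂ)))

lemma bot_of_rk {A : Bun X} (h : A.Rk 0) : ∀ x ∈ X.pts, A.L x = ⊥ :=
  fun x hx => Submodule.finrank_eq_zero.1 (h x hx)

lemma ne_bot_of_rk {A : Bun X} {r : ℕ} (h : A.Rk (r + 1)) : ∀ x ∈ X.pts, A.L x ≠ ⊥ := by
  intro x hx e
  have := h x hx
  rw [e, finrank_bot] at this
  omega

/-- the tautological section -/
lemma taut {A : Bun X} {δ b y} (h : IsPSub P A δ b y) :
    eB b - δ ∈ DS P.B ∧ (∀ i, Hmg (eB b - δ + (A.pull h.proj).deg i) (MvPolynomial.X (y i))) ∧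
      ∀ z ∈ P.pts, (fun i => MvPolynomial.eval z (MvPolynomial.X (y i) : R)) ≠ 0 ∧
        (fun i => MvPolynomial.eval z (MvPolynomial.X (y i) : R)) ∈ (A.pull h.proj).L z := by
  refine ⟨sub_mem (eB_mem ?_) (DS_mono h.proj.sub h.hδ), fun i => ?_, fun z hz => ?_⟩
  · rw [h.B]
    exact Finset.mem_insert_self _ _
  · have e : eB b - δ + (A.pull h.proj).deg i = vdeg (y i) := by
      show eB b - δ + A.deg i = _
      rw [h.deg i, vdeg, h.blk i]
      abel
    rw [e]
    exact Hmg.X _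
  · simp only [MvPolynomial.eval_X]
    exact ⟨((h.mem z).1 hz).2.2.1, ((h.mem z).1 hz).2.1⟩

/-- the tautological sequence on a projective bundle -/
lemma taut_quot {A : Bun X} {δ b y} (h : IsPSub P A δ b y) :
    ∃ (Q : Bun P) (f : Matrix Q.ι (A.pull h.proj).ι R), MHmg (A.pull h.proj).deg Q.deg f ∧
      ∀ z ∈ P.pts, (fun i => MvPolynomial.eval z (MvPolynomial.X (y i) : R)) ≠ 0 ∧
        ((A.pull h.proj).L z).map (mev z f) = Q.L z ∧
        (A.pull h.proj).L z ⊓ LinearMap.ker (mev z f) =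
          Submodule.span ℂ {fun i => MvPolynomial.eval z (MvPolynomial.X (y i) : R)} := by
  obtain ⟨Q, f, hf, hQ⟩ := h.exists_quot
  refine ⟨Q, f, hf, fun z hz => ⟨((taut h).2.2 z hz).1, (hQ z hz).2, ?_⟩⟩
  have h1 := ((taut h).2.2 z hz).2
  simp only [MvPolynomial.eval_X] at h1 ⊢
  show A.L (restr X.B z) ⊓ LinearMap.ker (mev z f) = _
  rw [(hQ z hz).1]
  exact inf_eq_right.2 ((Submodule.span_singleton_le_iff_mem _ _).2 h1)

lemma taut_ses {A : Bun X} {δ b y} (h : IsPSub P A δ b y) :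
    ∃ Q : Bun P, SES (line P (δ - eB b)) (A.pull h.proj) Q := by
  obtain ⟨Q, f, hf, hQ⟩ := taut_quot h
  have := ses_of_sec f hf (taut h).1 _ (taut h).2.1 hQ
  rw [neg_sub] at this
  exact ⟨Q, this⟩

lemma rk_quot {A B C : Bun X} (h : SES A B C) {a c : ℕ} (hA : A.Rk a) (hB : B.Rk (c + a)) :
    C.Rk c := by
  intro x hx
  have h1 := h.finrank hx
  rw [hA x hx, hB x hx] at h1
  omega

lemma kl_det_iso {A B : Bun X} (f : Matrix B.ι A.ι R) (hf : MHmg A.deg B.deg f)
    (h : ∀ x ∈ X.pts, A.L x ⊓ LinearMap.ker (mev x f) = ⊥ ∧ (A.L x).map (mev x f) = B.L x)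
    {r : ℕ} (hA : A.Rk r) (hB : B.Rk r) : (B.det r hB).kl = (A.det r hA).kl := by
  have := kl_det_ses (ses_of_iso f hf h) hA rk_zero (n := 0) hB
  rw [kl_det_zero, mul_one] at this
  exact this

lemma unif (A : Bun X) : ∃ (A' : Bun X) (δ : D) (f : Matrix A'.ι A.ι R), δ ∈ DS X.B ∧
    A'.Unif δ ∧ MHmg A.deg A'.deg f ∧ (∀ x ∈ X.pts, Function.Injective (mev x f)) ∧ ∀ x ∈ X.pts,
      A.L x ⊓ LinearMap.ker (mev x f) = ⊥ ∧ (A.L x).map (mev x f) = A'.L x := by
  obtain ⟨A', δ, f, h1, h2, h3, h4⟩ := A.exists_unif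
  refine ⟨A', δ, f, h1, h2, h3, fun x hx => (h4 x hx).1, fun x hx => ⟨?_, (h4 x hx).2⟩⟩
  rw [LinearMap.ker_eq_bot.2 (h4 x hx).1, inf_bot_eq]

lemma exists_psub {A : Bun X} {δ : D} (hδ : δ ∈ DS X.B) (h : A.Unif δ) :
    ∃ P b y, IsPSub P A δ b y := by
  obtain ⟨b, hb⟩ := exists_new X.B
  obtain ⟨y, hy⟩ := exists_pvar hδ h hb
  obtain ⟨P, hP⟩ := hy.exists_psub
  exact ⟨P, b, y, hP⟩

/-- splitting principle, with the determinant -/
theorem split (r : ℕ) : ∀ {X : Spc} (A : Bun X) (h : A.Rk r), ∃ (Y : Spc) (p : Proj Y X)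
    (d : Fin r → D), (∀ i, d i ∈ DS Y.B) ∧ Function.Surjective (push Y X) ∧
      K.pull p A.kl = ∑ i, lbK Y (d i) ∧ K.pull p (A.det r h).kl = ∏ i, lbK Y (d i) := by
  induction r with
  | zero =>
    intro X A h
    refine ⟨X, Proj.refl X, Fin.elim0, fun i => i.elim0, fun a => ⟨a, push_self a⟩, ?_, ?_⟩
    · rw [kl_of_bot (bot_of_rk h), map_zero, Finset.univ_eq_empty, Finset.sum_empty]
    · rw [kl_det_zero, map_one, Finset.univ_eq_empty, Finset.prod_empty]
  | succ r ih =>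
    intro X A h
    obtain ⟨A', δ, f, hδ, hu, hf, -, hiso⟩ := unif A
    have h' : A'.Rk (r + 1) := fun x hx => by
      rw [← (hiso x hx).2, B0.finrank_map_of_inj (hiso x hx).1, h x hx]
    obtain ⟨P, b, y, hP⟩ := exists_psub hδ hu
    obtain ⟨Q, hQ⟩ := taut_ses hP
    have hQr : Q.Rk r := rk_quot hQ (rk_line _) (h'.pull _)
    obtain ⟨Y, p, d, hd, hs, e1, e2⟩ := ih Q hQr
    have hl : δ - eB b ∈ DS P.B := by
      have := neg_mem (taut hP).1
      rwa [neg_sub] at this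
    refine ⟨Y, p.trans hP.proj, Fin.cons (δ - eB b) d, ?_,
      surj_trans p hP.proj hs (hP.push_surj (ne_bot_of_rk h')), ?_, ?_⟩
    · refine Fin.cases ?_ ?_
      · exact DS_mono p.sub hl
      · exact hd
    · rw [kl_iso f hf hiso, ← K.pull_pull p hP.proj, K.pull_kl, kl_ses hQ, map_add, e1,
        Fin.sum_univ_succ, Fin.cons_zero]
      simp only [Fin.cons_succ]
      rw [← K.pull_lbK p hl]
      rfl
    · have h1 : (A'.pull hP.proj).Rk (1 + r) := by rw [add_comm]; exact h'.pull _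
      have h2 := kl_det_ses hQ (rk_line _) hQr h1
      have h3 : ((A'.pull hP.proj).det (r + 1) (h'.pull _)).kl =
          ((A'.pull hP.proj).det (1 + r) h1).kl := by
        congr 2
        exact add_comm r 1
      rw [← kl_det_iso f hf hiso h h', ← K.pull_pull p hP.proj, kl_det_pull, h3, h2, map_mul, e2,
        kl_det_one, Fin.prod_univ_succ, Fin.cons_zero]
      simp only [Fin.cons_succ]
      rw [← K.pull_lbK p hl]
      rfl

end L0

/-- `∑ [Sym^k A^∨] s^k` -/
def SdS (A : Bun X) : PowerSeries (Op X) := PowerSeries.mk fun k => op X (Sd A k)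

namespace L0

lemma coeff_SdS (A : Bun X) (k : ℕ) : PowerSeries.coeff k (SdS A) = op X (Sd A k) :=
  PowerSeries.coeff_mk _ _

lemma const_SdS (A : Bun X) : PowerSeries.constantCoeff (SdS A) = 1 := by
  rw [← PowerSeries.coeff_zero_eq_constantCoeff_apply, coeff_SdS, Sd_zero, map_one]

lemma SdS_pull (p : Proj Y X) (A : Bun X) :
    SdS (A.pull p) = PowerSeries.map (Op.pull p) (SdS A) := by
  ext k
  rw [PowerSeries.coeff_map, coeff_SdS, coeff_SdS, Op.pull_op, Sd_pull]

lemma SdS_iso {A B : Bun X} (f : Matrix B.ι A.ι R) (hf : MHmg A.deg B.deg f)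
    (h : ∀ x ∈ X.pts, A.L x ⊓ LinearMap.ker (mev x f) = ⊥ ∧ (A.L x).map (mev x f) = B.L x) :
    SdS A = SdS B := by
  ext k
  rw [coeff_SdS, coeff_SdS, Sd_iso f hf h]

lemma SdS_of_bot {A : Bun X} (h : ∀ x ∈ X.pts, A.L x = ⊥) : SdS A = 1 := by
  ext k
  rw [coeff_SdS, PowerSeries.coeff_one]
  cases k with
  | zero => rw [Sd_zero, map_one, if_pos rfl]
  | succ k => rw [Sd_of_bot h, map_zero, if_neg (Nat.succ_ne_zero k)]

lemma SdS_der {A B : Bun X} (f : Matrix B.ι A.ι R) (hf : MHmg A.deg B.deg f) {d : D}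
    (hd : d ∈ DS X.B) (s : A.ι → R) (hs : ∀ i, Hmg (d + A.deg i) (s i))
    (h : ∀ x ∈ X.pts, (fun i => MvPolynomial.eval x (s i)) ≠ 0 ∧ (A.L x).map (mev x f) = B.L x ∧
      A.L x ⊓ LinearMap.ker (mev x f) = Submodule.span ℂ {fun i => MvPolynomial.eval x (s i)}) :
    (1 - PowerSeries.C (lb X d) * PowerSeries.X) * SdS A = SdS B := by
  ext k
  rw [sub_mul, one_mul, map_sub, mul_assoc, PowerSeries.coeff_C_mul, coeff_SdS, coeff_SdS]
  cases k with
  | zero => rw [PowerSeries.coeff_zero_X_mul, Sd_zero, Sd_zero, mul_zero, sub_zero]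
  | succ k =>
    rw [PowerSeries.coeff_succ_X_mul, coeff_SdS, Sd_der f hf hd s hs h k, map_add, map_mul, lb]
    ring

lemma isUnit_lin (u : Op X) : IsUnit (1 - PowerSeries.C u * PowerSeries.X) := by
  rw [PowerSeries.isUnit_iff_constantCoeff]
  simp

lemma ps_eq_of_cover {u v : PowerSeries (Op X)} (h : ∀ (Y : Spc) (p : Proj Y X), Y.Irred →
    ∃ (W : Spc) (q : Proj W Y), Function.Surjective (push W Y) ∧
      PowerSeries.map (Op.pull (q.trans p)) u = PowerSeries.map (Op.pull (q.trans p)) v) :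
    u = v := by
  ext k
  refine eq_of_cover fun Y p hY => ?_
  obtain ⟨W, q, hs, e⟩ := h Y p hY
  exact ⟨W, q, hs, by rw [← PowerSeries.coeff_map, ← PowerSeries.coeff_map, e]⟩

lemma map_map {W : Spc} (q : Proj W Y) (p : Proj Y X) (u : PowerSeries (Op X)) :
    PowerSeries.map (Op.pull (q.trans p)) u =
      PowerSeries.map (Op.pull q) (PowerSeries.map (Op.pull p) u) := by
  ext k
  simp only [PowerSeries.coeff_map, Op.pull_pull]

/-- the induction step, given a nowhere vanishing section of the kernel -/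
lemma SdS_step {a c : ℕ} (ih : ∀ {A B C : Bun X}, SES A B C → A.Rk a → C.Rk c →
    SdS B = SdS A * SdS C) {A B C : Bun X} (h : SES A B C) (hA : A.Rk (a + 1)) (hC : C.Rk c)
    {d : D} (hd : d ∈ DS X.B) (s : A.ι → R) (hs : ∀ i, Hmg (d + A.deg i) (s i))
    (h0 : ∀ x ∈ X.pts, (fun i => MvPolynomial.eval x (s i)) ≠ 0 ∧
      (fun i => MvPolynomial.eval x (s i)) ∈ A.L x) : SdS B = SdS A * SdS C := by
  obtain ⟨f, p, hf, hp, h⟩ := h
  -- the section of `B`
  set t : B.ι → R := fun j => (f * col s) j () with ht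
  have hcol : col t = f * col s := by ext j u; rfl
  have htd : ∀ j, Hmg (d + B.deg j) (t j) := fun j => by
    have := hf.mul (mhmg_col hd hs) j ()
    have e : B.deg j - (line X (-d)).deg () = d + B.deg j := by
      show B.deg j - dpr X.B (-d) = _
      rw [dpr_of_mem (neg_mem hd), sub_neg_eq_add, add_comm]
    rwa [e] at this
  have hte : ∀ x, (fun j => MvPolynomial.eval x (t j)) =
      mev x f fun i => MvPolynomial.eval x (s i) := fun x => by
    have h1 := mev_col x t fun _ => 1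
    rw [hcol, mev_mul, mev_col, one_smul, one_smul] at h1
    exact h1.symm
  have hinj : ∀ x ∈ X.pts, ∀ v ∈ A.L x, mev x f v = 0 → v = 0 := fun x hx v hv e => by
    have : v ∈ A.L x ⊓ LinearMap.ker (mev x f) := ⟨hv, e⟩
    rwa [(h x hx).1] at this
  have hmem : ∀ x ∈ X.pts, ∀ v ∈ A.L x, mev x f v ∈ B.L x ∧ mev x p (mev x f v) = 0 :=
    fun x hx v hv => by
      have : mev x f v ∈ B.L x ⊓ LinearMap.ker (mev x p) := (h x hx).2.1 ▸ ⟨v, hv, rfl⟩
      exact this
  have ht0 : ∀ x ∈ X.pts, (fun j => MvPolynomial.eval x (t j)) ≠ 0 := fun x hx e => by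
    rw [hte] at e
    exact (h0 x hx).1 (hinj x hx _ (h0 x hx).2 e)
  obtain ⟨Q, q, hq, hQ⟩ := exists_quot (line X (-d)) B (col t) (mhmg_col hd htd) fun x hx =>
    ⟨ker_col x t (ht0 x hx), by
      refine (map_col x t).le.trans ((Submodule.span_singleton_le_iff_mem _ _).2 ?_)
      rw [hte]
      exact (hmem x hx _ (h0 x hx).2).1⟩
  have hQ' : ∀ x ∈ X.pts, B.L x ⊓ LinearMap.ker (mev x q) =
      Submodule.span ℂ {fun j => MvPolynomial.eval x (t j)} := fun x hx =>
    (hQ x hx).1.symm.trans (map_col x t)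
  have hkA : ∀ x ∈ X.pts, A.L x ⊓ LinearMap.ker (mev x (q * f)) =
      Submodule.span ℂ {fun i => MvPolynomial.eval x (s i)} := fun x hx => by
    ext v
    rw [Submodule.mem_span_singleton]
    constructor
    · rintro ⟨hv, e⟩
      have e' : mev x (q * f) v = 0 := e
      rw [mev_mul] at e'
      have h1 : mev x f v ∈ B.L x ⊓ LinearMap.ker (mev x q) := ⟨(hmem x hx v hv).1, e'⟩
      rw [hQ' x hx, Submodule.mem_span_singleton] at h1
      obtain ⟨c, hc⟩ := h1
      refine ⟨c, (sub_eq_zero.1 (hinj x hx _ (sub_mem ((A.L x).smul_mem c (h0 x hx).2) hv) ?_))⟩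
      rw [map_sub, map_smul, ← hte, hc, sub_self]
    · rintro ⟨c, rfl⟩
      refine ⟨(A.L x).smul_mem c (h0 x hx).2, ?_⟩
      have h1 : (fun j => MvPolynomial.eval x (t j)) ∈ B.L x ⊓ LinearMap.ker (mev x q) := by
        rw [hQ' x hx]
        exact Submodule.mem_span_singleton_self _
      have h2 : mev x q _ = 0 := h1.2
      show mev x (q * f) _ = 0
      rw [map_smul, mev_mul, ← hte, h2, smul_zero]
  have ha : ∀ x ∈ X.pts, finrank ℂ ((A.L x).map (mev x (q * f))) = a := fun x hx => by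
    have h1 := B0.finrank_split (A.L x) (mev x (q * f))
    rw [hkA x hx, finrank_span_singleton (h0 x hx).1, hA x hx] at h1
    omega
  obtain ⟨B', g, hg, hses, hB'⟩ := ses_push f p hf hp h Q.deg Q.hdeg q hq ha hC
  have e1 := SdS_der (B := img A Q.deg Q.hdeg (q * f) (hq.mul hf) a ha) (q * f) (hq.mul hf) hd s hs
    fun x hx => ⟨(h0 x hx).1, rfl, hkA x hx⟩
  have e2 := SdS_der g hg hd t htd fun x hx => ⟨ht0 x hx, (hB' x hx).1, by
    rw [← hQ' x hx]
    ext v
    simp only [Submodule.mem_inf, LinearMap.mem_ker, (hB' x hx).2]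
    refine and_congr_right fun hv => ⟨fun e => e.1, fun e => ⟨e, ?_⟩⟩
    have h1 : v ∈ B.L x ⊓ LinearMap.ker (mev x q) := ⟨hv, e⟩
    rw [hQ' x hx, Submodule.mem_span_singleton] at h1
    obtain ⟨c, rfl⟩ := h1
    rw [map_smul, hte, (hmem x hx _ (h0 x hx).2).2, smul_zero]⟩
  have e3 := ih hses ha hC
  refine (isUnit_lin (lb X d)).mul_left_cancel ?_
  rw [e2, e3, ← e1, mul_assoc]

theorem SdS_rk (c a : ℕ) : ∀ {X : Spc} {A B C : Bun X}, SES A B C → A.Rk a → C.Rk c →
    SdS B = SdS A * SdS C := by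
  induction a with
  | zero =>
    rintro X A B C ⟨f, p, hf, hp, h⟩ hA hC
    rw [SdS_of_bot (bot_of_rk hA), one_mul]
    refine SdS_iso p hp fun x hx => ⟨?_, (h x hx).2.2⟩
    rw [← (h x hx).2.1, bot_of_rk hA x hx, Submodule.map_bot]
  | succ a ih =>
    -- the statement on one space, after a surjective cover
    have main : ∀ {X : Spc} {A B C : Bun X}, SES A B C → A.Rk (a + 1) → C.Rk c →
        ∃ (W : Spc) (q : Proj W X), Function.Surjective (push W X) ∧
          PowerSeries.map (Op.pull q) (SdS B) = PowerSeries.map (Op.pull q) (SdS A * SdS C) := by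
      rintro X A B C ⟨f, p, hf, hp, h⟩ hA hC
      obtain ⟨B₁, δ, q, hδ, hu, hq, hqi, -⟩ := unif B
      have hi : ∀ x ∈ X.pts, A.L x ⊓ LinearMap.ker (mev x (q * f)) = ⊥ := fun x hx => by
        rw [← (h x hx).1, B0.mev_mul', LinearMap.ker_comp_of_ker_eq_bot _
          (LinearMap.ker_eq_bot.2 (hqi x hx))]
      have ha : ∀ x ∈ X.pts, finrank ℂ ((A.L x).map (mev x (q * f))) = a + 1 := fun x hx => by
        rw [B0.finrank_map_of_inj (hi x hx), hA x hx]
      obtain ⟨B', g, hg, hses, hB'⟩ := ses_push f p hf hp h B₁.deg B₁.hdeg q hq ha hC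
      set A' := img A B₁.deg B₁.hdeg (q * f) (hq.mul hf) (a + 1) ha with hA'
      have e1 : SdS A = SdS A' := SdS_iso (B := A') (q * f) (hq.mul hf) fun x hx => ⟨hi x hx, rfl⟩
      have e2 : SdS B = SdS B' := SdS_iso g hg fun x hx => ⟨eq_bot_iff.2 fun v hv =>
        hqi x hx (by rw [map_zero]; exact (((hB' x hx).2 v).1 hv.2).1), (hB' x hx).1⟩
      have hA'r : A'.Rk (a + 1) := ha
      obtain ⟨P, b, y, hP⟩ := exists_psub (A := A') hδ hu
      refine ⟨P, hP.proj, hP.push_surj (ne_bot_of_rk hA'r), ?_⟩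
      rw [e1, e2, map_mul, ← SdS_pull, ← SdS_pull, ← SdS_pull]
      exact SdS_step ih (hses.pull _) (hA'r.pull _) (hC.pull _) (taut hP).1 _ (taut hP).2.1
        (taut hP).2.2
    intro X A B C h hA hC
    refine ps_eq_of_cover fun Y p _ => ?_
    obtain ⟨W, q, hs, e⟩ := main (h.pull p) (hA.pull p) (hC.pull p)
    refine ⟨W, q, hs, ?_⟩
    rw [map_map q p, map_map q p, map_mul (PowerSeries.map (Op.pull p)), ← SdS_pull p,
      ← SdS_pull p, ← SdS_pull p, e]

end L0

/-- multiplicativity (induction on the rank of the kernel, graph form `Γ ≤ ι ⊕ ι'`, `Sd_der`) -/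
theorem SdS_ses {A B C : Bun X} (h : SES A B C) : SdS B = SdS A * SdS C := by
  refine L0.ps_eq_of_cover fun Y p hY => ⟨Y, Proj.refl Y, fun a => ⟨a, push_self a⟩, ?_⟩
  obtain ⟨a, ha⟩ := (A.pull ((Proj.refl Y).trans p)).exists_rk hY.conn
  obtain ⟨c, hc⟩ := (C.pull ((Proj.refl Y).trans p)).exists_rk hY.conn
  rw [map_mul, ← L0.SdS_pull, ← L0.SdS_pull, ← L0.SdS_pull]
  exact L0.SdS_rk c a (h.pull _) ha hc


end Crest.Agent.N265
end
end

-- ▼ part N265/K/Lam
section

/-! # Task K7: `Lam A = λ_{-s}(A^∨)`, splitting principle, characteristic polynomial, Euler class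

(`SdS`, `SdS_ses`, `exists_split` are in `K/Lam0.lean`.) -/

set_option autoImplicit false
set_option linter.unusedVariables false
noncomputable section
open Module Polynomial

namespace Crest.Agent.N265
open Bun GM
variable {X Y P : Spc}

namespace L0
section Ring
variable {Λ : Type*} [CommRing Λ] {α : Type*}

lemma natDegree_lin_le (u : Λ) : (1 - C u * Polynomial.X : Λ[X]).natDegree ≤ 1 := by
  refine (natDegree_sub_le _ _).trans (max_le (by simp) ?_)
  exact (natDegree_C_mul_le _ _).trans natDegree_X_le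
lemma natDegree_prod_le_card (s : Finset α) (f : α → Λ[X]) (h : ∀ i, (f i).natDegree ≤ 1) :
    (∏ i ∈ s, f i).natDegree ≤ s.card := by
  refine (natDegree_prod_le s f).trans ?_
  have := Finset.sum_le_card_nsmul s (fun i => (f i).natDegree) 1 fun i _ => h i
  simpa using this
lemma coeff_prod_lin (s : Finset α) (u : α → Λ) :
    (∏ i ∈ s, (1 - C (u i) * Polynomial.X : Λ[X])).coeff s.card = ∏ i ∈ s, -u i := by
  have := coeff_prod_of_natDegree_le s (fun i => (1 - C (u i) * Polynomial.X : Λ[X])) 1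
    fun i _ => natDegree_lin_le (u i)
  rw [mul_one] at this
  rw [this]
  exact Finset.prod_congr rfl fun i _ => by simp [coeff_one]
lemma reflect_prod (s : Finset α) (f : α → Λ[X]) (h : ∀ i, (f i).natDegree ≤ 1) :
    (∏ i ∈ s, f i).reflect s.card = ∏ i ∈ s, (f i).reflect 1 := by
  classical
  induction s using Finset.induction_on with
  | empty => simp
  | insert a s ha ih =>
    rw [Finset.prod_insert ha, Finset.prod_insert ha, Finset.card_insert_of_notMem ha, add_comm,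
      reflect_mul _ _ (h a) (natDegree_prod_le_card s f h), ih]
lemma reflect_X_sub_C (a : Λ) : (Polynomial.X - C a : Λ[X]).reflect 1 = 1 - C a * Polynomial.X := by
  rw [reflect_sub, reflect_one_X, reflect_C, pow_one]
lemma inverse_eq {a b : Λ} (h : a * b = 1) : Ring.inverse a = b := by
  have := Ring.inverse_mul_cancel_left a b (IsUnit.of_mul_eq_one b h)
  rwa [h, mul_one] at this
lemma inverse_mul' {a b : Λ} (ha : IsUnit a) (hb : IsUnit b) :
    Ring.inverse (a * b) = Ring.inverse a * Ring.inverse b :=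
  inverse_eq (by rw [mul_mul_mul_comm, Ring.mul_inverse_cancel a ha, Ring.mul_inverse_cancel b hb,
    mul_one])
lemma sub_dvd_of_nil {a t u : Λ} {J : ℕ} (h : (a - t) ^ J = 0) : u - a ∣ (u - t) ^ J := by
  have := sub_dvd_pow_sub_pow (u - t) (a - t) J
  rwa [h, sub_zero, sub_sub_sub_cancel_right] at this
end Ring

/-- the inverse series -/
def InvS (A : Bun X) : PowerSeries (Op X) := PowerSeries.invOfUnit (SdS A) 1
lemma InvS_mul (A : Bun X) : InvS A * SdS A = 1 :=
  PowerSeries.invOfUnit_mul _ _ (const_SdS A)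
lemma InvS_eq {A : Bun X} {u : PowerSeries (Op X)} (h : u * SdS A = 1) : InvS A = u := by
  rw [← one_mul (InvS A), ← h, mul_assoc, mul_comm (SdS A), InvS_mul, mul_one]
lemma isUnit_InvS (A : Bun X) : IsUnit (InvS A) := IsUnit.of_mul_eq_one _ (InvS_mul A)
lemma InvS_ses {A B C : Bun X} (h : SES A B C) : InvS B = InvS A * InvS C :=
  InvS_eq (by rw [SdS_ses h, mul_mul_mul_comm, InvS_mul, InvS_mul, mul_one])
lemma InvS_pull (p : Proj Y X) (A : Bun X) :
    InvS (A.pull p) = PowerSeries.map (Op.pull p) (InvS A) :=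
  InvS_eq (by rw [SdS_pull, ← map_mul, InvS_mul, map_one])
lemma exists_InvK (X : Spc) : ∃ Φ : Multiplicative (K X) →* PowerSeries (Op X),
    ∀ A : Bun X, Φ (Multiplicative.ofAdd A.kl) = InvS A := by
  obtain ⟨Ψ, hΨ⟩ := K.exists_lift (X := X) (G := Additive (PowerSeries (Op X))ˣ)
    (fun A => Additive.ofMul (isUnit_InvS A).unit) fun A B C h => by
      rw [← ofMul_mul]
      exact congrArg _ (Units.ext (InvS_ses h))
  refine ⟨{ toFun := fun u => ((Additive.toMul (Ψ u.toAdd) : Units _) : PowerSeries (Op X))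
            map_one' := by simp
            map_mul' := by intro a b; simp }, fun A => ?_⟩
  show ((Additive.toMul (Ψ A.kl) : Units _) : PowerSeries (Op X)) = _
  rw [hΨ]
  rfl
lemma InvS_line (d : D) :
    InvS (line X d) = 1 - PowerSeries.C (lb X (-d)) * PowerSeries.X := by
  have h1 := SdS_der (A := line X d) (B := Bun.zero X) 0 (B0.mhmg_zero _ _)
    (neg_mem (dpr_mem X.B d)) (fun _ => 1) (fun _ => by
      show Hmg (-dpr X.B d + dpr X.B d) 1
      rw [neg_add_cancel]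
      exact Hmg.one) fun x hx => ⟨fun e => one_ne_zero ((map_one (MvPolynomial.eval x)).symm.trans (congrFun e ())),
        Subsingleton.elim (α := Submodule ℂ (Empty → ℂ)) _ _, by
          rw [B0.mev_zero, LinearMap.ker_zero, inf_top_eq]
          refine (eq_top_iff.2 fun v _ => Submodule.mem_span_singleton.2 ⟨v (), ?_⟩).symm
          funext u
          show v () * MvPolynomial.eval x 1 = v u
          rw [map_one, mul_one]
          rfl⟩
  rw [SdS_of_bot (bot_of_rk rk_zero), ← map_neg, lb, lbK_dpr] at h1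
  exact InvS_eq h1
lemma InvS_of_kl_sum {A : Bun X} {α : Type} (s : Finset α) (d : α → D)
    (h : A.kl = ∑ i ∈ s, lbK X (d i)) :
    InvS A = ((∏ i ∈ s, (1 - C (lb X (-d i)) * Polynomial.X) : (Op X)[X]) : PowerSeries (Op X)) := by
  obtain ⟨Φ, hΦ⟩ := exists_InvK X
  rw [← hΦ, h, ofAdd_sum, map_prod, ← Polynomial.coeToPowerSeries.ringHom_apply, map_prod]
  refine Finset.prod_congr rfl fun i _ => ?_
  rw [lbK, hΦ, InvS_line]
  simp

lemma eq_of_split {A : Bun X} {r : ℕ} (h : A.Rk r) {u v : Op X}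
    (H : ∀ (Y : Spc) (p : Proj Y X) (d : Fin r → D), (A.pull p).kl = ∑ i, lbK Y (d i) →
      K.pull p (A.det r h).kl = ∏ i, lbK Y (d i) → Op.pull p u = Op.pull p v) : u = v :=
  eq_of_cover' fun Y p => by
    obtain ⟨W, q, d, -, hs, e1, e2⟩ := split r (A.pull p) (h.pull p)
    refine ⟨W, q, hs, H W _ d ?_ ?_⟩
    · rw [← K.pull_kl, ← K.pull_pull q p, K.pull_kl p, e1]
    · rw [← K.pull_pull q p, kl_det_pull, e2]
lemma poly_of_split {A : Bun X} {r : ℕ} (h : A.Rk r) {u v : (Op X)[X]}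
    (H : ∀ (Y : Spc) (p : Proj Y X) (d : Fin r → D), (A.pull p).kl = ∑ i, lbK Y (d i) →
      u.map (Op.pull p) = v.map (Op.pull p)) : u = v := by
  ext k
  exact eq_of_split h fun Y p d e _ => by rw [← coeff_map, ← coeff_map, H Y p d e]
lemma poly_of_rk (A : Bun X) {u v : (Op X)[X]} (H : ∀ (Y : Spc) (p : Proj Y X) (r : ℕ),
    (A.pull p).Rk r → u.map (Op.pull p) = v.map (Op.pull p)) : u = v := by
  ext k
  refine eq_of_irred fun Y p hY => ?_
  obtain ⟨r, hr⟩ := (A.pull p).exists_rk hY.conn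
  rw [← coeff_map, ← coeff_map, H Y p r hr]
lemma coeff_InvS_rk {A : Bun X} {r : ℕ} (h : A.Rk r) {n : ℕ} (hn : r < n) :
    PowerSeries.coeff n (InvS A) = 0 :=
  eq_of_split h fun Y p d e _ => by
    rw [← PowerSeries.coeff_map, ← InvS_pull, InvS_of_kl_sum _ _ e, coeff_coe, map_zero]
    refine coeff_eq_zero_of_natDegree_lt (lt_of_le_of_lt
      (natDegree_prod_le_card _ _ fun i => natDegree_lin_le _) ?_)
    simpa using hn
lemma coeff_InvS (A : Bun X) {n : ℕ} (hn : Fintype.card A.ι < n) :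
    PowerSeries.coeff n (InvS A) = 0 :=
  eq_of_irred fun Y p hY => by
    obtain ⟨r, hr⟩ := (A.pull p).exists_rk hY.conn
    obtain ⟨y, hy⟩ := hY.nonempty
    have h1 : finrank ℂ (A.L (restr X.B y)) ≤ finrank ℂ (A.ι → ℂ) := Submodule.finrank_le _
    have h2 : finrank ℂ (A.L (restr X.B y)) = r := hr y hy
    rw [finrank_fintype_fun_eq_card] at h1
    rw [← PowerSeries.coeff_map, ← InvS_pull, coeff_InvS_rk hr (by omega), map_zero]
end L0
open L0

/-- `λ_{-s}(A^∨) = ∏ (1 - s / a_i)` -/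
def Lam (A : Bun X) : (Op X)[X] :=
  PowerSeries.trunc (Fintype.card A.ι + 1) (PowerSeries.invOfUnit (SdS A) 1)
lemma L0.Lam_coe (A : Bun X) : (Lam A : PowerSeries (Op X)) = InvS A := by
  ext n
  rw [coeff_coe, Lam, PowerSeries.coeff_trunc]
  split_ifs with h
  · rfl
  · exact (coeff_InvS A (by omega)).symm
theorem Lam_mul_SdS (A : Bun X) : (Lam A : PowerSeries (Op X)) * SdS A = 1 := by
  rw [Lam_coe, InvS_mul]
theorem exists_LamK (X : Spc) : ∃ Φ : Multiplicative (K X) →* PowerSeries (Op X),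
    ∀ A : Bun X, Φ (Multiplicative.ofAdd A.kl) = Lam A :=
  (exists_InvK X).imp fun _ h A => by rw [h, Lam_coe]
lemma Lam_congr {A B : Bun X} (h : A.kl = B.kl) : Lam A = Lam B := by
  obtain ⟨Φ, hΦ⟩ := exists_LamK X
  exact coe_injective _ (by rw [← hΦ, ← hΦ, h])
lemma Lam_add {A B C : Bun X} (h : B.kl = A.kl + C.kl) : Lam B = Lam A * Lam C := by
  obtain ⟨Φ, hΦ⟩ := exists_LamK X
  exact coe_injective _ (by rw [coe_mul, ← hΦ, ← hΦ, ← hΦ, h, ofAdd_add, map_mul])
lemma Lam_add_add {A B C E : Bun X} (h : A.kl + B.kl = C.kl + E.kl) :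
    Lam A * Lam B = Lam C * Lam E := by
  rw [← Lam_add (kl_sum A B), ← Lam_add (kl_sum C E)]
  exact Lam_congr (by rw [kl_sum, kl_sum, h])
lemma Lam_of_kl_sum {A : Bun X} {α : Type} (s : Finset α) (d : α → D)
    (h : A.kl = ∑ i ∈ s, lbK X (d i)) : Lam A = ∏ i ∈ s, (1 - C (lb X (-d i)) * Polynomial.X) :=
  coe_injective _ (by rw [Lam_coe, InvS_of_kl_sum s d h])
lemma Lam_pull (p : Proj Y X) (A : Bun X) : Lam (A.pull p) = (Lam A).map (Op.pull p) := by
  ext n
  rw [coeff_map, ← coeff_coe, ← coeff_coe, Lam_coe, Lam_coe, InvS_pull, PowerSeries.coeff_map]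
lemma Lam_coeff_zero (A : Bun X) : (Lam A).coeff 0 = 1 := by
  have := congrArg PowerSeries.constantCoeff (Lam_mul_SdS A)
  rwa [map_mul, const_SdS, mul_one, map_one, constantCoeff_coe] at this
lemma Lam_coeff_one (A : Bun X) : (Lam A).coeff 1 = -op X (K.dual X A.kl) := by
  have := congrArg (PowerSeries.coeff 1) (Lam_mul_SdS A)
  rw [PowerSeries.coeff_one_mul, const_SdS, constantCoeff_coe, Lam_coeff_zero, coeff_coe, coeff_SdS,
    Sd_one, PowerSeries.coeff_one, if_neg one_ne_zero] at this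
  linear_combination this
lemma Lam_natDegree_le {A : Bun X} {r : ℕ} (h : A.Rk r) : (Lam A).natDegree ≤ r :=
  natDegree_le_iff_coeff_eq_zero.2 fun n hn => by rw [← coeff_coe, Lam_coe, coeff_InvS_rk h hn]
lemma Lam_lead {A : Bun X} {r : ℕ} (h : A.Rk r) :
    (Lam A).coeff r * op X (A.det r h).kl = (-1) ^ r :=
  eq_of_split h fun Y p d e1 e2 => by
    have h1 := coeff_prod_lin Finset.univ fun i => lb Y (-d i)
    rw [Finset.card_fin] at h1
    rw [map_mul, ← coeff_map, ← Lam_pull, Lam_of_kl_sum _ _ e1, h1, Op.pull_op, e2, map_prod,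
      ← Finset.prod_mul_distrib, map_pow, map_neg, map_one]
    rw [Finset.prod_congr rfl (g := fun _ => (-1 : Op Y)) fun i _ => by
      rw [neg_mul, mul_comm]; exact congrArg Neg.neg (lb_mul_neg (d i))]
    simp
lemma Lam_rk_one {A : Bun X} (h : A.Rk 1) :
    Lam A = 1 - C (op X (K.dual X A.kl)) * Polynomial.X := by
  rw [eq_X_add_C_of_natDegree_le_one (Lam_natDegree_le h), Lam_coeff_zero, Lam_coeff_one]
  simp only [map_neg, map_one]
  ring

lemma L0.lead_mul {A : Bun X} {r : ℕ} (h : A.Rk r) :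
    (Lam A).coeff r * ((-1) ^ r * op X (A.det r h).kl) = 1 := by
  rw [mul_left_comm, Lam_lead h, ← mul_pow]
  simp
lemma L0.isUnit_lead {A : Bun X} {r : ℕ} (h : A.Rk r) : IsUnit ((Lam A).coeff r) :=
  IsUnit.of_mul_eq_one _ (lead_mul h)

/-- characteristic polynomial `∏ (z - a_i)` -/
def chp (A : Bun X) (r : ℕ) : (Op X)[X] := C (Ring.inverse ((Lam A).coeff r)) * Lam A
lemma chp_eq {A : Bun X} {r : ℕ} (h : A.Rk r) :
    chp A r = C ((-1) ^ r * op X (A.det r h).kl) * Lam A := by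
  rw [chp, inverse_eq (lead_mul h)]
lemma chp_natDegree_le {A : Bun X} {r : ℕ} (h : A.Rk r) : (chp A r).natDegree ≤ r :=
  (natDegree_C_mul_le _ _).trans (Lam_natDegree_le h)
lemma chp_coeff_rk {A : Bun X} {r : ℕ} (h : A.Rk r) : (chp A r).coeff r = 1 := by
  rw [chp_eq h, coeff_C_mul, mul_comm, lead_mul h]
lemma chp_monic {A : Bun X} {r : ℕ} (h : A.Rk r) : (chp A r).Monic :=
  monic_of_natDegree_le_of_coeff_eq_one r (chp_natDegree_le h) (chp_coeff_rk h)
lemma chp_natDegree [Nontrivial (Op X)] {A : Bun X} {r : ℕ} (h : A.Rk r) :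
    (chp A r).natDegree = r :=
  natDegree_eq_of_le_of_coeff_ne_zero (chp_natDegree_le h) (by rw [chp_coeff_rk h]; exact one_ne_zero)
lemma chp_coeff_zero {A : Bun X} {r : ℕ} (h : A.Rk r) :
    (chp A r).coeff 0 = (-1) ^ r * op X (A.det r h).kl := by
  rw [chp_eq h, coeff_C_mul, Lam_coeff_zero, mul_one]
lemma isUnit_det {A : Bun X} {r : ℕ} (h : A.Rk r) : IsUnit (op X (A.det r h).kl) :=
  IsUnit.of_mul_eq_one ((Lam A).coeff r * (-1) ^ r) (by linear_combination lead_mul h)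
lemma chp_congr {A B : Bun X} (h : A.kl = B.kl) (r : ℕ) : chp A r = chp B r := by
  rw [chp, chp, Lam_congr h]
lemma L0.chp_mul {A C : Bun X} {m n : ℕ} (hA : A.Rk m) (hC : C.Rk n) : chp A m * chp C n =
    Polynomial.C (Ring.inverse ((Lam A * Lam C).coeff (m + n))) * (Lam A * Lam C) := by
  rw [coeff_mul_add_eq_of_natDegree_le (Lam_natDegree_le hA) (Lam_natDegree_le hC),
    inverse_mul' (isUnit_lead hA) (isUnit_lead hC), chp, chp, map_mul]
  ring
lemma chp_add {A B C : Bun X} {m n : ℕ} (hA : A.Rk m) (hC : C.Rk n) (h : B.kl = A.kl + C.kl) :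
    chp B (m + n) = chp A m * chp C n := by
  rw [chp_mul hA hC, chp, Lam_add h]
lemma chp_add_add {A B C E : Bun X} {a b c e : ℕ} (hA : A.Rk a) (hB : B.Rk b) (hC : C.Rk c)
    (hE : E.Rk e) (hr : a + b = c + e) (h : A.kl + B.kl = C.kl + E.kl) :
    chp A a * chp B b = chp C c * chp E e := by
  rw [chp_mul hA hB, chp_mul hC hE, Lam_add_add h, hr]
lemma chp_pull (p : Proj Y X) {A : Bun X} {r : ℕ} (h : A.Rk r) :
    chp (A.pull p) r = (chp A r).map (Op.pull p) := by
  rw [chp_eq h, chp_eq (h.pull p), Polynomial.map_mul, map_C, Lam_pull, map_mul (Op.pull p),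
    map_pow, map_neg, map_one, Op.pull_op, kl_det_pull]
lemma chp_of_kl_sum {A : Bun X} {α : Type} (s : Finset α) (d : α → D)
    (h : A.kl = ∑ i ∈ s, lbK X (d i)) :
    chp A s.card = ∏ i ∈ s, (Polynomial.X - C (lb X (d i))) := by
  have h1 : (∏ i ∈ s, -lb X (-d i)) * ∏ i ∈ s, -lb X (d i) = 1 := by
    rw [← Finset.prod_mul_distrib]
    exact Finset.prod_eq_one fun i _ => by rw [neg_mul_neg, mul_comm, lb_mul_neg]
  rw [chp, Lam_of_kl_sum s d h, coeff_prod_lin, inverse_eq h1, map_prod, ← Finset.prod_mul_distrib]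
  refine Finset.prod_congr rfl fun i _ => ?_
  have h2 : (C (lb X (d i)) * C (lb X (-d i)) : (Op X)[X]) = 1 := by
    rw [← map_mul, lb_mul_neg, map_one]
  rw [map_neg]
  linear_combination Polynomial.X * h2
lemma L0.chp_fin {A : Bun X} {r : ℕ} (d : Fin r → D) (h : A.kl = ∑ i, lbK X (d i)) :
    chp A r = ∏ i, (Polynomial.X - C (lb X (d i))) := by
  have := chp_of_kl_sum Finset.univ d h
  rwa [Finset.card_fin] at this
lemma chp_coeff_pred {A : Bun X} {r : ℕ} (h : A.Rk (r + 1)) :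
    (chp A (r + 1)).coeff r = -op X A.kl :=
  eq_of_split h fun Y p d e _ => by
    have h1 := prod_X_sub_C_coeff_card_pred Finset.univ (fun i => lb Y (d i)) (by simp)
    rw [Finset.card_fin, Nat.add_sub_cancel] at h1
    rw [← coeff_map, ← chp_pull p h, chp_fin d e, h1, map_neg, Op.pull_op, K.pull_kl, e, map_sum]
    rfl
lemma chp_rk_one {A : Bun X} (h : A.Rk 1) : chp A 1 = Polynomial.X - C (op X A.kl) := by
  rw [eq_X_add_C_of_natDegree_le_one (chp_natDegree_le h), chp_coeff_rk h, chp_coeff_pred (r := 0) h]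
  simp only [map_neg, map_one]
  ring
lemma chp_rk_zero {A : Bun X} (h : A.Rk 0) : chp A 0 = 1 := by
  rw [eq_C_of_natDegree_le_zero (chp_natDegree_le h), chp_coeff_rk h, map_one]
/-- duality -/
theorem Lam_dual {A A' : Bun X} {r : ℕ} (h : A.Rk r) (e : A'.kl = K.dual X A.kl) :
    Lam A' = (chp A r).reflect r :=
  poly_of_split h fun Y p d e1 => by
    have h1 : (A'.pull p).kl = ∑ i, lbK Y (-d i) := by
      rw [← K.pull_kl, e, K.pull_dual, K.pull_kl, e1, map_sum]
      simp only [K.dual_lbK]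
    have h2 := reflect_prod Finset.univ (fun i => Polynomial.X - C (lb Y (d i)))
      fun i => natDegree_X_sub_C_le _
    rw [Finset.card_fin] at h2
    rw [← Lam_pull, ← reflect_map, ← chp_pull p h, chp_fin d e1, h2, Lam_of_kl_sum _ _ h1]
    simp only [neg_neg, reflect_X_sub_C]
lemma L0.rk_dual {A A' : Bun X} {r : ℕ} (h : A.Rk r) (e : A'.kl = K.dual X A.kl) : A'.Rk r := by
  intro x hx
  obtain ⟨B, hB, hr⟩ := A.exists_dual
  have h1 := congrArg (K.rk hx) (e.trans hB.symm)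
  rw [K.rk_kl, K.rk_kl, hr x hx, h x hx] at h1
  exact_mod_cast h1
theorem chp_dual {A A' : Bun X} {r : ℕ} (h : A.Rk r) (e : A'.kl = K.dual X A.kl) :
    chp A' r = (Lam A).reflect r := by
  rw [Lam_dual (A := A') (A' := A) (rk_dual h e) (by rw [e, K.dual_dual]), reflect_reflect]
/-- tensoring with a line bundle scales the roots -/
theorem Lam_tens {A A' l : Bun X} (hl : l.Rk 1) (e : A'.kl = l.kl * A.kl) :
    Lam A' = (Lam A).comp (C (op X (K.dual X l.kl)) * Polynomial.X) := by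
  have main : ∀ {X : Spc} {A A' : Bun X} {r : ℕ} {c : D}, c ∈ DS X.B → A.Rk r →
      A'.kl = lbK X c * A.kl → Lam A' = (Lam A).comp (C (lb X (-c)) * Polynomial.X) := by
    intro X A A' r c hc h e
    refine poly_of_split h fun Y p d e1 => ?_
    have h1 : (A'.pull p).kl = ∑ i, lbK Y (c + d i) := by
      rw [← K.pull_kl, e, map_mul, K.pull_kl, e1, K.pull_lbK p hc, Finset.mul_sum]
      simp only [lbK_add]
    rw [← Lam_pull, map_comp, ← Lam_pull, Lam_of_kl_sum _ _ h1, Lam_of_kl_sum _ _ e1,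
      Polynomial.map_mul, map_C, map_X, Op.pull_lb p (neg_mem hc), Polynomial.prod_comp]
    refine Finset.prod_congr rfl fun i _ => ?_
    rw [neg_add, lb_add, map_mul]
    simp only [sub_comp, one_comp, mul_comp, C_comp, X_comp]
    ring
  refine poly_of_rk A fun Y p r hr => poly_of_split (hl.pull p) fun W q d e1 => ?_
  rw [Fin.sum_univ_one, ← lbK_dpr] at e1
  have h1 : ((A'.pull p).pull q).kl = lbK W (dpr W.B (d 0)) * ((A.pull p).pull q).kl := by
    rw [← e1, ← K.pull_kl, ← K.pull_kl, e, map_mul, map_mul, K.pull_kl, K.pull_kl, K.pull_kl,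
      K.pull_kl]
  have h2 := main (dpr_mem W.B (d 0)) (hr.pull q) h1
  rw [← Lam_pull, ← Lam_pull, h2, map_comp, map_comp, ← Lam_pull, ← Lam_pull, Polynomial.map_mul,
    Polynomial.map_mul, map_C, map_C, map_X, map_X, Op.pull_op, Op.pull_op, K.pull_dual,
    K.pull_dual, K.pull_kl, K.pull_kl, e1, K.dual_lbK]
  rfl
lemma L0.kl_amb (A : Bun X) : A.amb.kl = ∑ i, lbK X (A.deg i) := kl_triv _ _
lemma L0.Lam_dvd_amb (A : Bun X) : Lam A ∣ Lam A.amb := by
  obtain ⟨C, hC⟩ := A.exists_compl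
  exact Dvd.intro _ (Lam_add (kl_ses hC)).symm
theorem chp_dvd_amb {A : Bun X} {r : ℕ} (h : A.Rk r) :
    chp A r ∣ ∏ i, (Polynomial.X - C (lb X (A.deg i))) := by
  rw [← chp_of_kl_sum _ _ (kl_amb A)]
  have h1 : chp A r ∣ Lam A := ⟨C ((Lam A).coeff r), by
    rw [chp_eq h, mul_right_comm, ← map_mul, mul_comm _ ((Lam A).coeff r), lead_mul h, map_one,
      one_mul]⟩
  exact (h1.trans (Lam_dvd_amb A)).trans (Dvd.intro_left _ rfl)
theorem chp_dvd_pow {A : Bun X} {r : ℕ} (h : A.Rk r) {w : ℕ → ℤ} (hw : X.TTriv w) {k : ℤ}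
    (hA : A.Pure w k) : ∃ J : ℕ, chp A r ∣ (Polynomial.X - C (lb X (k • eT))) ^ J := by
  have h1 : ∀ i, ∃ J : ℕ, (lb X (A.deg i) - lb X (k • eT)) ^ J = 0 := fun i => by
    have h2 := isNilpotent_lb_sub hw (A.hdeg i)
    have h3 : nwt X.B w (A.deg i) = k := by rw [nwt, hA i]; ring
    rwa [h3] at h2
  choose J hJ using h1
  refine ⟨∑ i, J i, (chp_dvd_amb h).trans ?_⟩
  rw [← Finset.prod_pow_eq_pow_sum]
  exact Finset.prod_dvd_prod_of_dvd _ _ fun i _ =>
    sub_dvd_of_nil (by rw [← map_sub, ← map_pow, hJ, map_zero])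
theorem isNilpotent_rk_one {A : Bun X} (h : A.Rk 1) {w : ℕ → ℤ} (hw : X.TTriv w) {k : ℤ}
    (hA : A.Pure w k) : IsNilpotent (op X A.kl - lb X (k • eT)) := by
  obtain ⟨J, q, hq⟩ := chp_dvd_pow h hw hA
  refine ⟨J, ?_⟩
  have := congrArg (eval (op X A.kl)) hq
  rw [chp_rk_one h] at this
  simpa using this

/-- Euler class `λ_{-1}(A^∨)` -/
def eu (A : Bun X) : Op X := (Lam A).eval 1
lemma eu_congr {A B : Bun X} (h : A.kl = B.kl) : eu A = eu B := by rw [eu, eu, Lam_congr h]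
lemma eu_add {A B C : Bun X} (h : B.kl = A.kl + C.kl) : eu B = eu A * eu C := by
  rw [eu, Lam_add h, eval_mul]; rfl
lemma eu_add_add {A B C E : Bun X} (h : A.kl + B.kl = C.kl + E.kl) : eu A * eu B = eu C * eu E := by
  rw [eu, eu, eu, eu, ← eval_mul, Lam_add_add h, eval_mul]
lemma eu_pull (p : Proj Y X) (A : Bun X) : eu (A.pull p) = Op.pull p (eu A) := by
  rw [eu, eu, Lam_pull, eval_one_map]
lemma eu_tens {A A' l : Bun X} (hl : l.Rk 1) (e : A'.kl = l.kl * A.kl) :
    eu A' = (Lam A).eval (op X (K.dual X l.kl)) := by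
  rw [eu, Lam_tens hl e, eval_comp]
  simp
/-- products of `1 - t^k`, `k ≠ 0` -/
def Mov : Submonoid (LaurentPolynomial ℤ) :=
  Submonoid.closure {p | ∃ k : ℤ, k ≠ 0 ∧ p = 1 - LaurentPolynomial.T k}
/-- the Euler class of a bundle without weight zero is invertible after localisation -/
theorem eu_dvd {A : Bun X} {w : ℕ → ℤ} (hw : X.TTriv w) (hA : ∀ i, nwt X.B w (A.deg i) ≠ 0) :
    ∃ p ∈ Mov, eu A ∣ tHom X p := by
  have h1 : ∀ i, ∃ J : ℕ, (lb X (-A.deg i) - lb X (nwt X.B w (-A.deg i) • eT)) ^ J = 0 :=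
    fun i => isNilpotent_lb_sub hw (neg_mem (A.hdeg i))
  choose J hJ using h1
  refine ⟨∏ i, (1 - LaurentPolynomial.T (nwt X.B w (-A.deg i))) ^ J i,
    prod_mem fun i _ => pow_mem (Submonoid.subset_closure ?_) _, ?_⟩
  · refine ⟨_, fun e => hA i ?_, rfl⟩
    have h2 : nwt X.B w (-A.deg i) = -nwt X.B w (A.deg i) := by
      simp only [nwt, Finsupp.neg_apply, mul_neg, Finset.sum_neg_distrib]
      ring
    rw [h2] at e
    exact neg_eq_zero.1 e
  · refine (eval_dvd (x := 1) (Lam_dvd_amb A)).trans ?_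
    rw [Lam_of_kl_sum _ _ (kl_amb A), eval_prod, map_prod]
    refine Finset.prod_dvd_prod_of_dvd _ _ fun i _ => ?_
    rw [map_pow, map_sub, map_one, tHom_T]
    simpa using sub_dvd_of_nil (u := 1) (hJ i)

section PB
variable {A : Bun X} {δ : D} {b : ℕ} {y : A.ι → Var}
lemma L0.Lam_root (h : IsPSub P A δ b y) :
    (Lam A).eval₂ (Op.pull h.proj) (lb P (δ - eB b)) = 0 := by
  obtain ⟨Q, hQ⟩ := taut_ses h
  have h1 : Lam (line P (δ - eB b)) = 1 - C (lb P (-(δ - eB b))) * Polynomial.X := by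
    simpa using Lam_of_kl_sum (A := line P (δ - eB b)) {()} (fun _ => δ - eB b) (by simp [lbK])
  rw [eval₂_eq_eval_map, ← Lam_pull, Lam_add (kl_ses hQ), eval_mul, h1, eval_sub, eval_one, eval_mul,
    eval_C, eval_X, mul_comm (lb P _), lb_mul_neg, sub_self, zero_mul]
theorem IsPSub.chp_root (h : IsPSub P A δ b y) {r : ℕ} (hr : A.Rk r) :
    (chp A r).eval₂ (Op.pull h.proj) (lb P (δ - eB b)) = 0 := by
  rw [chp, eval₂_mul, Lam_root h, mul_zero]
lemma L0.push_eval (p : Proj P X) (φ : (Op X)[X]) (z w : Op P) (a : G P) :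
    push P X ((φ.eval₂ (Op.pull p) z * w) • a) =
      φ.sum fun i c => c • push P X ((z ^ i * w) • a) := by
  rw [eval₂_eq_sum, Polynomial.sum, Polynomial.sum, Finset.sum_mul, Finset.sum_smul, map_sum]
  exact Finset.sum_congr rfl fun i _ => by rw [mul_assoc, mul_smul, push_smul]
/-- the projective bundle formula in all degrees `≥ 1 - r` -/
lemma L0.push_int (h : IsPSub P A δ b y) {r : ℕ} (hr : A.Rk r) {k : ℤ} (hk : 1 - r ≤ k) :
    push P X (lb P (k • (eB b - δ)) • one P) =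
      if 0 ≤ k then op X (Sd A k.toNat) • one X else 0 := by
  obtain ⟨k₀, hk₀⟩ := h.push_pow_big
  set a : ℤ → G X := fun k => push P X (lb P (k • (eB b - δ)) • one P) with ha
  set c : ℤ → G X := fun k => if 0 ≤ k then op X (Sd A k.toNat) • one X else 0 with hc
  have h1 : ∀ k, Ext.app (Lam A) a k = 0 := fun k => by
    have h2 := push_eval h.proj (Lam A) (lb P (δ - eB b)) (lb P (k • (eB b - δ))) (one P)
    rw [Lam_root h, zero_mul, zero_smul, map_zero] at h2
    rw [h2, Ext.app]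
    refine Finset.sum_congr rfl fun i _ => ?_
    simp only [ha]
    rw [← lb_nsmul, ← lb_add]
    congr 4
    rw [sub_smul k, natCast_zsmul, ← neg_sub (eB b) δ, smul_neg]
    abel
  have h3 : ∀ k, 1 ≤ k → Ext.app (Lam A) c k = 0 := fun k hk => by
    obtain ⟨m, rfl⟩ := Int.eq_ofNat_of_zero_le (le_trans zero_le_one hk)
    have h4 := congrArg (PowerSeries.coeff m) (Lam_mul_SdS A)
    rw [PowerSeries.coeff_mul, Finset.Nat.sum_antidiagonal_eq_sum_range_succ_mk,
      PowerSeries.coeff_one, if_neg (by omega)] at h4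
    rw [Ext.app_eq_sum (Lam A) ((Lam_natDegree_le hr).trans (Nat.le_add_right r m)),
      ← Finset.sum_subset (Finset.range_subset_range.2 (show m + 1 ≤ r + m + 1 by omega))]
    · rw [← zero_smul (Op X) (one X), ← h4, Finset.sum_smul]
      refine Finset.sum_congr rfl fun i hi => ?_
      have h5 : i ≤ m := Nat.lt_succ_iff.1 (Finset.mem_range.1 hi)
      have h6 : ((m : ℤ) - i).toNat = m - i := by omega
      simp only [hc]
      rw [if_pos (by omega), h6, coeff_coe, coeff_SdS, mul_smul]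
    · intro i _ hi
      rw [Finset.mem_range] at hi
      simp only [hc]
      rw [if_neg (by omega), smul_zero]
  have h7 := Ext.uniq_from (Lam_natDegree_le hr) (isUnit_lead hr) (a := a - c) (k₀ := 1) (k₁ := k₀)
    (fun k hk => by
      have h8 := congrFun (Ext.app_seq_add (Lam A) (a - c) c) k
      rw [sub_add_cancel, Pi.add_apply, h1, h3 k hk, add_zero] at h8
      exact h8.symm)
    (fun k hk => by
      obtain ⟨m, rfl⟩ := Int.eq_ofNat_of_zero_le (le_trans (Int.natCast_nonneg k₀) hk)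
      simp only [Pi.sub_apply, ha, hc]
      rw [if_pos (Int.natCast_nonneg m), natCast_zsmul, lb_nsmul, hk₀ m (by exact_mod_cast hk),
        Int.toNat_natCast, op_smul, sub_self]) k hk
  exact sub_eq_zero.1 h7
theorem IsPSub.push_pow (h : IsPSub P A δ b y) {r : ℕ} (hr : A.Rk (r + 1)) (k : ℕ) :
    push P X (lb P (eB b - δ) ^ k • one P) = Sd A k • one X := by
  have := push_int h hr (k := k) (by push_cast; omega)
  rwa [if_pos (Int.natCast_nonneg k), natCast_zsmul, lb_nsmul, Int.toNat_natCast, op_smul] at this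
theorem IsPSub.push_one (h : IsPSub P A δ b y) {r : ℕ} (hr : A.Rk (r + 1)) :
    push P X (one P) = one X := by
  have := h.push_pow hr 0
  rwa [pow_zero, one_smul, Sd_zero, one_smul] at this
theorem IsPSub.push_neg (h : IsPSub P A δ b y) {r : ℕ} (hr : A.Rk r) {k : ℕ} (h1 : 1 ≤ k)
    (hk : k < r) : push P X (lb P (δ - eB b) ^ k • one P) = 0 := by
  have := push_int h hr (k := -k) (by omega)
  rwa [if_neg (by omega), neg_smul, ← smul_neg, neg_sub, natCast_zsmul, lb_nsmul] at this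
/-- residue form, in the tautological line `ℓ` -/
theorem IsPSub.push_res (h : IsPSub P A δ b y) {r : ℕ} (hr : A.Rk (r + 1)) (φ : (Op X)[X]) :
    push P X ((φ.eval₂ (Op.pull h.proj) (lb P (δ - eB b)) * lb P (δ - eB b)) • one P) =
      (-(chp A (r + 1)).coeff 0 * Ext.res (chp A (r + 1)) (r + 1) φ) • one X := by
  rcases subsingleton_or_nontrivial (Op X) with hs | hn
  · exact (Module.subsingleton (Op X) (G X)).elim _ _
  set l := lb P (δ - eB b) with hl
  have hrec : ∀ k : ℕ, (chp A (r + 1)).sum (fun i c => c • push P X ((l ^ i * l ^ k) • one P)) = 0 :=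
    fun k => by rw [← push_eval h.proj, h.chp_root hr, zero_mul, zero_smul, map_zero]
  have h1 : push P X (l ^ (r + 1) • one P) = (-(chp A (r + 1)).coeff 0) • one X := by
    have h2 := hrec 0
    rw [sum_over_range' _ (by intro; exact zero_smul _ _) (r + 2)
      (Nat.lt_succ_of_le (chp_natDegree_le hr)), Finset.sum_range_succ, Finset.sum_range_succ',
      Finset.sum_eq_zero, chp_coeff_rk hr] at h2
    · simp only [pow_zero, mul_one, one_smul, zero_add, h.push_one hr] at h2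
      rw [neg_smul]
      exact eq_neg_of_add_eq_zero_right h2
    · intro i hi
      rw [pow_zero, mul_one, h.push_neg hr (by omega) (by simpa using hi), smul_zero]
  have h3 := Ext.sum_eq_res (chp_monic hr) (chp_natDegree hr) (Nat.le_add_left 1 r)
    (a := fun k => push P X (l ^ (k + 1) • one P))
    (fun k => by
      rw [← hrec (k + 1)]
      refine Finset.sum_congr rfl fun i _ => ?_
      simp only
      rw [← pow_add]
      congr 4
      omega)
    (fun k hk => h.push_neg hr (by omega) hk) φ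
  rw [push_eval h.proj]
  simp only [← pow_succ]
  rw [h3, Nat.add_sub_cancel, h1, smul_smul, mul_comm]
/-- residue form, in `ξ = ℓ⁻¹` -/
theorem IsPSub.push_res' (h : IsPSub P A δ b y) {r : ℕ} (hr : A.Rk (r + 1)) (φ : (Op X)[X]) :
    push P X ((φ.eval₂ (Op.pull h.proj) (lb P (eB b - δ)) * lb P (δ - eB b) ^ r) • one P) =
      Ext.res ((Lam A).reflect (r + 1)) (r + 1) φ • one X := by
  rcases subsingleton_or_nontrivial (Op X) with hs | hn
  · exact (Module.subsingleton (Op X) (G X)).elim _ _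
  set l := lb P (δ - eB b) with hl
  set ξ := lb P (eB b - δ) with hξ
  have hlξ : ξ * l = 1 := by rw [hl, hξ, ← neg_sub (eB b) δ, lb_mul_neg]
  have hc : ((Lam A).reflect (r + 1)).coeff (r + 1) = 1 := by
    rw [coeff_reflect, revAt_le le_rfl, Nat.sub_self, Lam_coeff_zero]
  have hd : ((Lam A).reflect (r + 1)).natDegree ≤ r + 1 :=
    natDegree_le_iff_coeff_eq_zero.2 fun n hn => by
      rw [coeff_reflect, revAt_eq_self_of_lt hn]
      exact coeff_eq_zero_of_natDegree_lt (lt_of_le_of_lt (Lam_natDegree_le hr) hn)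
  have hroot : ((Lam A).reflect (r + 1)).eval₂ (Op.pull h.proj) ξ = 0 := by
    let _ : Invertible l := ⟨ξ, hlξ, by rw [mul_comm, hlξ]⟩
    exact (eval₂_reflect_eq_zero_iff _ l _ _ (Lam_natDegree_le hr)).2 (Lam_root h)
  have hpow : ∀ k j : ℕ, ξ ^ k * l ^ (k + j) = l ^ j := fun k j => by
    rw [pow_add, ← mul_assoc, ← mul_pow, hlξ, one_pow, one_mul]
  have h3 := Ext.sum_eq_res (monic_of_natDegree_le_of_coeff_eq_one _ hd hc)
    (natDegree_eq_of_le_of_coeff_ne_zero hd (by rw [hc]; exact one_ne_zero)) (Nat.le_add_left 1 r)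
    (a := fun k => push P X ((ξ ^ k * l ^ r) • one P))
    (fun k => by
      have h4 := push_eval h.proj ((Lam A).reflect (r + 1)) ξ (ξ ^ k * l ^ r) (one P)
      rw [hroot, zero_mul, zero_smul, map_zero] at h4
      rw [h4]
      refine Finset.sum_congr rfl fun i _ => ?_
      simp only
      rw [← mul_assoc, ← pow_add, add_comm k i])
    (fun k hk => by
      obtain ⟨j, rfl⟩ := Nat.exists_eq_add_of_le (show k ≤ r by omega)
      show push P X ((ξ ^ k * l ^ (k + j)) • one P) = 0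
      rw [hpow]
      exact h.push_neg hr (by omega) (by omega)) φ
  have h5 := hpow r 0
  rw [add_zero, pow_zero] at h5
  rw [push_eval h.proj, h3, Nat.add_sub_cancel, h5, one_smul, h.push_one hr]
/-- graph of a line bundle -/
theorem IsPSub.kl_graph (h : IsPSub P A δ b y) (hr : A.Rk 1) :
    (A.pull h.proj).kl = lbK P (δ - eB b) := by
  obtain ⟨Q, hQ⟩ := taut_ses h
  have h1 : Q.Rk 0 := rk_quot hQ (rk_line _) (hr.pull _)
  rw [kl_ses hQ, kl_of_bot (bot_of_rk h1), add_zero]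
  rfl
end PB

end Crest.Agent.N265
end
end

-- ▼ part N265/K/Tan0
section

/-! # Task K8, auxiliary file (helper60): chain rule, products with affine spaces -/

set_option autoImplicit false
noncomputable section
open MvPolynomial Module

namespace Crest.Agent.N265.TanAux
variable {X Y Z P : Spc}

lemma eval_aeval (F : Var → R) (p : Pt) (r : R) :
    eval p (aeval F r) = eval (fun v => eval p (F v)) r := by
  induction r using MvPolynomial.induction_on with
  | C c => simp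
  | add a b ha hb => simp only [map_add, ha, hb]
  | mul_X a v ha => simp only [map_mul, ha, aeval_X, eval_X]

/-- chain rule -/
lemma dAt_aeval (F : Var → R) (p ξ : Pt) (r : R) :
    dAt p ξ (aeval F r) = dAt (fun v => eval p (F v)) (fun v => dAt p ξ (F v)) r := by
  induction r using MvPolynomial.induction_on with
  | C c => simp
  | add a b ha hb => simp only [map_add, dAt_add, ha, hb]
  | mul_X a v ha => simp only [map_mul, dAt_mul, ha, aeval_X, eval_X, dAt_X, eval_aeval]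

lemma dAt_kill (B : Finset ℕ) (p ξ : Pt) (r : R) :
    dAt p ξ (kill B r) = dAt (restr B p) (restr B ξ) r := by
  unfold kill
  rw [dAt_aeval]
  congr 1 <;> funext v <;> by_cases h : v.1 ∈ B <;> simp [restr, h]

lemma dAt_gam (p ξ : Pt) (r : R) : dAt p ξ (gam r) = dAt (gpt p) (gpt ξ) r := by
  change dAt p ξ (aeval (fun v => (C (chi (vdeg v)) * MvPolynomial.X v : R)) r) = _
  rw [dAt_aeval]
  congr 1 <;> funext v <;> simp [gpt, Jac.dAt_C_mul]

lemma gpt_mem_tan {p ξ : Pt} : gpt ξ ∈ X.Tan (gpt p) ↔ ξ ∈ X.Tan p := by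
  constructor
  · intro h r hr
    rw [← Jac.gam_gamInv r, dAt_gam]
    exact h _ ((Jac.stabI_I X).inv hr)
  · intro h r hr
    rw [← dAt_gam]
    exact h _ (Spc.gam_mem_I hr)

/-- substitution of the line `p + t ξ` -/
def lineA (p ξ : Pt) : R →ₐ[ℂ] R := aeval fun v => C (p v) + C (ξ v) * MvPolynomial.X (0, 0, 0)

lemma eval_lineA (p ξ q : Pt) (r : R) :
    eval q (lineA p ξ r) = eval (p + q (0, 0, 0) • ξ) r := by
  unfold lineA
  rw [eval_aeval]
  congr 2; funext v; simp [mul_comm]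

lemma lineA_eq_zero {p ξ : Pt} {f : R} (h : ∀ t : ℂ, eval (p + t • ξ) f = 0) :
    lineA p ξ f = 0 :=
  MvPolynomial.funext fun q => by rw [eval_lineA, h, map_zero]

lemma dAt_line {p ξ : Pt} {f : R} (h : ∀ t : ℂ, eval (p + t • ξ) f = 0) : dAt p ξ f = 0 := by
  have h1 := dAt_aeval (fun v => C (p v) + C (ξ v) * MvPolynomial.X (0, 0, 0)) 0 1 f
  have h2 : dAt 0 1 (lineA p ξ f) = 0 := by rw [lineA_eq_zero h, dAt_zero]
  rw [← h2]
  refine Eq.trans ?_ h1.symm
  congr 1 <;> funext v <;> simp [dAt_add, Jac.dAt_C_mul]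

lemma X_mem_I {v : Var} (hv : v.1 ∉ X.B) : (MvPolynomial.X v : R) ∈ X.I := fun x hx => by
  rw [eval_X, ← X.restr_eq hx]; simp [restr, hv]

lemma restr_tan {x ξ : Pt} (h : ξ ∈ X.Tan x) : restr X.B ξ = ξ := by
  funext v
  by_cases hv : v.1 ∈ X.B
  · simp [restr, hv]
  · have := h _ (X_mem_I hv)
    rw [dAt_X] at this
    simp [restr, hv, this]

/-- tangent vectors of the product of `X` with an affine space -/
lemma dAt_prod {f : R} (hf : ∀ q : Pt, restr X.B q ∈ X.pts → eval q f = 0) {p ξ : Pt}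
    (hp : restr X.B p ∈ X.pts) (hξ : restr X.B ξ ∈ X.Tan (restr X.B p)) : dAt p ξ f = 0 := by
  have h1 : dAt p (restr X.B ξ) f = 0 := by
    have h2 := hξ (aeval (fun v => if v.1 ∈ X.B then MvPolynomial.X v else C (p v)) f) fun x hx => by
      rw [eval_aeval]
      refine hf _ ?_
      convert hx using 1
      rw [← X.restr_eq hx]
      funext v; by_cases h : v.1 ∈ X.B <;> simp [restr, h]
    rw [dAt_aeval] at h2
    rw [← h2]
    congr 1 <;> funext v <;> by_cases h : v.1 ∈ X.B <;> simp [restr, h]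
  have h2 : dAt p (ξ - restr X.B ξ) f = 0 := dAt_line fun t => hf _ (by
    convert hp using 1
    funext v; by_cases h : v.1 ∈ X.B <;> simp [restr, h])
  have h3 := dAt_dir_add p (restr X.B ξ) (ξ - restr X.B ξ) f
  rwa [add_sub_cancel, h1, h2, add_zero] at h3

theorem height_mvPoly (A : Type) [CommRing A] [IsNoetherianRing A] [IsJacobsonRing A] :
    ∀ (s : ℕ) (m : Ideal (MvPolynomial (Fin s) A)), m.IsMaximal →
      (m.comap C).height + s ≤ m.height := by
  intro s
  induction s with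
  | zero =>
    intro m _
    have := RingEquiv.height_comap (isEmptyRingEquiv A (Fin 0)).symm m
    simp only [Nat.cast_zero, add_zero]
    refine le_of_eq (Eq.trans ?_ this)
    congr 1
  | succ s ih =>
    intro m hm
    let e := (finSuccEquiv A s).toRingEquiv
    have h1 : (m.map e).IsMaximal := Ideal.map_isMaximal_of_equiv e
    have h2 := Polynomial.isMaximal_comap_C_of_isJacobsonRing (m.map e)
    have h3 : (m.map e).LiesOver ((m.map e).comap Polynomial.C) := ⟨rfl⟩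
    rw [← RingEquiv.height_map e m,
      Polynomial.height_eq_height_add_one ((m.map e).comap Polynomial.C)]
    push_cast
    rw [← add_assoc]
    gcongr
    refine le_trans ?_ (ih _ h2)
    gcongr
    intro a ha
    have h4 := Ideal.mem_map_of_mem e (Ideal.mem_comap.1 ha)
    have h5 : e (C a) = Polynomial.C (C a) := by simp [e, finSuccEquiv_apply]
    rw [h5] at h4
    exact h4

/-- the ideal of the product of `X` with an affine space -/
theorem exists_aff (X : Spc) {s : ℕ} (y : Fin s → Var) (hy : Function.Injective y)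
    (hb : ∀ i, (y i).1 ∉ X.B) : ∃ J : Ideal R, Jac.FinJ J ∧
      (∀ p : Pt, J ≤ mx p ↔ (∀ r ∈ X.I, eval (restr X.B p) r = 0) ∧
        ∀ v, p v ≠ 0 → v.1 ∈ X.B ∨ v ∈ Set.range y) ∧
      ∀ z : Pt, J ≤ mx z → X.ldim (restr X.B z) + s ≤ Jac.hq J (mx z) := by
  classical
  let ψ : R →+* MvPolynomial (Fin s) (R ⧸ X.I) := eval₂Hom
    (C.comp ((Ideal.Quotient.mk X.I).comp C))
    (Function.extend y MvPolynomial.X fun v => C (Ideal.Quotient.mk X.I (MvPolynomial.X v)))
  have hy1 : ∀ i, ψ (MvPolynomial.X (y i)) = MvPolynomial.X i := fun i => by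
    simp only [ψ, eval₂Hom_X', hy.extend_apply]
  have hy2 : ∀ v, v ∉ Set.range y →
      ψ (MvPolynomial.X v) = C (Ideal.Quotient.mk X.I (MvPolynomial.X v)) := fun v hv => by
    simp only [ψ, eval₂Hom_X']
    exact Function.extend_apply' _ _ _ hv
  have hk : ∀ f, ψ (kill X.B f) = C (Ideal.Quotient.mk X.I f) := by
    intro f
    induction f using MvPolynomial.induction_on with
    | C c => simp [ψ, kill]
    | add a b ha hb => simp only [map_add, ha, hb]
    | mul_X a v ha =>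
      simp only [map_mul, ha]
      congr 1
      by_cases h : v.1 ∈ X.B
      · rw [← hy2 v (by rintro ⟨i, rfl⟩; exact hb i h)]; simp [kill, h]
      · rw [Ideal.Quotient.eq_zero_iff_mem.2 (X_mem_I h)]; simp [kill, h]
  have hs : Function.Surjective ψ := by
    intro g
    induction g using MvPolynomial.induction_on with
    | C c => obtain ⟨f, rfl⟩ := Ideal.Quotient.mk_surjective c; exact ⟨_, hk f⟩
    | add a b ha hb =>
      obtain ⟨a, rfl⟩ := ha; obtain ⟨b, rfl⟩ := hb; exact ⟨a + b, map_add _ _ _⟩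
    | mul_X a i ha => obtain ⟨a, rfl⟩ := ha; exact ⟨a * MvPolynomial.X (y i), by rw [map_mul, hy1]⟩
  have hX : ∀ v, v ∉ Set.range y → (MvPolynomial.X v : R) ∈ X.I →
      (MvPolynomial.X v : R) ∈ RingHom.ker ψ := fun v h1 h2 => by
    rw [RingHom.mem_ker, hy2 v h1, Ideal.Quotient.eq_zero_iff_mem.2 h2, map_zero]
  refine ⟨RingHom.ker ψ, ?_, fun p => ⟨fun h => ⟨fun r hr => ?_, fun v hv => ?_⟩, ?_⟩, fun z hz => ?_⟩
  · obtain ⟨V, hV⟩ := Jac.finJ_I X
    refine ⟨V ∪ Finset.univ.image y, fun v hv => hX v ?_ (hV v fun h => hv (by simp [h]))⟩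
    rintro ⟨i, rfl⟩; exact hv (by simp)
  · rw [← eval_kill]
    refine h ?_
    rw [RingHom.mem_ker, hk, Ideal.Quotient.eq_zero_iff_mem.2 hr, map_zero]
  · by_contra hc
    push Not at hc
    exact hv (by simpa [mem_mx] using h (hX v hc.2 (X_mem_I hc.1)))
  · rintro ⟨h1, h2⟩ f hf
    have h3 : (eval₂Hom (Ideal.Quotient.lift X.I (eval (restr X.B p)) h1) fun i => p (y i)).comp ψ =
        eval p := by
      refine MvPolynomial.ringHom_ext (fun c => by simp [ψ]) fun v => ?_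
      by_cases h : v ∈ Set.range y
      · obtain ⟨i, rfl⟩ := h
        simp [hy1]
      · rw [RingHom.comp_apply, hy2 v h]
        by_cases h' : v.1 ∈ X.B
        · simp [restr, h']
        · have : p v = 0 := by by_contra hc; exact (h2 v hc).elim h' h
          simp [restr, h', this]
    rw [mem_mx, ← h3, RingHom.comp_apply, RingHom.mem_ker.1 hf, map_zero]
  · have := (Jac.finJ_I X).finiteType
    have : IsJacobsonRing (R ⧸ X.I) := isJacobsonRing_of_finiteType (A := ℂ)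
    have h1 : Jac.hq (RingHom.ker ψ) (mx z) = ((mx z).map ψ).height := by
      unfold Jac.hq
      rw [← RingEquiv.height_map (S := MvPolynomial (Fin s) (R ⧸ X.I))
        (RingHom.quotientKerEquivOfSurjective hs), ← Ideal.map_coe, Ideal.map_map]
      rfl
    have h2 : ((mx z).map ψ).IsMaximal := Ideal.IsMaximal.map_of_surjective_of_ker_le hs hz
    rw [h1]
    refine le_trans ?_ (height_mvPoly _ s _ h2)
    gcongr
    refine Ideal.height_mono (Ideal.map_le_iff_le_comap.2 fun f hf => ?_)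
    rw [Ideal.mem_comap, Ideal.mem_comap, ← hk]
    exact Ideal.mem_map_of_mem _ (by rw [mem_mx, eval_kill]; exact hf)

end Crest.Agent.N265.TanAux
end
end

-- ▼ part N265/K/Tan1
section

/-! # Task K8, auxiliary file (helper60): tangent spaces and dimension of projective bundles -/

set_option autoImplicit false
noncomputable section
open MvPolynomial Module

namespace Crest.Agent.N265.TanAux
open Bun
variable {X P : Spc} {A : Bun X} {δ : D} {b : ℕ} {y : A.ι → Var}

lemma y_notMem (h : IsPSub P A δ b y) (i : A.ι) : (y i).1 ∉ X.B := by rw [h.blk]; exact h.new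

/-- the linear form on the block `b` given by a polynomial covector -/
def lin (X : Spc) {ι : Type} [Fintype ι] (y : ι → Var) (a : ι → R) : R :=
  ∑ i, kill X.B (a i) * MvPolynomial.X (y i)

lemma eval_lin {ι : Type} [Fintype ι] (y : ι → Var) (a : ι → R) (p : Pt) :
    eval p (lin X y a) = ∑ i, eval (restr X.B p) (a i) * p (y i) := by
  simp only [lin, map_sum, map_mul, eval_kill, eval_X]

lemma dAt_lin {ι : Type} [Fintype ι] (y : ι → Var) (a : ι → R) (p ξ : Pt) :
    dAt p ξ (lin X y a) = ∑ i, (dAt (restr X.B p) (restr X.B ξ) (a i) * p (y i) +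
      eval (restr X.B p) (a i) * ξ (y i)) := by
  simp only [lin, Jac.dAt_sum, dAt_mul, eval_kill, eval_X, dAt_X, dAt_kill]
  exact Finset.sum_congr rfl fun i _ => by ring

lemma lin_mem_I (h : IsPSub P A δ b y) {a : A.ι → R} (ha : A.IsCov a) : lin X y a ∈ P.I :=
  fun p hp => by
    rw [eval_lin]
    exact ha _ ((h.mem p).1 hp).1 _ ((h.mem p).1 hp).2.1

lemma X_mem_PI (h : IsPSub P A δ b y) {v : Var} (h1 : v.1 ∉ X.B) (h2 : v ∉ Set.range y) :
    (MvPolynomial.X v : R) ∈ P.I := fun p hp => by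
  rw [eval_X]
  by_contra hc
  exact (((h.mem p).1 hp).2.2.2 v hc).elim h1 h2

/-- the derivative of the local projector, applied to `w / r x` -/
def dP {ι : Type} [Fintype ι] (x : Pt) (Q : Matrix ι ι R) (w : ι → ℂ) : Pt →ₗ[ℂ] ι → ℂ where
  toFun ζ i := ∑ j, dAt x ζ (Q i j) * w j
  map_add' a b := by
    funext i; simp only [dAt_dir_add, add_mul, Finset.sum_add_distrib, Pi.add_apply]
  map_smul' c a := by
    funext i
    simp only [dAt_dir_smul, mul_assoc, ← Finset.mul_sum, Pi.smul_apply, smul_eq_mul,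
      RingHom.id_apply]

/-- differentiate `a ⬝ Q = 0` -/
lemma cov_dP {r : R} {Q : Matrix A.ι A.ι R}
    (hQ : ∀ x ∈ X.pts, (∀ v, mev x Q v ∈ A.L x) ∧ ∀ v ∈ A.L x, mev x Q v = eval x r • v)
    {x : Pt} (hx : x ∈ X.pts) (hr : eval x r ≠ 0) {w : A.ι → ℂ} (hw : w ∈ A.L x) {ζ : Pt}
    (hζ : ζ ∈ X.Tan x) {a : A.ι → R} (ha : A.IsCov a) :
    ∑ i, dAt x ζ (a i) * w i + ∑ i, eval x (a i) * dP x Q ((eval x r)⁻¹ • w) ζ i = 0 := by
  have h1 := hζ (∑ i, a i * ∑ j, Q i j * C (((eval x r)⁻¹ • w) j)) fun p hp => by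
    have := ha p hp _ ((hQ p hp).1 ((eval x r)⁻¹ • w))
    simp only [mev_apply] at this
    simpa only [map_sum, map_mul, eval_C] using this
  have h2 := (hQ x hx).2 _ (Submodule.smul_mem _ (eval x r)⁻¹ hw)
  rw [smul_smul, mul_inv_cancel₀ hr, one_smul] at h2
  rw [← h1, Jac.dAt_sum, ← Finset.sum_add_distrib]
  refine Finset.sum_congr rfl fun i _ => ?_
  have h3 : eval x (∑ j, Q i j * C (((eval x r)⁻¹ • w) j)) = w i := by
    rw [← congrFun h2 i, mev_apply]; simp only [map_sum, map_mul, eval_C]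
  rw [dAt_mul, h3, Jac.dAt_sum]
  simp only [dP, dAt_mul, dAt_C, eval_C, LinearMap.coe_mk, AddHom.coe_mk, mul_zero, zero_add]
  rw [add_comm, mul_comm (w i)]
  congr 2
  exact Finset.sum_congr rfl fun j _ => mul_comm _ _

lemma cond_iff {r : R} {Q : Matrix A.ι A.ι R}
    (hQ : ∀ x ∈ X.pts, (∀ v, mev x Q v ∈ A.L x) ∧ ∀ v ∈ A.L x, mev x Q v = eval x r • v)
    {x : Pt} (hx : x ∈ X.pts) (hr : eval x r ≠ 0) {w : A.ι → ℂ} (hw : w ∈ A.L x) {ζ : Pt}
    (hζ : ζ ∈ X.Tan x) (η : A.ι → ℂ) :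
    (∀ a : A.ι → R, A.IsCov a → ∑ i, (dAt x ζ (a i) * w i + eval x (a i) * η i) = 0) ↔
      η - dP x Q ((eval x r)⁻¹ • w) ζ ∈ A.L x := by
  constructor
  · intro h
    rw [← perp_perp (A.L x)]
    intro a0 ha0
    obtain ⟨a, rfl, ha⟩ := A.alg.cogen x hx a0 ha0
    have h1 := h a ha
    have h2 := cov_dP hQ hx hr hw hζ ha
    rw [Finset.sum_add_distrib] at h1
    simp only [Pi.sub_apply, mul_comm _ (eval x (a _))]
    simp only [mul_sub, Finset.sum_sub_distrib]
    linear_combination h1 - h2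
  · intro h a ha
    have h1 := ha x hx _ h
    have h2 := cov_dP hQ hx hr hw hζ ha
    simp only [Pi.sub_apply, mul_sub, Finset.sum_sub_distrib] at h1
    rw [Finset.sum_add_distrib]
    linear_combination h1 + h2

/-- the point with base `x` and fibre coordinate `u` -/
def mkPt {ι : Type} (y : ι → Var) (x : Pt) (u : ι → ℂ) : Pt := Function.extend y u x

lemma mkPt_y {ι : Type} {y : ι → Var} (hy : Function.Injective y) (x : Pt) (u : ι → ℂ) (i : ι) :
    mkPt y x u (y i) = u i := hy.extend_apply _ _ _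

lemma mkPt_ne {ι : Type} {y : ι → Var} (x : Pt) (u : ι → ℂ) {v : Var} (hv : v ∉ Set.range y) :
    mkPt y x u v = x v := Function.extend_apply' _ _ _ hv

lemma restr_mkPt (h : IsPSub P A δ b y) (x : Pt) (u : A.ι → ℂ) :
    restr X.B (mkPt y x u) = restr X.B x := by
  funext v
  by_cases hv : v.1 ∈ X.B
  · simp only [restr, hv, if_true]
    exact mkPt_ne _ _ (by rintro ⟨i, rfl⟩; exact y_notMem h i hv)
  · simp [restr, hv]

lemma supp_mkPt (x : Pt) (u : A.ι → ℂ) (v : Var) (hv : mkPt y (restr X.B x) u v ≠ 0) :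
    v.1 ∈ X.B ∨ v ∈ Set.range y := by
  by_contra hc
  push Not at hc
  rw [mkPt_ne _ _ hc.2] at hv
  simp [restr, hc.1] at hv

lemma eq_mkPt (h : IsPSub P A δ b y) {p : Pt} (hp : ∀ v, p v ≠ 0 → v.1 ∈ X.B ∨ v ∈ Set.range y) :
    mkPt y (restr X.B p) (fun i => p (y i)) = p := by
  funext v
  by_cases hv : v ∈ Set.range y
  · obtain ⟨i, rfl⟩ := hv; exact mkPt_y h.inj _ _ i
  · rw [mkPt_ne _ _ hv]
    by_cases h' : v.1 ∈ X.B
    · simp [restr, h']
    · have : p v = 0 := by by_contra hc; exact (hp v hc).elim h' hv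
      simp [restr, h', this]

theorem mem_tan (h : IsPSub P A δ b y) {z : Pt} (hz : z ∈ P.pts) {ξ : Pt} :
    ξ ∈ P.Tan z ↔ restr X.B ξ ∈ X.Tan (restr X.B z) ∧
      (∀ v, ξ v ≠ 0 → v.1 ∈ X.B ∨ v ∈ Set.range y) ∧ ∀ a : A.ι → R, A.IsCov a →
        ∑ i, (dAt (restr X.B z) (restr X.B ξ) (a i) * z (y i) +
          eval (restr X.B z) (a i) * ξ (y i)) = 0 := by
  refine ⟨fun hξ => ⟨fun r hr => ?_, fun v hv => ?_, fun a ha => ?_⟩, fun ⟨h1, h2, h3⟩ f hf => ?_⟩
  · rw [← dAt_kill]; exact hξ _ (h.proj.kill_mem hr)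
  · by_contra hc
    push Not at hc
    exact hv (by simpa using hξ _ (X_mem_PI h hc.1 hc.2))
  · rw [← dAt_lin]; exact hξ _ (lin_mem_I h ha)
  obtain ⟨hx, hw, hw0, hs⟩ := (h.mem z).1 hz
  obtain ⟨r, Q, hr, hQ⟩ := A.alg _ hx
  have hu := (cond_iff hQ hx hr hw h1 _).1 h3
  obtain ⟨i₀, hi₀⟩ := Function.ne_iff.1 hw0
  -- the retraction
  let F : Var → R := Function.extend y (fun i => lin X y (Q i)) fun v => kill X.B (MvPolynomial.X v)
  have hF : ∀ p, (fun v => eval p (F v)) =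
      mkPt y (restr X.B p) (mev (restr X.B p) Q fun i => p (y i)) := by
    intro p; funext v
    by_cases hv : v ∈ Set.range y
    · obtain ⟨i, rfl⟩ := hv
      simp only [F, h.inj.extend_apply, mkPt_y h.inj, eval_lin, mev_apply]
    · rw [mkPt_ne _ _ hv]
      simp only [F, Function.extend_apply' _ _ _ hv, eval_kill, eval_X]
  have hF' : ∀ p ζ, (fun v => dAt p ζ (F v)) = mkPt y (restr X.B ζ)
      (dP (restr X.B p) Q (fun i => p (y i)) (restr X.B ζ) +
        mev (restr X.B p) Q fun i => ζ (y i)) := by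
    intro p ζ; funext v
    by_cases hv : v ∈ Set.range y
    · obtain ⟨i, rfl⟩ := hv
      simp only [F, h.inj.extend_apply, mkPt_y h.inj, dAt_lin, mev_apply, Pi.add_apply, dP,
        LinearMap.coe_mk, AddHom.coe_mk, Finset.sum_add_distrib]
    · rw [mkPt_ne _ _ hv]
      simp only [F, Function.extend_apply' _ _ _ hv, dAt_kill, dAt_X]
  set x := restr X.B z with hxd
  have hxx : restr X.B x = x := restr_restr subset_rfl z
  have hξξ : restr X.B (restr X.B ξ) = restr X.B ξ := restr_restr subset_rfl ξ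
  let p := mkPt y x ((eval x r)⁻¹ • fun i => z (y i))
  let ζ := mkPt y (restr X.B ξ) ((eval x r)⁻¹ •
    ((fun i => ξ (y i)) - dP x Q ((eval x r)⁻¹ • fun i => z (y i)) (restr X.B ξ)))
  have hp : restr X.B p = x := (restr_mkPt h _ _).trans hxx
  have hζ : restr X.B ζ = restr X.B ξ := (restr_mkPt h _ _).trans hξξ
  have hp' : (fun i => p (y i)) = (eval x r)⁻¹ • fun i => z (y i) :=
    funext fun i => mkPt_y h.inj _ _ i
  have hζ' : (fun i => ζ (y i)) = (eval x r)⁻¹ •
      ((fun i => ξ (y i)) - dP x Q ((eval x r)⁻¹ • fun i => z (y i)) (restr X.B ξ)) :=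
    funext fun i => mkPt_y h.inj _ _ i
  have e1 : (fun v => eval p (F v)) = z := by
    rw [hF, hp, hp', map_smul, (hQ x hx).2 _ hw, smul_smul, inv_mul_cancel₀ hr, one_smul]
    exact eq_mkPt h hs
  have e2 : (fun v => dAt p ζ (F v)) = ξ := by
    rw [hF', hp, hp', hζ, hζ', map_smul, (hQ x hx).2 _ hu, smul_smul, inv_mul_cancel₀ hr, one_smul,
      add_sub_cancel]
    exact eq_mkPt h h2
  have h4 := dAt_prod (X := X) (f := aeval F (MvPolynomial.X (y i₀) * f)) (p := p) (ξ := ζ)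
    (fun q hq => by
      rw [eval_aeval, hF, map_mul, eval_X]
      by_cases h0 : mkPt y (restr X.B q) (mev (restr X.B q) Q fun i => q (y i)) (y i₀) = 0
      · rw [h0, zero_mul]
      · rw [hf _ ((h.mem _).2 ⟨?_, ?_, fun e => h0 (congrFun e i₀), supp_mkPt _ _⟩), mul_zero]
        · rwa [restr_mkPt h, restr_restr subset_rfl]
        · rw [restr_mkPt h, restr_restr subset_rfl]
          simp only [mkPt_y h.inj]
          exact (hQ _ hq).1 _) (by rwa [hp]) (by rwa [hp, hζ])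
  rw [dAt_aeval, e1, e2, dAt_mul, hf z hz, zero_mul, add_zero, eval_X] at h4
  exact (mul_eq_zero.1 h4).resolve_left hi₀

theorem finrank_tan (h : IsPSub P A δ b y) {z : Pt} (hz : z ∈ P.pts) :
    finrank ℂ (P.Tan z) = finrank ℂ (X.Tan (restr X.B z)) + finrank ℂ (A.L (restr X.B z)) := by
  obtain ⟨hx, hw, -, -⟩ := (h.mem z).1 hz
  obtain ⟨r, Q, hr, hQ⟩ := A.alg _ hx
  let ρ : Pt →ₗ[ℂ] Pt :=
    { toFun := restr X.B
      map_add' := fun a b => by funext v; by_cases h : v.1 ∈ X.B <;> simp [restr, h]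
      map_smul' := fun c a => by funext v; by_cases h : v.1 ∈ X.B <;> simp [restr, h] }
  let dd := dP (restr X.B z) Q ((eval (restr X.B z) r)⁻¹ • fun i => z (y i))
  let Φ : P.Tan z →ₗ[ℂ] X.Tan (restr X.B z) × A.L (restr X.B z) := LinearMap.prod
    ((ρ ∘ₗ (P.Tan z).subtype).codRestrict _ fun ξ => ((mem_tan h hz).1 ξ.2).1)
    (((LinearMap.funLeft ℂ ℂ y - dd ∘ₗ ρ) ∘ₗ (P.Tan z).subtype).codRestrict _ fun ξ =>
      (cond_iff hQ hx hr hw ((mem_tan h hz).1 ξ.2).1 _).1 ((mem_tan h hz).1 ξ.2).2.2)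
  rw [← finrank_prod]
  refine (LinearEquiv.ofBijective Φ ⟨(injective_iff_map_eq_zero _).2 fun ξ hξ => ?_,
    fun ⟨⟨ζ, hζ⟩, u, hu⟩ => ?_⟩).finrank_eq
  · have h1 : restr X.B ξ = 0 := congrArg (fun t => (t.1 : Pt)) hξ
    have h2 : (fun i => ξ.1 (y i)) - dd (restr X.B ξ) = 0 := congrArg (fun t => (t.2 : A.ι → ℂ)) hξ
    rw [h1, map_zero, sub_zero] at h2
    refine Subtype.ext (funext fun v => ?_)
    by_contra hc
    rcases ((mem_tan h hz).1 ξ.2).2.1 v hc with h3 | ⟨i, rfl⟩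
    · exact hc (by simpa [restr, h3] using congrFun h1 v)
    · exact hc (congrFun h2 i)
  · have h1 : restr X.B (mkPt y ζ (u + dd ζ)) = ζ := (restr_mkPt h _ _).trans (restr_tan hζ)
    have h2 : (fun i => mkPt y ζ (u + dd ζ) (y i)) = u + dd ζ := funext fun i => mkPt_y h.inj _ _ i
    refine ⟨⟨mkPt y ζ (u + dd ζ), (mem_tan h hz).2 ⟨by rwa [h1], ?_, ?_⟩⟩,
      Prod.ext (Subtype.ext h1) (Subtype.ext ?_)⟩
    · rw [← restr_tan hζ]; exact supp_mkPt _ _
    · refine (cond_iff hQ hx hr hw (by rwa [h1]) _).2 ?_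
      rw [h1, h2, add_sub_cancel_right]; exact hu
    · change (fun i => mkPt y ζ (u + dd ζ) (y i)) - dd (restr X.B (mkPt y ζ (u + dd ζ))) = u
      rw [h1, h2, add_sub_cancel_right]

theorem ldim_le (h : IsPSub P A δ b y) {z : Pt} (hz : z ∈ P.pts) :
    P.ldim z ≤ X.ldim (restr X.B z) + finrank ℂ (A.L (restr X.B z)) := by
  refine (Spc.ldim_le_fibre h.proj hz).trans (add_le_add_right ?_ _)
  have hs : ∀ r ∈ {r : R | ∃ v : Var, v.1 ∈ X.B ∧ r = MvPolynomial.X v - C (z v)},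
      eval z r = 0 := by rintro _ ⟨v, -, rfl⟩; simp
  refine (Jac.hq_le_tan ((Jac.finJ_I P).mono le_sup_left)
    (sup_le (Jac.I_le_mx hz) (Ideal.span_le.2 hs))).trans (Nat.cast_le.2 ?_)
  rw [Jac.TanI_sup]
  have h0 : ∀ ξ ∈ TanI P.I z ⊓ TanI (Ideal.span
      {r : R | ∃ v : Var, v.1 ∈ X.B ∧ r = MvPolynomial.X v - C (z v)}) z, restr X.B ξ = 0 := by
    intro ξ hξ; funext v
    by_cases hv : v.1 ∈ X.B
    · simpa [restr, hv, Jac.dAt_sub] using (Jac.mem_TanI_span hs).1 hξ.2 _ ⟨v, hv, rfl⟩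
    · simp [restr, hv]
  refine LinearMap.finrank_le_finrank_of_injective (f := (LinearMap.funLeft ℂ ℂ y ∘ₗ
    Submodule.subtype _).codRestrict _ fun ξ => ?_) ((injective_iff_map_eq_zero _).2 fun ξ hξ => ?_)
  · rw [← perp_perp (A.L _)]
    intro a0 ha0
    obtain ⟨a, rfl, ha⟩ := A.alg.cogen _ ((h.mem z).1 hz).1 a0 ha0
    have h1 := ((mem_tan h hz).1 ξ.2.1).2.2 a ha
    have h2 : ∀ r, dAt (restr X.B z) 0 r = 0 := fun r => (Jac.dL _ r).map_zero
    rw [h0 _ ξ.2] at h1
    simpa [h2, mul_comm, LinearMap.funLeft_apply] using h1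
  · refine Subtype.ext (funext fun v => ?_)
    by_contra hc
    rcases ((mem_tan h hz).1 ξ.2.1).2.1 v hc with h3 | ⟨i, rfl⟩
    · exact hc (by simpa [restr, h3] using congrFun (h0 _ ξ.2) v)
    · exact hc (congrFun (congrArg Subtype.val hξ) i)

/-- local equations of a bundle: as many covectors as the corank -/
lemma exists_eqs (A : Bun X) {x : Pt} (hx : x ∈ X.pts) : ∃ (m : ℕ) (a : Fin m → A.ι → R) (g : R),
    m + finrank ℂ (A.L x) = Fintype.card A.ι ∧ (∀ k, A.IsCov (a k)) ∧ eval x g ≠ 0 ∧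
      ∀ x' ∈ X.pts, eval x' g ≠ 0 → ∀ v : A.ι → ℂ,
        (∀ k, ∑ i, eval x' (a k i) * v i = 0) → v ∈ A.L x' := by
  let e := finBasis ℂ (perp (A.L x))
  choose a ha1 ha2 using fun k => A.alg.cogen x hx (e k) (e k).2
  obtain ⟨g₁, hg₁, h1⟩ := (gen_span (X := X) a).usc x hx
  obtain ⟨g₂, hg₂, h2⟩ := A.alg.lc x hx
  refine ⟨_, a, g₁ * g₂, finrank_perp _, ha2, by rw [map_mul]; exact mul_ne_zero hg₁ hg₂,
    fun x' hx' hg v hv => ?_⟩
  rw [map_mul] at hg
  have h3 := h1 x' hx' (left_ne_zero_of_mul hg)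
  have h4 := h2 x' hx' (right_ne_zero_of_mul hg)
  have h5 : Submodule.span ℂ (Set.range fun k i => eval x (a k i)) = perp (A.L x) := by
    rw [show (fun k i => eval x (a k i)) = fun k => (e k : A.ι → ℂ) from funext ha1]
    have := congrArg (Submodule.map (perp (A.L x)).subtype) e.span_eq
    rwa [Submodule.map_span, ← Set.range_comp, Submodule.map_subtype_top] at this
  have h6 : Submodule.span ℂ (Set.range fun k i => eval x' (a k i)) = perp (A.L x') := by
    refine Submodule.eq_of_le_of_finrank_le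
      (Submodule.span_le.2 (by rintro _ ⟨k, rfl⟩; exact ha2 k x' hx')) ?_
    have h7 := finrank_perp (A.L x)
    have h8 := finrank_perp (A.L x')
    have h9 := congrArg (fun U : Submodule ℂ (A.ι → ℂ) => finrank ℂ U) h5
    beta_reduce at h3 h4 h9
    omega
  rw [← perp_perp (A.L x'), ← h6]
  intro c hc
  refine Submodule.span_induction (p := fun c _ => ∑ i, v i * c i = 0) ?_ (by simp) ?_ ?_ hc
  · rintro _ ⟨k, rfl⟩; simpa only [mul_comm] using hv k
  · intro c c' _ _ k1 k2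
    simp only [Pi.add_apply, mul_add, Finset.sum_add_distrib, k1, k2, add_zero]
  · intro t c _ k1
    simp only [Pi.smul_apply, smul_eq_mul, mul_left_comm _ t, ← Finset.mul_sum, k1, mul_zero]

theorem le_ldim (h : IsPSub P A δ b y) {z : Pt} (hz : z ∈ P.pts) :
    X.ldim (restr X.B z) + finrank ℂ (A.L (restr X.B z)) ≤ P.ldim z := by
  obtain ⟨hx, -, -, -⟩ := (h.mem z).1 hz
  let e := (Fintype.equivFin A.ι).symm
  obtain ⟨J, hfin, hJ, hd⟩ := exists_aff X (y ∘ e) (h.inj.comp e.injective)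
    fun i => y_notMem h (e i)
  rw [e.surjective.range_comp] at hJ
  obtain ⟨m, a, g, hm, ha, hg, heq⟩ := exists_eqs A hx
  have hJP : J ≤ P.I := fun f hf p hp =>
    (hJ p).2 ⟨fun r hr => hr _ ((h.mem p).1 hp).1, ((h.mem p).1 hp).2.2.2⟩ hf
  have hJz : J ≤ mx z := hJP.trans (Jac.I_le_mx hz)
  have := hfin.noeth
  have h1 := Jac.hq_le_sup_add hJz (fun k => lin X y (a k)) fun k => lin_mem_I h (ha k) z hz
  have h2 := Jac.ldim_eq_hq (J := J ⊔ Ideal.span (Set.range fun k => lin X y (a k)))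
    (hfin.mono le_sup_left) hz (Jac.sup_span_le hJP fun k => lin_mem_I h (ha k))
    (g := kill X.B g) (by rwa [eval_kill]) fun p hp hg' hle => by
      obtain ⟨k1, k2⟩ := (hJ p).1 (le_sup_left.trans hle)
      have k3 : restr X.B p ∈ X.pts := X.closed _
        ((rel_restr subset_rfl).2 fun c hc => hp c (h.proj.sub hc)) k1
      refine (h.mem p).2 ⟨k3, heq _ k3 (by rwa [eval_kill] at hg') _ fun k => ?_, ?_, k2⟩
      · rw [← eval_lin]
        exact hle (Ideal.mem_sup_right (Ideal.subset_span ⟨k, rfl⟩))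
      · obtain ⟨v, hv, hv'⟩ := hp b (by rw [h.B]; exact Finset.mem_insert_self _ _)
        rcases k2 v hv' with k4 | ⟨i, rfl⟩
        · exact absurd (hv ▸ k4) h.new
        · exact fun e => hv' (congrFun e i)
  have h3 := (hd z hJz).trans h1
  rw [← h2, ← hm, Nat.cast_add, add_comm (m : ℕ∞), ← add_assoc] at h3
  exact (ENat.add_le_add_iff_right (ENat.natCast_ne_top m)).1 h3

theorem conn (h : IsPSub P A δ b y) (hX : X.Conn) (hA : ∀ x ∈ X.pts, A.L x ≠ ⊥) : P.Conn := by
  refine Spc.conn_of_fibres h.proj hX fun x hx => ⟨?_, fun Z₁ Z₂ h₁ h₂ hc hd p hp q hq e1 e2 => ?_⟩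
  · obtain ⟨v, hv, h0⟩ := (Submodule.ne_bot_iff _).1 (hA x hx)
    obtain ⟨z, hz, e, -⟩ := h.exists_pt hx hv h0
    exact ⟨z, hz, e⟩
  obtain ⟨-, p1, p2, p3⟩ := (h.mem p).1 (h₁.2 hp)
  obtain ⟨-, q1, -, q3⟩ := (h.mem q).1 (h₂.2 hq)
  obtain ⟨r₁, hr₁, k1⟩ := Spc.exists_notMem (Z := Z₁) (by rw [h₁.1, ← h₂.1]; exact Z₂.rel q hq)
    fun k => Set.disjoint_left.1 hd k hq
  obtain ⟨r₂, hr₂, k2⟩ := Spc.exists_notMem (Z := Z₂) (by rw [h₂.1, ← h₁.1]; exact Z₁.rel p hp)
    fun k => Set.disjoint_left.1 hd hp k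
  obtain ⟨i, hi⟩ := Function.ne_iff.1 p2
  have h1 : lineA p (q - p) (MvPolynomial.X (y i) * r₁ * r₂) = 0 := lineA_eq_zero fun t => by
    rw [map_mul, map_mul, eval_X]
    by_cases h0 : (p + t • (q - p)) (y i) = 0
    · rw [h0, zero_mul, zero_mul]
    have h2 : restr X.B (p + t • (q - p)) = x := by
      funext v
      have k3 := congrFun e1 v
      have k4 := congrFun e2 v
      by_cases hv : v.1 ∈ X.B
      · simp only [restr, hv, if_true] at k3 k4 ⊢
        simp [k3, k4]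
      · simp only [restr, hv, if_false] at k3 ⊢
        exact k3
    have h3 : p + t • (q - p) ∈ P.pts := by
      refine (h.mem _).2 ⟨h2 ▸ hx, ?_, fun e => h0 (congrFun e i), fun v hv => ?_⟩
      · rw [h2]
        rw [e1] at p1
        rw [e2] at q1
        exact add_mem p1 (Submodule.smul_mem _ t (sub_mem q1 p1))
      · by_cases k3 : p v = 0
        · exact q3 v fun k4 => hv (by simp [k3, k4])
        · exact p3 v k3
    rcases hc h3 with k3 | k3
    · rw [hr₁ _ k3, mul_zero, zero_mul]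
    · rw [hr₂ _ k3, mul_zero]
  rw [map_mul, map_mul, mul_eq_zero, mul_eq_zero] at h1
  rcases h1 with (h1 | h1) | h1
  · have := eval_lineA p (q - p) 0 (MvPolynomial.X (y i))
    rw [h1] at this
    exact hi (by simpa using this.symm)
  · have := eval_lineA p (q - p) 1 r₁
    rw [h1] at this
    exact k1 (by simpa using this.symm)
  · have := eval_lineA p (q - p) 0 r₂
    rw [h1] at this
    exact k2 (by simpa using this.symm)

end Crest.Agent.N265.TanAux
end
end

-- ▼ part N265/K/Tan2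
section

/-! # Task K8, auxiliary file (helper60): Hartogs for line bundles -/

set_option autoImplicit false
noncomputable section
open MvPolynomial Module

namespace Crest.Agent.N265.TanAux
open Bun
variable {X Z : Spc} {n : ℕ}

/-- the complement of `Z` is dense -/
lemma dense (hX : X.Sm n) (hZ : Z.Sub X) (hc : ∀ z ∈ Z.pts, Z.ldim z + 2 ≤ n) {r : R}
    (h : ∀ y ∈ X.pts, y ∉ Z.pts → eval y r = 0) : r ∈ X.I := by
  intro x hx
  by_contra h0
  have h1 : ∀ y ∈ X.pts, eval y r ≠ 0 → y ∈ Z.pts := fun y hy hr => by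
    by_contra hn; exact hr (h y hy hn)
  have h2 := (Spc.ldim_local hZ (h1 x hx h0) h0 h1).1
  have h3 := hc x (h1 x hx h0)
  rw [h2, (hX x hx).2] at h3
  have h4 : n + 2 ≤ n := by exact_mod_cast h3
  omega

lemma minor {ι : Type} {U : Submodule ℂ (ι → ℂ)} [Module.Finite ℂ U] (h : finrank ℂ U ≤ 1)
    {v w : ι → ℂ} (hv : v ∈ U) (hw : w ∈ U) (k l : ι) : v k * w l = w k * v l := by
  obtain ⟨u, hu⟩ := finrank_le_one_iff.1 h
  obtain ⟨c, hc⟩ := hu ⟨v, hv⟩
  obtain ⟨d, hd⟩ := hu ⟨w, hw⟩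
  obtain rfl : c • (u : ι → ℂ) = v := congrArg Subtype.val hc
  obtain rfl : d • (u : ι → ℂ) = w := congrArg Subtype.val hd
  simp only [Pi.smul_apply, smul_eq_mul]; ring

lemma eval_mulVec {ι κ : Type} [Fintype ι] (x : Pt) (f : Matrix κ ι R) (s : ι → R) (k : κ) :
    eval x (f.mulVec s k) = mev x f (fun i => eval x (s i)) k := by
  simp only [mev_apply, Matrix.mulVec, dotProduct, map_sum, map_mul]

/-- cancellation of a locally non-zero function -/
lemma cancel (hX : X.Sm n) {x : Pt} (hx : x ∈ X.pts) {ψ c : R}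
    (hψ : ∀ r : R, eval x r ≠ 0 → r * ψ ∉ X.I) (h : c * ψ ∈ X.I) :
    ∃ r : R, eval x r ≠ 0 ∧ r * c ∈ X.I := by
  obtain ⟨r, hr, h1 | h1⟩ := (hX.smAt hx).domain hx h
  · exact ⟨r, hr, h1⟩
  · exact absurd h1 (hψ r hr)

lemma cancel' (hX : X.Sm n) {x : Pt} (hx : x ∈ X.pts) {ψ c : R}
    (hψ : ∀ r : R, eval x r ≠ 0 → r * ψ ∉ X.I) (h : c * ψ ∈ X.I) : eval x c = 0 := by
  obtain ⟨r, hr, h1⟩ := cancel hX hx hψ h
  have := h1 x hx
  rw [map_mul] at this
  exact (mul_eq_zero.1 this).resolve_left hr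

variable {κ : Type} [Fintype κ]

/-- off `Z` the image of a non-vanishing section does not vanish -/
lemma ne_of_sec {B : Bun X} (hB : B.Rk 1) (g : Matrix κ B.ι R) {β : B.ι → R} (hβ : B.IsSec β)
    {j : B.ι} {y : Pt} (hy : y ∈ X.pts) (h : (B.L y).map (mev y g) ≠ ⊥) (h0 : eval y (β j) ≠ 0) :
    ∃ k, eval y (g.mulVec β k) ≠ 0 := by
  by_contra hc
  push Not at hc
  refine h ((Submodule.eq_bot_iff _).2 ?_)
  rintro _ ⟨v, hv, rfl⟩
  have h1 : eval y (β j) • v = v j • fun i => eval y (β i) := by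
    funext i
    simpa [mul_comm] using minor (hB y hy).le (hβ y hy) hv j i
  have h2 : mev y g (fun i => eval y (β i)) = 0 := funext fun k => by
    rw [← eval_mulVec]; exact hc k
  have h3 := congrArg (mev y g) h1
  rw [map_smul, map_smul, h2, smul_zero] at h3
  exact (smul_eq_zero.1 h3).resolve_left h0

lemma loc_ne (hX : X.Sm n) (hZ : Z.Sub X) (hc : ∀ z ∈ Z.pts, Z.ldim z + 2 ≤ n) {B : Bun X}
    (hB : B.Rk 1) (g : Matrix κ B.ι R)
    (h : ∀ y ∈ X.pts, y ∉ Z.pts → (B.L y).map (mev y g) ≠ ⊥) {β : B.ι → R} (hβ : B.IsSec β)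
    {x : Pt} (hx : x ∈ X.pts) {j : B.ι} (h0 : eval x (β j) ≠ 0) :
    ∃ k, ∀ r : R, eval x r ≠ 0 → r * g.mulVec β k ∉ X.I := by
  by_contra hcon
  push Not at hcon
  choose r hr hr' using hcon
  have h1 := dense hX hZ hc (r := β j * ∏ k, r k) fun y hy hn => by
    by_contra h2
    rw [map_mul, map_prod] at h2
    obtain ⟨k, hk⟩ := ne_of_sec hB g hβ hy (h y hy hn) (left_ne_zero_of_mul h2)
    have h3 := hr' k y hy
    rw [map_mul] at h3
    exact mul_ne_zero (Finset.prod_ne_zero_iff.1 (right_ne_zero_of_mul h2) k (Finset.mem_univ _))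
      hk h3
  have h2 := h1 x hx
  rw [map_mul, map_prod] at h2
  exact mul_ne_zero h0 (Finset.prod_ne_zero_iff.2 fun k _ => hr k) h2

/-- one half of the extension -/
lemma half (hX : X.Sm n) (hZ : Z.Sub X) (hc : ∀ z ∈ Z.pts, Z.ldim z + 2 ≤ n) {φ ψ : κ → R} {u : R}
    (hm : ∀ k l, ψ k * φ l - φ k * ψ l ∈ X.I)
    (hu : ∀ y ∈ X.pts, y ∉ Z.pts → eval y u ≠ 0 → ∃ k, eval y (ψ k) ≠ 0) {x : Pt}
    (hx : x ∈ X.pts) (hux : eval x u ≠ 0) {k₀ : κ}
    (hk : ∀ r : R, eval x r ≠ 0 → r * ψ k₀ ∉ X.I) :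
    ∃ r a : R, eval x r ≠ 0 ∧ ∀ l, r * φ l - a * ψ l ∈ X.I := by
  classical
  obtain ⟨r, a, hr, h1⟩ := Spc.hartogs hX hZ hc hx (f := φ k₀) hux hk fun y hy hn hy' => by
    obtain ⟨k, hk⟩ := hu y hy hn hy'
    exact ⟨ψ k, φ k, hk, hm k k₀⟩
  have h2 : ∀ l, ∃ ρ : R, eval x ρ ≠ 0 ∧ ρ * (r * φ l - a * ψ l) ∈ X.I := fun l =>
    cancel hX hx hk (by
      convert X.I.add_mem (X.I.mul_mem_left r (hm k₀ l)) (X.I.mul_mem_right (ψ l) h1) using 1
      ring)
  choose ρ hρ hρ' using h2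
  refine ⟨(∏ l, ρ l) * r, (∏ l, ρ l) * a, ?_, fun l => ?_⟩
  · rw [map_mul, map_prod]
    exact mul_ne_zero (Finset.prod_ne_zero_iff.2 fun l _ => hρ l) hr
  · rw [← Finset.prod_erase_mul _ _ (Finset.mem_univ l)]
    convert X.I.mul_mem_left (∏ k ∈ Finset.univ.erase l, ρ k) (hρ' l) using 1
    ring

variable {A B : Bun X}

/-- pairs of sections with the same image -/
def Pair (f : Matrix κ A.ι R) (g : Matrix κ B.ι R) (s : A.ι ⊕ B.ι → R) : Prop :=
  ∀ y ∈ X.pts, (fun i => eval y (s (.inl i))) ∈ A.L y ∧ (fun i => eval y (s (.inr i))) ∈ B.L y ∧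
    mev y f (fun i => eval y (s (.inl i))) = mev y g fun i => eval y (s (.inr i))

/-- values of the pairs -/
def Gam (f : Matrix κ A.ι R) (g : Matrix κ B.ι R) (x : Pt) : Submodule ℂ (A.ι ⊕ B.ι → ℂ) where
  carrier := {v | ∃ s, Pair f g s ∧ (fun i => eval x (s i)) = v}
  add_mem' := by
    rintro _ _ ⟨s, hs, rfl⟩ ⟨t, ht, rfl⟩
    refine ⟨s + t, fun y hy => ?_, by funext i; simp⟩
    obtain ⟨h1, h2, h3⟩ := hs y hy
    obtain ⟨k1, k2, k3⟩ := ht y hy
    simp only [Pi.add_apply, map_add]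
    refine ⟨add_mem h1 k1, add_mem h2 k2, ?_⟩
    exact (map_add _ _ _).trans ((congrArg₂ (· + ·) h3 k3).trans (map_add _ _ _).symm)
  zero_mem' := ⟨0, fun y _ => by
    simp only [Pi.zero_apply, map_zero]
    exact ⟨zero_mem _, zero_mem _, (map_zero _).trans (map_zero _).symm⟩, by funext i; simp⟩
  smul_mem' := by
    rintro c _ ⟨s, hs, rfl⟩
    refine ⟨fun i => C c * s i, fun y hy => ?_, by funext i; simp⟩
    obtain ⟨h1, h2, h3⟩ := hs y hy
    simp only [map_mul, eval_C]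
    refine ⟨Submodule.smul_mem _ c h1, Submodule.smul_mem _ c h2, ?_⟩
    exact (map_smul _ c _).trans ((congrArg (c • ·) h3).trans (map_smul _ c _).symm)

omit [Fintype κ] in
lemma gen_Gam (f : Matrix κ A.ι R) (g : Matrix κ B.ι R) : Gen X (Gam f g) := by
  rintro x _ _ ⟨s, hs, rfl⟩
  exact ⟨s, rfl, fun y _ => ⟨s, hs, rfl⟩⟩

omit [Fintype κ] in
lemma pair_iff {e : κ → D} {f : Matrix κ A.ι R} {g : Matrix κ B.ι R} (hf : MHmg A.deg e f)
    (hg : MHmg B.deg e g) {s t : A.ι ⊕ B.ι → R}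
    (h : ∀ y i, eval (gpt y) (t i) = chi (Sum.elim A.deg B.deg i) * eval y (s i)) :
    Pair f g s ↔ Pair f g t := by
  have key : ∀ y ∈ X.pts, ((fun i => eval y (s (.inl i))) ∈ A.L y ∧
      (fun i => eval y (s (.inr i))) ∈ B.L y ∧
      mev y f (fun i => eval y (s (.inl i))) = mev y g fun i => eval y (s (.inr i))) ↔
      ((fun i => eval (gpt y) (t (.inl i))) ∈ A.L (gpt y) ∧
      (fun i => eval (gpt y) (t (.inr i))) ∈ B.L (gpt y) ∧
      mev (gpt y) f (fun i => eval (gpt y) (t (.inl i))) =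
        mev (gpt y) g fun i => eval (gpt y) (t (.inr i))) := by
    intro y hy
    simp only [h, Sum.elim_inl, Sum.elim_inr]
    rw [mev_gpt hf, mev_gpt hg, ← A.eqv y hy, ← B.eqv y hy]
    refine and_congr_right fun _ => and_congr_right fun _ => ⟨fun e => by rw [e], fun e => ?_⟩
    exact funext fun j => mul_left_cancel₀ (chi_ne _) (congrFun e j)
  refine ⟨fun hs y hy => ?_, fun ht y hy => (key y hy).2 (ht _ (X.inv y hy))⟩
  obtain ⟨y, rfl⟩ := gpt_surj y
  exact (key y (X.mem_of_gpt hy)).1 (hs y (X.mem_of_gpt hy))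

omit [Fintype κ] in
lemma eqv_Gam {e : κ → D} {f : Matrix κ A.ι R} {g : Matrix κ B.ι R} (hf : MHmg A.deg e f)
    (hg : MHmg B.deg e g) : IsEqv X (Sum.elim A.deg B.deg) (Gam f g) := by
  intro x _ v
  constructor
  · rintro ⟨s, hs, rfl⟩
    have h : ∀ y i, eval (gpt y) (C (chi (Sum.elim A.deg B.deg i)) * Jac.gamInv (s i)) =
        chi (Sum.elim A.deg B.deg i) * eval y (s i) := fun y i => by
      rw [map_mul, eval_C, ← eval_gam, Jac.gam_gamInv]
    exact ⟨_, (pair_iff hf hg h).1 hs, funext (h x)⟩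
  · rintro ⟨t, ht, e⟩
    have h : ∀ y i, eval (gpt y) (t i) = chi (Sum.elim A.deg B.deg i) *
        eval y (C (chi (Sum.elim A.deg B.deg i))⁻¹ * gam (t i)) := fun y i => by
      rw [map_mul, eval_C, eval_gam, mul_inv_cancel_left₀ (chi_ne _)]
    refine ⟨_, (pair_iff hf hg h).2 ht, funext fun i => ?_⟩
    exact mul_left_cancel₀ (chi_ne _) ((h x i).symm.trans (congrFun e i))

lemma exists_sec (hA : A.Rk 1) {x : Pt} (hx : x ∈ X.pts) :
    ∃ (α : A.ι → R) (i : A.ι), A.IsSec α ∧ eval x (α i) ≠ 0 := by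
  have h1 : A.L x ≠ ⊥ := fun e => by have := hA x hx; rw [e] at this; simp at this
  obtain ⟨v, hv, h0⟩ := (Submodule.ne_bot_iff _).1 h1
  obtain ⟨α, rfl, hα⟩ := A.alg.gen x hx v hv
  obtain ⟨i, hi⟩ := Function.ne_iff.1 h0
  exact ⟨α, i, hα, hi⟩

/-- a pair with both components non-zero -/
lemma exists_pair (hX : X.Sm n) (hZ : Z.Sub X) (hc : ∀ z ∈ Z.pts, Z.ldim z + 2 ≤ n)
    (hA : A.Rk 1) (hB : B.Rk 1) (f : Matrix κ A.ι R) (g : Matrix κ B.ι R)
    (h : ∀ x ∈ X.pts, x ∉ Z.pts → (A.L x).map (mev x f) ≠ ⊥ ∧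
      (A.L x).map (mev x f) = (B.L x).map (mev x g)) {x : Pt} (hx : x ∈ X.pts) :
    ∃ s i j, Pair f g s ∧ eval x (s (.inl i)) ≠ 0 ∧ eval x (s (.inr j)) ≠ 0 := by
  obtain ⟨α, i, hα, hi⟩ := exists_sec hA hx
  obtain ⟨β, j, hβ, hj⟩ := exists_sec hB hx
  have hA' : ∀ y ∈ X.pts, y ∉ Z.pts → (A.L y).map (mev y f) ≠ ⊥ := fun y h1 h2 => (h y h1 h2).1
  have hB' : ∀ y ∈ X.pts, y ∉ Z.pts → (B.L y).map (mev y g) ≠ ⊥ := fun y h1 h2 =>
    (h y h1 h2).2 ▸ (h y h1 h2).1
  have hm : ∀ k l, g.mulVec β k * f.mulVec α l - f.mulVec α k * g.mulVec β l ∈ X.I :=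
    fun k l => dense hX hZ hc fun y hy hn => by
      simp only [map_sub, map_mul, eval_mulVec]
      exact sub_eq_zero.2 (minor (U := (B.L y).map (mev y g))
        ((Submodule.finrank_map_le _ _).trans (hB y hy).le) ⟨_, hβ y hy, rfl⟩
        ((h y hy hn).2 ▸ ⟨_, hα y hy, rfl⟩) k l)
  obtain ⟨k₁, hk₁⟩ := loc_ne hX hZ hc hB g hB' hβ hx hj
  obtain ⟨k₂, hk₂⟩ := loc_ne hX hZ hc hA f hA' hα hx hi
  obtain ⟨r, a, hr, h1⟩ := half hX hZ hc hm
    (fun y hy hn hu => ne_of_sec hB g hβ hy (hB' y hy hn) hu) hx hj hk₁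
  obtain ⟨r', a', hr', h2⟩ := half hX hZ hc (φ := g.mulVec β) (ψ := f.mulVec α)
    (fun k l => by rw [← neg_mem_iff, neg_sub]; exact hm k l)
    (fun y hy hn hu => ne_of_sec hA f hα hy (hA' y hy hn) hu) hx hi hk₂
  have h3 : eval x (r * r' - a * a') = 0 := cancel' hX hx hk₁ (by
    convert X.I.add_mem (X.I.mul_mem_left r (h2 k₁)) (X.I.mul_mem_left a' (h1 k₁)) using 1
    ring)
  have ha : eval x a ≠ 0 := fun e => by
    rw [map_sub, map_mul, map_mul, e, zero_mul, sub_zero] at h3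
    exact mul_ne_zero hr hr' h3
  refine ⟨Sum.elim (fun i => r * α i) fun j => a * β j, i, j, fun y hy => ?_, ?_, ?_⟩
  · simp only [Sum.elim_inl, Sum.elim_inr, map_mul]
    refine ⟨Submodule.smul_mem _ (eval y r) (hα y hy), Submodule.smul_mem _ (eval y a) (hβ y hy),
      (map_smul _ (eval y r) _).trans (Eq.trans ?_ (map_smul _ (eval y a) _).symm)⟩
    funext l
    have := h1 l y hy
    rw [map_sub, map_mul, map_mul, eval_mulVec, eval_mulVec, sub_eq_zero] at this
    exact this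
  · simpa using ⟨hr, hi⟩
  · simpa using ⟨ha, hj⟩

omit [Fintype κ] in
lemma map_eq_of_rk (hA : A.Rk 1) {x : Pt} (hx : x ∈ X.pts) {U : Submodule ℂ (A.ι → ℂ)}
    (h : U ≤ A.L x) {v : A.ι → ℂ} (hv : v ∈ U) (h0 : v ≠ 0) : U = A.L x := by
  refine Submodule.eq_of_le_of_finrank_le h ?_
  rw [hA x hx]
  exact Submodule.one_le_finrank_iff.2 fun e => h0 (by rwa [e, Submodule.mem_bot] at hv)

theorem kl_hartogs (hX : X.Sm n) (hZ : Z.Sub X) (hc : ∀ z ∈ Z.pts, Z.ldim z + 2 ≤ n)
    (hA : A.Rk 1) (hB : B.Rk 1) (e : κ → D)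
    (f : Matrix κ A.ι R) (g : Matrix κ B.ι R) (hf : MHmg A.deg e f) (hg : MHmg B.deg e g)
    (h : ∀ x ∈ X.pts, x ∉ Z.pts → (A.L x).map (mev x f) ≠ ⊥ ∧
      (A.L x).map (mev x f) = (B.L x).map (mev x g)) : A.kl = B.kl := by
  obtain ⟨m, d, Φ, hd, hΦ, hr⟩ := (gen_Gam f g).exists_hmg (eqv_Gam hf hg)
    (by rintro (i | i); exacts [A.hdeg i, B.hdeg i])
  refine sub_left_inj.1 (kl_corr (A' := Bun.zero X) (B' := Bun.zero X) (Γ := triv X d hd)
    (fun _ i => i.elim) (fun _ i => i.elim) (Φ.submatrix Sum.inl id) (Φ.submatrix Sum.inr id)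
    (fun _ i => i.elim) (fun _ i => i.elim) (fun i j => hΦ (.inl i) j) (fun i j => hΦ (.inr i) j)
    fun x hx => ?_)
  have : Subsingleton ((Bun.zero X).ι → ℂ) := ⟨fun a b => funext fun i => i.elim⟩
  have hb : (Bun.zero X).L x = ⊥ := Subsingleton.elim _ _
  have hv : ∀ v, ∃ s, Pair f g s ∧ (fun i => eval x (s i)) = mev x Φ v := fun v =>
    (hr x hx).le ⟨v, rfl⟩
  obtain ⟨s, i, j, hs, hi, hj⟩ := exists_pair hX hZ hc hA hB f g h hx
  obtain ⟨v₀, hv₀⟩ := (hr x hx).ge ⟨s, hs, rfl⟩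
  simp only [hb, bot_inf_eq, Submodule.map_bot, bot_le, sup_bot_eq, Submodule.mem_bot, true_and]
  refine ⟨map_eq_of_rk hA hx ?_ ⟨v₀, trivial, rfl⟩ fun k => hi ?_,
    map_eq_of_rk hB hx ?_ ⟨v₀, trivial, rfl⟩ fun k => hj ?_, fun v _ => ?_⟩
  · rintro _ ⟨v, -, rfl⟩
    obtain ⟨t, ht, k⟩ := hv v
    change (fun i => mev x Φ v (.inl i)) ∈ _
    rw [← k]; exact (ht x hx).1
  · exact (congrFun hv₀ (.inl i)).symm.trans (congrFun k i)
  · rintro _ ⟨v, -, rfl⟩
    obtain ⟨t, ht, k⟩ := hv v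
    change (fun i => mev x Φ v (.inr i)) ∈ _
    rw [← k]; exact (ht x hx).2.1
  · exact (congrFun hv₀ (.inr j)).symm.trans (congrFun k j)
  obtain ⟨t, ht, k⟩ := hv v
  change (fun i => mev x Φ v (.inl i)) = 0 ↔ (fun i => mev x Φ v (.inr i)) = 0
  rw [← k]
  obtain ⟨k₀, hk₀⟩ := loc_ne hX hZ hc hA f (fun y h1 h2 => (h y h1 h2).1)
    (fun y hy => (hs y hy).1) hx hi
  have h1 : eval x (s (.inr j) * t (.inl i) - s (.inl i) * t (.inr j)) = 0 :=
    cancel' hX hx hk₀ fun y hy => by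
      obtain ⟨s1, s2, s3⟩ := hs y hy
      obtain ⟨t1, t2, t3⟩ := ht y hy
      have a1 : eval y (s (.inl i)) • (fun l => eval y (t (.inl l))) =
          eval y (t (.inl i)) • fun l => eval y (s (.inl l)) :=
        funext fun l => minor (hA y hy).le s1 t1 i l
      have a2 : eval y (s (.inr j)) • (fun l => eval y (t (.inr l))) =
          eval y (t (.inr j)) • fun l => eval y (s (.inr l)) :=
        funext fun l => minor (hB y hy).le s2 t2 j l
      have b1 := congrFun (congrArg (mev y f) a1) k₀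
      have b2 := congrFun (congrArg (mev y g) a2) k₀
      rw [map_smul, map_smul] at b1 b2
      rw [← s3, ← t3] at b2
      simp only [Pi.smul_apply, smul_eq_mul] at b1 b2
      rw [map_mul, map_sub, map_mul, map_mul, eval_mulVec]
      linear_combination eval y (s (.inl i)) * b2 - eval y (s (.inr j)) * b1
  rw [map_sub, map_mul, map_mul, sub_eq_zero] at h1
  have h2 : ∀ l, eval x (s (.inl i)) * eval x (t (.inl l)) =
      eval x (t (.inl i)) * eval x (s (.inl l)) := minor (hA x hx).le (hs x hx).1 (ht x hx).1 i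
  have h3 : ∀ l, eval x (s (.inr j)) * eval x (t (.inr l)) =
      eval x (t (.inr j)) * eval x (s (.inr l)) :=
    minor (hB x hx).le (hs x hx).2.1 (ht x hx).2.1 j
  constructor
  · intro h4
    have h5 : eval x (t (.inl i)) = 0 := congrFun h4 i
    rw [h5, mul_zero] at h1
    have h6 := (mul_eq_zero.1 h1.symm).resolve_left hi
    funext l
    have h7 := h3 l
    rw [h6, zero_mul] at h7
    exact (mul_eq_zero.1 h7).resolve_left hj
  · intro h4
    have h5 : eval x (t (.inr j)) = 0 := congrFun h4 j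
    rw [h5, mul_zero] at h1
    have h6 := (mul_eq_zero.1 h1).resolve_left hj
    funext l
    have h7 := h2 l
    rw [h6, zero_mul] at h7
    exact (mul_eq_zero.1 h7).resolve_left hi

end Crest.Agent.N265.TanAux
end
end

-- ▼ part N265/K/Tan

/-! # Task K8: tangent bundles, geometry of projective bundles, Hartogs for line bundles -/

set_option autoImplicit false
noncomputable section
open MvPolynomial Module

namespace Crest.Agent.N265
open Bun
variable {X Y Z P : Spc}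

/-- extension by zero of a vector on the variables `V` -/
def extV (V : Finset Var) : (V → ℂ) →ₗ[ℂ] Pt where
  toFun u v := if h : v ∈ V then u ⟨v, h⟩ else 0
  map_add' := by intro a b; funext v; by_cases h : v ∈ V <;> simp [h]
  map_smul' := by intro c a; funext v; by_cases h : v ∈ V <;> simp [h]
/-- `V` contains all variables of `X` -/
def Spc.Vars (X : Spc) (V : Finset Var) : Prop :=
  (∀ v ∈ V, v.1 ∈ X.B) ∧ ∀ x ∈ X.pts, ∀ v ∉ V, x v = 0
lemma extV_gpt (V : Finset Var) (u : V → ℂ) :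
    extV V (fun i => chi (vdeg i.1) * u i) = gpt (extV V u) := by
  funext v; by_cases h : v ∈ V <;> simp [extV, gpt, h]
lemma Spc.Vars.tan_le {V : Finset Var} (hV : X.Vars V) (x : Pt) :
    X.Tan x ≤ LinearMap.range (extV V) := fun ξ hξ =>
  ⟨_, Jac.ext0_restrict fun v hv => by
    simpa using hξ (MvPolynomial.X v) fun z hz => by rw [eval_X]; exact hV.2 z hz v hv⟩
lemma Spc.Vars.finrank_comap {V : Finset Var} (hV : X.Vars V) (x : Pt) :
    finrank ℂ ((X.Tan x).comap (extV V)) = finrank ℂ (X.Tan x) := by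
  rw [(Submodule.equivMapOfInjective (extV V) (Jac.ext0_inj V) _).finrank_eq,
    Submodule.map_comap_eq_of_le (hV.tan_le x)]
lemma dAt_extV (V : Finset Var) (r : R) (x : Pt) (u : V → ℂ) :
    dAt x (extV V u) r = ∑ v : V, eval x (pderiv v.1 r) * u v := by
  classical
  induction r using MvPolynomial.induction_on with
  | C c => simp
  | add p q hp hq => simp only [dAt_add, hp, hq, map_add, add_mul, Finset.sum_add_distrib]
  | mul_X p w hp =>
    have h1 : extV V u w = ∑ v : V, eval x (pderiv v.1 (MvPolynomial.X w : R)) * u v := by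
      by_cases h : w ∈ V
      · rw [Finset.sum_eq_single ⟨w, h⟩ (fun v _ hv => by
          rw [pderiv_X_of_ne fun e => hv (Subtype.ext e.symm)]; simp) (by simp)]
        simp [extV, h]
      · rw [Finset.sum_eq_zero fun v _ => by
          rw [pderiv_X_of_ne fun e : w = v.1 => h (e ▸ v.2)]; simp]
        simp [extV, h]
    rw [dAt_mul, hp, dAt_X, h1, Finset.mul_sum, Finset.mul_sum, ← Finset.sum_add_distrib]
    refine Finset.sum_congr rfl fun v _ => ?_
    rw [pderiv_mul, map_add, map_mul, map_mul]; ring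
lemma cogen_tan (X : Spc) (V : Finset Var) : Cogen X fun x => (X.Tan x).comap (extV V) := by
  have h1 : ∀ r : {r : R // r ∈ X.I}, Cogen X fun x => (⊥ : Submodule ℂ (Unit → ℂ)).comap
      (mev x (Matrix.of fun (_ : Unit) (v : V) => pderiv v.1 r.1)) := fun r =>
    (isAlg_const (X := X) (⊥ : Submodule ℂ (Unit → ℂ))).cogen.comap _
  refine (Cogen.iInf h1).congr fun x _ => ?_
  have h2 : ∀ (r : R) (u : V → ℂ) (i : Unit),
      mev x (Matrix.of fun (_ : Unit) (v : V) => pderiv v.1 r) u i = dAt x (extV V u) r := by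
    intro r u i
    rw [mev_apply, dAt_extV]
    simp only [Matrix.of_apply]
  ext u
  simp only [Submodule.mem_iInf, Submodule.mem_comap, Submodule.mem_bot]
  refine ⟨fun h r hr => ?_, fun h r => funext fun i => ?_⟩
  · rw [← h2 r u (), h ⟨r, hr⟩]; rfl
  · rw [h2]; exact h r.1 r.2
/-- the tangent bundle of the cone over a smooth space -/
def Bun.tan (X : Spc) (V : Finset Var) (hV : X.Vars V) (n : ℕ) (h : X.Sm n) : Bun X where
  ι := V
  deg := fun v => vdeg v.1
  hdeg := fun v => vdeg_mem (hV.1 v.1 v.2)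
  L := fun x => (X.Tan x).comap (extV V)
  eqv := fun x _ u => by
    rw [Submodule.mem_comap, Submodule.mem_comap, extV_gpt, TanAux.gpt_mem_tan]
  alg := (cogen_tan X V).isAlg_of_rk fun x hx => (hV.finrank_comap x).trans (h x hx).1
lemma Bun.rk_tan (V hV n h) : (Bun.tan X V hV n h).Rk n :=
  fun x hx => (hV.finrank_comap x).trans (h x hx).1
lemma Bun.map_tan (V hV n h) {x : Pt} (hx : x ∈ X.pts) :
    ((Bun.tan X V hV n h).L x).map (extV V) = X.Tan x := by
  have _ := hx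
  exact Submodule.map_comap_eq_of_le (hV.tan_le x)
/-- Jacobian matrix -/
def jac (V : Finset Var) {ι : Type} (s : ι → R) : Matrix ι V R := fun i v => pderiv v.1 (s i)
lemma mev_jac (V : Finset Var) {ι : Type} (s : ι → R) (x : Pt) (u : V → ℂ) (i : ι) :
    mev x (jac V s) u i = dAt x (extV V u) (s i) := by
  rw [mev_apply, dAt_extV]; rfl
lemma pderiv_gam (v : Var) (r : R) : pderiv v (gam r) = C (chi (vdeg v)) * gam (pderiv v r) := by
  classical
  induction r using MvPolynomial.induction_on with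
  | C c => simp
  | add p q hp hq => simp only [map_add, hp, hq, mul_add]
  | mul_X p w hp =>
    simp only [map_mul, pderiv_mul, hp, gam_X, map_add, pderiv_C, zero_mul, zero_add]
    by_cases h : w = v
    · subst h; simp only [pderiv_X_self, map_one]; ring
    · simp only [pderiv_X_of_ne h, map_zero]; ring
lemma Hmg.pderiv {d : D} {r : R} (h : Hmg d r) (v : Var) : Hmg (d - vdeg v) (pderiv v r) := by
  have h1 := pderiv_gam v r
  rw [show gam r = _ from h, pderiv_C_mul] at h1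
  unfold Hmg
  rw [chi_sub, mul_comm (chi d), map_mul, mul_assoc, h1, ← mul_assoc, ← map_mul,
    inv_mul_cancel₀ (chi_ne _), map_one, one_mul]
lemma mhmg_jac (V : Finset Var) {ι : Type} {deg : ι → D} {s : ι → R} (h : ∀ i, Hmg (deg i) (s i)) :
    MHmg (fun v : V => vdeg v.1) deg (jac V s) := fun i v => (h i).pderiv v.1
/-- derivative of a section at a zero lies in the bundle -/
lemma Bun.dAt_mem (A : Bun X) {s : A.ι → R} (hs : A.IsSec s) {x ξ : Pt} (hx : x ∈ X.pts)
    (h0 : ∀ i, eval x (s i) = 0) (hξ : ξ ∈ X.Tan x) : (fun i => dAt x ξ (s i)) ∈ A.L x := by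
  rw [← perp_perp (A.L x)]
  intro a0 ha0
  obtain ⟨a, rfl, ha⟩ := A.alg.cogen x hx a0 ha0
  have h1 := hξ (∑ i, a i * s i) fun y hy => by
    simpa only [map_sum, map_mul] using ha y hy _ (hs y hy)
  rw [Jac.dAt_sum] at h1
  simp only [dAt_mul, h0, zero_mul, add_zero] at h1
  simpa only [mul_comm] using h1

section PB
variable {A : Bun X} {δ : D} {b : ℕ} {y : A.ι → Var}
/-- tangent vectors of a projective bundle, in terms of the covectors killing `A` -/
theorem IsPSub.mem_tan (h : IsPSub P A δ b y) {z : Pt} (hz : z ∈ P.pts) {ξ : Pt} :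
    ξ ∈ P.Tan z ↔ restr X.B ξ ∈ X.Tan (restr X.B z) ∧
      (∀ v, ξ v ≠ 0 → v.1 ∈ X.B ∨ v ∈ Set.range y) ∧ ∀ a : A.ι → R, A.IsCov a →
        ∑ i, (dAt (restr X.B z) (restr X.B ξ) (a i) * z (y i) +
          eval (restr X.B z) (a i) * ξ (y i)) = 0 := TanAux.mem_tan h hz
theorem IsPSub.finrank_tan (h : IsPSub P A δ b y) {z : Pt} (hz : z ∈ P.pts) :
    finrank ℂ (P.Tan z) = finrank ℂ (X.Tan (restr X.B z)) + finrank ℂ (A.L (restr X.B z)) :=
  TanAux.finrank_tan h hz
theorem IsPSub.ldim (h : IsPSub P A δ b y) {z : Pt} (hz : z ∈ P.pts) :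
    P.ldim z = X.ldim (restr X.B z) + finrank ℂ (A.L (restr X.B z)) :=
  le_antisymm (TanAux.ldim_le h hz) (TanAux.le_ldim h hz)
theorem IsPSub.sm (h : IsPSub P A δ b y) {n r : ℕ} (hX : X.Sm n) (hr : A.Rk r) : P.Sm (n + r) :=
  fun z hz => by
    have hx := h.proj.map z hz
    rw [h.finrank_tan hz, h.ldim hz, (hX _ hx).1, (hX _ hx).2, hr _ hx]
    exact ⟨rfl, by push_cast; rfl⟩
theorem IsPSub.conn (h : IsPSub P A δ b y) (hX : X.Conn) (hA : ∀ x ∈ X.pts, A.L x ≠ ⊥) : P.Conn :=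
  TanAux.conn h hX hA
end PB

/-- two line bundles with maps to a common ambient bundle that have the same non-zero image
outside codimension two are isomorphic -/
theorem kl_hartogs {n : ℕ} (hX : X.Sm n) (hZ : Z.Sub X) (hc : ∀ z ∈ Z.pts, Z.ldim z + 2 ≤ n)
    {A B : Bun X} (hA : A.Rk 1) (hB : B.Rk 1) {κ : Type} [Fintype κ] (e : κ → D)
    (f : Matrix κ A.ι R) (g : Matrix κ B.ι R) (hf : MHmg A.deg e f) (hg : MHmg B.deg e g)
    (h : ∀ x ∈ X.pts, x ∉ Z.pts → (A.L x).map (mev x f) ≠ ⊥ ∧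
      (A.L x).map (mev x f) = (B.L x).map (mev x g)) : A.kl = B.kl :=
  TanAux.kl_hartogs hX hZ hc hA hB e f g hf hg h

end Crest.Agent.N265
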