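import Crest.Agent.N265.K.Ring
import Crest.Agent.N265.K.Act

-- ▼ part N265/K/Pol0
section

/-! # Helpers for task K5: directional derivatives, Cauchy–Binet, selection matrices -/

set_option autoImplicit false
noncomputable section
open MvPolynomial Module

namespace Crest.Agent.N265
open Bun
variable {X Y : Spc}

namespace Pol
section der
variable {ι S : Type} [Fintype ι] [CommRing S]

/-- derivative in the direction `s` -/
def dS (s : ι → S) (p : MvPolynomial ι S) : MvPolynomial ι S := ∑ i, C (s i) * pderiv i p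

lemma dS_C (s : ι → S) (c : S) : dS s (C c) = 0 := by simp [dS]
lemma dS_add (s : ι → S) (p q : MvPolynomial ι S) : dS s (p + q) = dS s p + dS s q := by
  simp [dS, mul_add, Finset.sum_add_distrib]
lemma dS_sub (s : ι → S) (p q : MvPolynomial ι S) : dS s (p - q) = dS s p - dS s q := by
  simp [dS, mul_sub, Finset.sum_sub_distrib]
lemma dS_mul (s : ι → S) (p q : MvPolynomial ι S) : dS s (p * q) = dS s p * q + p * dS s q := by
  simp only [dS, Derivation.leibniz, smul_eq_mul, Finset.sum_mul, Finset.mul_sum,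
    ← Finset.sum_add_distrib]
  exact Finset.sum_congr rfl fun i _ => by ring
lemma dS_X (s : ι → S) (i : ι) : dS s (MvPolynomial.X i) = C (s i) := by
  classical
  simp [dS, pderiv_X, Pi.single_apply]
lemma dS_sum {α : Type} (s : ι → S) (t : Finset α) (p : α → MvPolynomial ι S) :
    dS s (∑ a ∈ t, p a) = ∑ a ∈ t, dS s (p a) := by
  simp only [dS, map_sum, Finset.mul_sum]
  exact Finset.sum_comm
lemma dS_C_mul (s : ι → S) (c : S) (p : MvPolynomial ι S) : dS s (C c * p) = C c * dS s p := by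
  rw [dS_mul, dS_C]; ring
lemma dS_pow (s : ι → S) (p : MvPolynomial ι S) (m : ℕ) :
    dS s (p ^ (m + 1)) = (m + 1 : ℕ) * p ^ m * dS s p := by
  induction m with
  | zero => simp
  | succ m ih => rw [pow_succ, dS_mul, ih]; push_cast; ring
lemma dS_hmg (s : ι → S) {p : MvPolynomial ι S} {k : ℕ} (h : p.IsHomogeneous (k + 1)) :
    (dS s p).IsHomogeneous k :=
  IsHomogeneous.sum _ _ _ fun i _ => by simpa using (h.pderiv (i := i)).C_mul (s i)
lemma map_dS {T : Type} [CommRing T] (φ : S →+* T) (s : ι → S) (p : MvPolynomial ι S) :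
    map φ (dS s p) = dS (fun i => φ (s i)) (map φ p) := by
  simp [dS, pderiv_map]

/-- restriction to a line -/
def onLine (v s : ι → ℂ) : MvPolynomial ι ℂ →ₐ[ℂ] Polynomial ℂ :=
  aeval fun i => Polynomial.C (v i) + Polynomial.X * Polynomial.C (s i)
omit [Fintype ι] in
lemma eval_onLine (v s : ι → ℂ) (t : ℂ) (p : MvPolynomial ι ℂ) :
    (onLine v s p).eval t = eval (v + t • s) p := by
  induction p using MvPolynomial.induction_on with
  | C c => simp [onLine]
  | add p q hp hq => simp [hp, hq]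
  | mul_X p i hp => rw [map_mul, map_mul, Polynomial.eval_mul, hp]; simp [onLine, mul_comm t]
lemma derivative_onLine (v s : ι → ℂ) (p : MvPolynomial ι ℂ) :
    Polynomial.derivative (onLine v s p) = onLine v s (dS s p) := by
  induction p using MvPolynomial.induction_on with
  | C c => simp [onLine, dS_C]
  | add p q hp hq => simp [hp, hq, dS_add]
  | mul_X p i hp =>
    rw [map_mul, Polynomial.derivative_mul, hp, dS_mul, dS_X, map_add, map_mul, map_mul]
    simp [onLine]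
lemma dS_eq_zero {v s : ι → ℂ} {p : MvPolynomial ι ℂ}
    (h : ∀ t : ℂ, eval (v + t • s) p = eval v p) : eval v (dS s p) = 0 := by
  have h1 : onLine v s p = Polynomial.C (eval v p) :=
    Polynomial.funext fun t => by rw [eval_onLine, h]; simp
  have h2 := derivative_onLine v s p
  rw [h1, Polynomial.derivative_C] at h2
  have h3 := eval_onLine v s 0 (dS s p)
  rw [← h2] at h3
  simpa using h3.symm
lemma const_of_dS {v s : ι → ℂ} {p : MvPolynomial ι ℂ}
    (h : ∀ t : ℂ, eval (v + t • s) (dS s p) = 0) (t : ℂ) : eval (v + t • s) p = eval v p := by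
  have h1 : Polynomial.derivative (onLine v s p) = 0 := by
    rw [derivative_onLine]
    exact Polynomial.funext fun t => by rw [eval_onLine, h]; simp
  have h2 := Polynomial.eq_C_of_derivative_eq_zero h1
  have h3 := eval_onLine v s 0 p
  rw [← eval_onLine, h2]
  rw [h2] at h3
  simpa using h3
/-- antiderivatives of forms -/
lemma exists_antider {s : ι → ℂ} (hs : s ≠ 0) {k : ℕ} {q : MvPolynomial ι ℂ}
    (hq : q.IsHomogeneous k) : ∃ p : MvPolynomial ι ℂ, p.IsHomogeneous (k + 1) ∧ dS s p = q := by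
  obtain ⟨i, hi⟩ : ∃ i, s i ≠ 0 := Function.ne_iff.1 hs
  set l : MvPolynomial ι ℂ := C (s i)⁻¹ * MvPolynomial.X i with hl
  have hl1 : l.IsHomogeneous 1 := isHomogeneous_C_mul_X _ _
  have hdl : dS s l = 1 := by rw [hl, dS_C_mul, dS_X, ← C_mul, inv_mul_cancel₀ hi, C_1]
  have key : ∀ (m : ℕ) (q p' : MvPolynomial ι ℂ), dS s p' = l ^ (m + 1) * dS s q →
      dS s (C ((m + 1 : ℕ) : ℂ)⁻¹ * (l ^ (m + 1) * q - p')) = l ^ m * q := by
    intro m q p' h
    have hm : (C ((m + 1 : ℕ) : ℂ)⁻¹ : MvPolynomial ι ℂ) * ((m + 1 : ℕ) : MvPolynomial ι ℂ) = 1 := by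
      rw [← map_natCast (C : ℂ →+* MvPolynomial ι ℂ), ← C_mul, inv_mul_cancel₀, C_1]
      exact Nat.cast_ne_zero.2 (Nat.succ_ne_zero m)
    rw [dS_C_mul, dS_sub, dS_mul, dS_pow, hdl, h]
    linear_combination (l ^ m * q) * hm
  suffices H : ∀ (k m : ℕ) (q : MvPolynomial ι ℂ), q.IsHomogeneous k →
      ∃ p : MvPolynomial ι ℂ, p.IsHomogeneous (m + k + 1) ∧ dS s p = l ^ m * q by
    simpa using H k 0 q hq
  intro k
  induction k with
  | zero =>
    intro m q hq
    have h0 : dS s q = 0 := by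
      rw [totalDegree_eq_zero_iff_eq_C.1 ((totalDegree_zero_iff_isHomogeneous _).2 hq), dS_C]
    refine ⟨_, ?_, key m q 0 (by rw [h0, mul_zero]; simp [dS])⟩
    refine IsHomogeneous.C_mul (IsHomogeneous.sub ?_ (isHomogeneous_zero _ _ _)) _
    simpa using (hl1.pow (m + 1)).mul hq
  | succ k ih =>
    intro m q hq
    obtain ⟨p', hp', hd⟩ := ih (m + 1) _ (dS_hmg s hq)
    refine ⟨_, ?_, key m q p' hd⟩
    refine IsHomogeneous.C_mul (IsHomogeneous.sub ?_ ?_) _
    · rw [show m + (k + 1) + 1 = 1 * (m + 1) + (k + 1) by ring]; exact (hl1.pow (m + 1)).mul hq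
    · rw [show m + (k + 1) + 1 = m + 1 + k + 1 by ring]; exact hp'
end der

/-- Cauchy–Binet in its raw multilinear form -/
lemma det_sum {ι S : Type} [Fintype ι] [CommRing S] {r : ℕ} (Φ b : Fin r → ι → S) :
    (Matrix.of fun i j => ∑ l, Φ j l * b i l).det =
      ∑ g : Fin r → ι, (∏ j, Φ j (g j)) * (Matrix.of fun i j => b i (g j)).det := by
  classical
  simp only [Matrix.det_apply', Matrix.of_apply, Finset.prod_univ_sum, Finset.mul_sum,
    Fintype.piFinset_univ]
  rw [Finset.sum_comm]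
  refine Finset.sum_congr rfl fun g _ => Finset.sum_congr rfl fun σ _ => ?_
  rw [Finset.prod_mul_distrib]; ring

section mat
variable {ι κ : Type} [Fintype ι]
/-- homogeneity can be tested on points -/
lemma mhmg_of_mev {a : ι → D} {b : κ → D} {Φ : Matrix κ ι R}
    (h : ∀ x v, mev (gpt x) Φ (fun i => chi (a i) * v i) = fun j => chi (b j) * mev x Φ v j) :
    MHmg a b Φ := by
  classical
  intro j i
  refine MvPolynomial.funext fun x => ?_
  have := congrFun (h x (Pi.single i 1)) j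
  simp only [mev_apply, Pi.single_apply, mul_ite, mul_one, mul_zero, Finset.sum_ite_eq',
    Finset.mem_univ, if_true] at this
  rw [eval_gam, map_mul, eval_C, chi_sub]
  have := chi_ne (a i)
  field_simp
  assumption
open Classical in
/-- selection matrix -/
def sel (e : κ → ι) : Matrix κ ι R := fun j i => if e j = i then 1 else 0
lemma mev_sel (e : κ → ι) (x : Pt) (v : ι → ℂ) : mev x (sel e) v = fun j => v (e j) := by
  classical
  funext j
  simp [mev_apply, sel, apply_ite]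
lemma mhmg_sel {a : ι → D} {b : κ → D} {e : κ → ι} (h : ∀ j, a (e j) = b j) : MHmg a b (sel e) :=
  mhmg_of_mev fun x v => by simp [mev_sel, h]
/-- constant matrices -/
lemma exists_const [Fintype κ] (g : (ι → ℂ) →ₗ[ℂ] (κ → ℂ)) :
    ∃ Φ : Matrix κ ι R, ∀ x v, mev x Φ v = g v := by
  classical
  refine ⟨(LinearMap.toMatrix' g).map C, fun x v => ?_⟩
  rw [← LinearMap.toMatrix'_mulVec g v]
  funext j
  simp [mev_apply, Matrix.mulVec, dotProduct]
lemma mev_one [DecidableEq ι] (x : Pt) (v : ι → ℂ) : mev x (1 : Matrix ι ι R) v = v := by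
  funext j
  simp [mev_apply, Matrix.one_apply, apply_ite]
lemma mev_sub_smul [DecidableEq ι] (x : Pt) (r : R) (S : Matrix ι ι R) (v : ι → ℂ) :
    mev x (r • (1 : Matrix ι ι R) - S) v = eval x r • v - mev x S v := by
  funext j
  simp [mev_apply, Matrix.one_apply, apply_ite, sub_mul, Finset.sum_sub_distrib]
end mat

/-- reindexing -/
lemma kl_reindex {A B : Bun X} (e : B.ι ≃ A.ι) (hd : ∀ j, A.deg (e j) = B.deg j)
    (h : ∀ x ∈ X.pts, ∀ v, v ∈ A.L x ↔ (fun j => v (e j)) ∈ B.L x) : A.kl = B.kl := by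
  refine kl_iso (sel e) (mhmg_sel hd) fun x hx => ⟨?_, ?_⟩
  · refine eq_bot_iff.2 fun v hv => ?_
    have := hv.2
    rw [SetLike.mem_coe, LinearMap.mem_ker, mev_sel] at this
    funext i
    simpa using congrFun this (e.symm i)
  · ext w
    constructor
    · rintro ⟨v, hv, rfl⟩
      rw [mev_sel]; exact (h x hx v).1 hv
    · intro hw
      refine ⟨fun i => w (e.symm i), (h x hx _).2 (by simpa using hw), ?_⟩
      rw [mev_sel]; simp

lemma eq_span_of_finrank {V : Type} [AddCommGroup V] [Module ℂ V] {U : Submodule ℂ V}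
    (h : finrank ℂ U = 1) {v : V} (hv : v ∈ U) (h0 : v ≠ 0) : U = Submodule.span ℂ {v} := by
  have : FiniteDimensional ℂ U := Module.finite_of_finrank_eq_succ h
  refine (Submodule.eq_of_le_of_finrank_eq ((Submodule.span_singleton_le_iff_mem _ _).2 hv) ?_).symm
  rw [h, finrank_span_singleton h0]

/-- a nowhere vanishing map of line bundles -/
lemma kl_iso_line {A B : Bun X} (hA : A.Rk 1) (hB : B.Rk 1) (f : Matrix B.ι A.ι R)
    (hf : MHmg A.deg B.deg f)
    (h : ∀ x ∈ X.pts, ∃ v ∈ A.L x, mev x f v ∈ B.L x ∧ mev x f v ≠ 0) : A.kl = B.kl := by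
  refine kl_iso f hf fun x hx => ?_
  obtain ⟨v, hv, hw, h0⟩ := h x hx
  have hv0 : v ≠ 0 := fun e => h0 (by rw [e, map_zero])
  rw [eq_span_of_finrank (hA x hx) hv hv0, eq_span_of_finrank (hB x hx) hw h0]
  refine ⟨eq_bot_iff.2 fun u hu => ?_, by rw [Submodule.map_span, Set.image_singleton]⟩
  obtain ⟨c, rfl⟩ := Submodule.mem_span_singleton.1 hu.1
  have := hu.2
  rw [SetLike.mem_coe, LinearMap.mem_ker, map_smul, smul_eq_zero] at this
  rcases this with h | h
  · simp [h]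
  · exact absurd h h0

/-- a linear section modulo the kernel -/
lemma exists_sec {V W : Type} [AddCommGroup V] [Module ℂ V] [AddCommGroup W] [Module ℂ W]
    (f : V →ₗ[ℂ] W) (U : Submodule ℂ V) :
    ∃ g : W →ₗ[ℂ] V, ∀ v ∈ U, g (f v) ∈ U ∧ f (g (f v)) = f v := by
  obtain ⟨g₀, hg₀⟩ := (f.domRestrict U).rangeRestrict.exists_rightInverse_of_surjective
    (LinearMap.range_rangeRestrict _)
  obtain ⟨g₁, hg₁⟩ := LinearMap.exists_extend g₀
  refine ⟨U.subtype ∘ₗ g₁, fun v hv => ⟨(g₁ _).2, ?_⟩⟩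
  have h1 := LinearMap.congr_fun hg₁ ⟨f v, ⟨v, hv⟩, rfl⟩
  have h2 := congrArg Subtype.val (LinearMap.congr_fun hg₀ ⟨f v, ⟨v, hv⟩, rfl⟩)
  simp only [LinearMap.comp_apply, Submodule.subtype_apply] at h1 h2 ⊢
  rw [h1]; exact h2
end Pol

end Crest.Agent.N265
end
end

-- ▼ part N265/K/Pol
section

/-! # Task K5: polynomial functions on a bundle, `Sd A k = [Sym^k A^∨]` -/

set_option autoImplicit false
noncomputable section
open MvPolynomial Module

namespace Crest.Agent.N265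
open Bun Pol
variable {X Y : Spc}

/-- monomials of degree `k` -/
def Mon (ι : Type) (k : ℕ) : Type := {α : ι →₀ ℕ // α.degree = k}
instance (ι : Type) [Fintype ι] (k : ℕ) : Fintype (Mon ι k) := by
  classical
  exact Fintype.subtype (Finset.finsuppAntidiag Finset.univ k) fun α => by
    simp [Finsupp.degree_eq_sum]
instance (ι : Type) (k : ℕ) : DecidableEq (Mon ι k) := Classical.decEq _
/-- value of the form with coefficients `c` -/
def polEv {ι : Type} [Fintype ι] {k : ℕ} (c : Mon ι k → ℂ) (v : ι → ℂ) : ℂ :=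
  ∑ α, c α * ∏ i, v i ^ α.1 i
/-- forms of degree `k` vanishing on `U` -/
def vanOn {ι : Type} [Fintype ι] (k : ℕ) (U : Submodule ℂ (ι → ℂ)) : Submodule ℂ (Mon ι k → ℂ) where
  carrier := {c | ∀ v ∈ U, polEv c v = 0}
  add_mem' := by
    intro a b ha hb v hv
    have h1 := ha v hv; have h2 := hb v hv
    simp only [polEv, Pi.add_apply, add_mul, Finset.sum_add_distrib] at *
    rw [h1, h2, add_zero]
  zero_mem' := by intro v _; simp [polEv]
  smul_mem' := by
    intro c a ha v hv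
    have h1 := ha v hv
    simp only [polEv, Pi.smul_apply, smul_eq_mul, mul_assoc, ← Finset.mul_sum] at *
    rw [h1, mul_zero]
lemma mem_vanOn {ι : Type} [Fintype ι] {k : ℕ} {U : Submodule ℂ (ι → ℂ)} {c : Mon ι k → ℂ} :
    c ∈ vanOn k U ↔ ∀ v ∈ U, polEv c v = 0 := Iff.rfl
/-- degree of the coefficient of a monomial -/
def monDeg {ι : Type} [Fintype ι] (deg : ι → D) (k : ℕ) (α : Mon ι k) : D := -∑ i, α.1 i • deg i

section aux
variable {ι κ : Type} [Fintype ι] [Fintype κ] {k l : ℕ}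
lemma Mon.sum_eq (α : Mon ι k) : ∑ i, α.1 i = k := by rw [← Finsupp.degree_eq_sum]; exact α.2
lemma polEv_sub (c c' : Mon ι k → ℂ) (v : ι → ℂ) : polEv (c - c') v = polEv c v - polEv c' v := by
  simp [polEv, sub_mul, Finset.sum_sub_distrib]
lemma polEv_smul' (a : ℂ) (c : Mon ι k → ℂ) (v : ι → ℂ) : polEv (a • c) v = a * polEv c v := by
  simp [polEv, mul_assoc, Finset.mul_sum]
/-- the polynomial with given coefficients -/
def Pol.toP (c : Mon ι k → ℂ) : MvPolynomial ι ℂ := ∑ α, C (c α) * monomial α.1 1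
lemma Pol.eval_toP (c : Mon ι k → ℂ) (v : ι → ℂ) : eval v (toP c) = polEv c v := by
  simp [toP, polEv, eval_monomial, Finsupp.prod_fintype]
lemma Pol.sum_coeff_eq {S : Type} [CommRing S] {p : MvPolynomial ι S} (h : p.IsHomogeneous k) :
    ∑ α : Mon ι k, C (coeff α.1 p) * monomial α.1 1 = p := by
  classical
  ext β
  simp only [C_mul_monomial, mul_one, coeff_sum, coeff_monomial]
  by_cases hβ : β.degree = k
  · obtain ⟨γ, rfl⟩ : ∃ γ : Mon ι k, γ.1 = β := ⟨⟨β, hβ⟩, rfl⟩
    rw [Finset.sum_eq_single γ]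
    · simp
    · intro α _ hα
      rw [if_neg fun e => hα (Subtype.ext e)]
    · simp
  · rw [h.coeff_eq_zero hβ]
    exact Finset.sum_eq_zero fun α _ => if_neg fun e : α.1 = β => hβ (e ▸ α.2)
lemma Pol.coeff_toP (c : Mon ι k → ℂ) (β : Mon ι k) : coeff β.1 (toP c) = c β := by
  classical
  simp only [toP, C_mul_monomial, mul_one, coeff_sum, coeff_monomial]
  rw [Finset.sum_eq_single β]
  · simp
  · intro α _ hα
    rw [if_neg fun e => hα (Subtype.ext e)]
  · simp
lemma Pol.toP_hmg (c : Mon ι k → ℂ) : (toP c).IsHomogeneous k :=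
  IsHomogeneous.sum _ _ _ fun α _ => (isHomogeneous_monomial _ α.2).C_mul _
lemma Pol.exists_toP {p : MvPolynomial ι ℂ} (h : p.IsHomogeneous k) : ∃ c : Mon ι k → ℂ, toP c = p :=
  ⟨fun α => coeff α.1 p, sum_coeff_eq h⟩
/-- a polynomial family of linear maps of forms is given by a matrix -/
lemma Pol.exists_mat (T : Mon κ k → MvPolynomial ι R) (hT : ∀ α, (T α).IsHomogeneous l) :
    ∃ S : Matrix (Mon ι l) (Mon κ k) R, ∀ x c,
      toP (mev x S c) = ∑ α, C (c α) * map (eval x) (T α) := by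
  refine ⟨fun β α => coeff β.1 (T α), fun x c => ?_⟩
  have : (∑ α, C (c α) * map (eval x) (T α)).IsHomogeneous l :=
    IsHomogeneous.sum _ _ _ fun α _ => ((hT α).map _).C_mul _
  rw [← sum_coeff_eq this, toP]
  refine Finset.sum_congr rfl fun β _ => ?_
  erw [mev_apply]
  simp [coeff_sum, coeff_map, mul_comm]
lemma Pol.chi_nsmul (n : ℕ) (d : D) : chi (n • d) = chi d ^ n := by
  induction n with
  | zero => simp
  | succ n ih => rw [succ_nsmul, chi_add, ih, pow_succ]
lemma Pol.chi_sum {α : Type} (t : Finset α) (d : α → D) : chi (∑ a ∈ t, d a) = ∏ a ∈ t, chi (d a) := by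
  classical
  induction t using Finset.induction_on with
  | empty => simp
  | insert a t ha ih => rw [Finset.sum_insert ha, Finset.prod_insert ha, chi_add, ih]
lemma polEv_chi (a : ι → D) (c : Mon ι k → ℂ) (v : ι → ℂ) :
    polEv (fun α => chi (monDeg a k α) * c α) (fun i => chi (a i) * v i) = polEv c v := by
  refine Finset.sum_congr rfl fun α _ => ?_
  have : ∏ i, chi (a i) ^ α.1 i ≠ 0 := Finset.prod_ne_zero_iff.2 fun i _ => pow_ne_zero _ (chi_ne _)
  simp only [monDeg, chi_neg, chi_sum, chi_nsmul, mul_pow, Finset.prod_mul_distrib]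
  field_simp
omit [Fintype ι] in
lemma Pol.exists_chi (a : ι → D) (w : ι → ℂ) : ∃ v : ι → ℂ, w = fun i => chi (a i) * v i :=
  ⟨fun i => (chi (a i))⁻¹ * w i, funext fun i => by rw [mul_inv_cancel_left₀ (chi_ne _)]⟩
end aux

lemma polEv_inj {ι : Type} [Fintype ι] {k : ℕ} {c : Mon ι k → ℂ} (h : ∀ v, polEv c v = 0) : c = 0 := by
  have : toP c = 0 := MvPolynomial.funext fun v => by rw [eval_toP, h]; simp
  funext β
  rw [← coeff_toP c β, this]; simp
lemma polEv_ext {ι : Type} [Fintype ι] {k : ℕ} {c c' : Mon ι k → ℂ}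
    (h : ∀ v, polEv c v = polEv c' v) : c = c' :=
  sub_eq_zero.1 (polEv_inj fun v => by rw [polEv_sub, h, sub_self])
/-- substitution matrix: coefficients of `p ∘ Φ` in terms of those of `p` -/
theorem exists_subst {ι κ : Type} [Fintype ι] [Fintype κ] (k : ℕ) (Φ : Matrix κ ι R) :
    ∃ S : Matrix (Mon ι k) (Mon κ k) R, (∀ x c v, polEv (mev x S c) v = polEv c (mev x Φ v)) ∧
      (∀ a b, MHmg a b Φ → MHmg (monDeg b k) (monDeg a k) S) := by
  obtain ⟨S, hS⟩ := exists_mat (l := k) (fun α : Mon κ k =>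
    ∏ j, (∑ i, C (Φ j i) * (MvPolynomial.X i : MvPolynomial ι R)) ^ α.1 j) (fun α => by
      have := IsHomogeneous.prod Finset.univ (fun j => (∑ i, C (Φ j i) *
        (MvPolynomial.X i : MvPolynomial ι R)) ^ α.1 j) (fun j => α.1 j) fun j _ => by
          simpa using (IsHomogeneous.sum Finset.univ _ 1 fun i _ =>
            isHomogeneous_C_mul_X (Φ j i) i).pow (α.1 j)
      rwa [α.sum_eq] at this)
  have key : ∀ x c v, polEv (mev x S c) v = polEv c (mev x Φ v) := by
    intro x c v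
    rw [← eval_toP, hS]
    simp [polEv, mev_apply]
  refine ⟨S, key, fun a b h => mhmg_of_mev fun x c => polEv_ext fun w => ?_⟩
  obtain ⟨v, rfl⟩ := exists_chi a w
  rw [key, mev_gpt h, polEv_chi, polEv_chi, key]
lemma polEv_smul {ι : Type} [Fintype ι] {k : ℕ} (c : Mon ι k → ℂ) (a : ℂ) (v : ι → ℂ) :
    polEv c (a • v) = a ^ k * polEv c v := by
  simp only [polEv, Finset.mul_sum, Pi.smul_apply, smul_eq_mul, mul_pow, Finset.prod_mul_distrib,
    Finset.prod_pow_eq_pow_sum]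
  refine Finset.sum_congr rfl fun α _ => ?_
  rw [α.sum_eq]; ring
/-- composition with a linear map -/
lemma Pol.exists_comp {ι κ : Type} [Fintype ι] [Fintype κ] {k : ℕ} (c : Mon κ k → ℂ)
    (g : (ι → ℂ) →ₗ[ℂ] (κ → ℂ)) : ∃ q : Mon ι k → ℂ, ∀ w, polEv q w = polEv c (g w) := by
  obtain ⟨Φ, hΦ⟩ := exists_const g
  obtain ⟨S, hS, -⟩ := exists_subst k Φ
  exact ⟨mev 0 S c, fun w => by rw [hS, hΦ]⟩
/-- derivative matrix -/
lemma Pol.exists_derM {ι : Type} [Fintype ι] (k : ℕ) (s : ι → R) :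
    ∃ S : Matrix (Mon ι k) (Mon ι (k + 1)) R,
      (∀ x c, toP (mev x S c) = dS (fun i => eval x (s i)) (toP c)) ∧
      ∀ (a : ι → D) (d : D), (∀ i, Hmg (d + a i) (s i)) →
        MHmg (monDeg a (k + 1)) (fun α => monDeg a k α + d) S := by
  obtain ⟨S, hS⟩ := exists_mat (l := k) (fun α : Mon ι (k + 1) => dS s (monomial α.1 1))
    fun α => dS_hmg s (isHomogeneous_monomial _ α.2)
  have key : ∀ x c, toP (mev x S c) = dS (fun i => eval x (s i)) (toP c) := by
    intro x c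
    rw [hS, toP, dS_sum]
    refine Finset.sum_congr rfl fun α _ => ?_
    rw [map_dS, dS_C_mul, map_monomial, map_one]
  refine ⟨S, key, fun a d h => mhmg_of_mev fun x c => polEv_ext fun w => ?_⟩
  obtain ⟨v, rfl⟩ := exists_chi a w
  have e1 : (fun α => chi (monDeg a k α + d) * mev x S c α) =
      chi d • fun α => chi (monDeg a k α) * mev x S c α := by
    funext α; simp only [chi_add, Pi.smul_apply, smul_eq_mul]; ring
  rw [e1, polEv_smul', polEv_chi, ← eval_toP, ← eval_toP, key, key]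
  have e2 : onLine (fun i => chi (a i) * v i) (fun i => eval (gpt x) (s i))
      (toP fun α => chi (monDeg a (k + 1) α) * c α) =
      (onLine v (fun i => eval x (s i)) (toP c)).comp (Polynomial.C (chi d) * Polynomial.X) := by
    refine Polynomial.funext fun t => ?_
    rw [Polynomial.eval_comp, eval_onLine, eval_onLine, eval_toP, eval_toP, ← polEv_chi a c]
    congr 1
    funext i
    simp only [Pi.add_apply, Pi.smul_apply, smul_eq_mul, (h i).eval_gpt, chi_add,
      Polynomial.eval_mul, Polynomial.eval_C, Polynomial.eval_X]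
    ring
  have e3 := congrArg (fun q => (Polynomial.derivative q).eval 0) e2
  simp only [Polynomial.derivative_comp, derivative_onLine, Polynomial.eval_mul,
    Polynomial.eval_comp, eval_onLine] at e3
  simpa using e3
/-- forms vanishing on the bundle -/
def Bun.van (A : Bun X) (k : ℕ) : Bun X where
  ι := Mon A.ι k
  deg := monDeg A.deg k
  hdeg := fun _ => neg_mem (sum_mem fun i _ => nsmul_mem (A.hdeg i) _)
  L := fun x => vanOn k (A.L x)
  eqv := by
    intro x hx c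
    refine ⟨fun h w hw => ?_, fun h v hv => ?_⟩
    · obtain ⟨v, rfl⟩ := exists_chi A.deg w
      rw [polEv_chi]; exact h v ((A.eqv x hx v).2 hw)
    · rw [← polEv_chi A.deg]; exact h _ ((A.eqv x hx v).1 hv)
  alg := by
    intro x hx
    obtain ⟨r, P, hr, hP⟩ := A.alg x hx
    obtain ⟨S, hS, -⟩ := exists_subst k P
    refine ⟨r ^ k, r ^ k • 1 - S, by rw [map_pow]; exact pow_ne_zero _ hr, fun y hy => ⟨fun c v hv => ?_,
      fun c hc => ?_⟩⟩
    · rw [mev_sub_smul, polEv_sub, polEv_smul', hS, (hP y hy).2 v hv, polEv_smul, map_pow, sub_self]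
    · rw [mev_sub_smul, polEv_inj (c := mev y S c) fun v => by
        rw [hS]; exact hc _ ((hP y hy).1 v), sub_zero]
/-- `[Sym^k A^∨]` -/
def Sd (A : Bun X) (k : ℕ) : K X := (A.van k).amb.kl - (A.van k).kl
lemma Sd_zero (A : Bun X) : Sd A 0 = 1 := by
  have : Unique (Mon A.ι 0) :=
    ⟨⟨⟨0, map_zero _⟩⟩, fun α => Subtype.ext ((Finsupp.degree_eq_zero_iff _).1 α.2)⟩
  have h0 : ∀ α : Mon A.ι 0, α.1 = 0 := fun α => (Finsupp.degree_eq_zero_iff _).1 α.2
  rw [Sd, kl_of_bot (A := A.van 0), sub_zero, K.one_def]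
  · refine kl_reindex (Equiv.ofUnique Unit (Mon A.ι 0)) (fun j => ?_) fun x _ v => Iff.rfl
    have : ∀ α : Mon A.ι 0, monDeg A.deg 0 α = dpr X.B 0 := fun α => by simp [monDeg, h0]
    exact this _
  · refine fun x _ => eq_bot_iff.2 fun c hc => polEv_inj fun v => ?_
    have := hc 0 (zero_mem _)
    simpa [polEv, h0] using this
/-- monomials of degree one -/
def Pol.monOne (ι : Type) : ι ≃ Mon ι 1 :=
  Equiv.ofBijective (fun i => ⟨Finsupp.single i 1, Finsupp.degree_single _ _⟩) ⟨fun i j h =>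
    Finsupp.single_left_injective one_ne_zero (congrArg Subtype.val h), fun α => by
      obtain ⟨i, hi⟩ := (Finsupp.sum_eq_one_iff α.1).1 α.2
      exact ⟨i, Subtype.ext hi.symm⟩⟩
lemma Pol.monOne_val {ι : Type} (i : ι) : (monOne ι i).1 = Finsupp.single i 1 := rfl
lemma Sd_one (A : Bun X) : Sd A 1 = K.dual X A.kl := by
  have hd : ∀ j, monDeg A.deg 1 (monOne A.ι j) = -A.deg j := fun j => by
    simp [monDeg, monOne_val, Finsupp.single_apply]
  rw [Sd, K.dual_kl]
  congr 1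
  · exact kl_reindex (monOne A.ι) hd fun x _ v => Iff.rfl
  · refine kl_reindex (monOne A.ι) hd fun x _ c => forall₂_congr fun v _ => ?_
    have : ∀ c : Mon A.ι 1 → ℂ, polEv c v = ∑ i : A.ι, c (monOne A.ι i) * v i := fun c => by
      rw [polEv, ← (monOne A.ι).sum_comp]
      simp [monOne_val, Finsupp.single_apply, apply_ite]
    exact (this c).congr_left
lemma Sd_pull (h : Proj Y X) (A : Bun X) (k : ℕ) : K.pull h (Sd A k) = Sd (A.pull h) k := by
  rw [Sd, map_sub, K.pull_kl, K.pull_kl]; rfl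
lemma Sd_of_bot {A : Bun X} (h : ∀ x ∈ X.pts, A.L x = ⊥) (k : ℕ) : Sd A (k + 1) = 0 := by
  refine sub_eq_zero.2 (kl_reindex (Equiv.refl _) (fun _ => rfl) fun x hx c => ?_)
  refine ⟨fun _ v hv => ?_, fun _ => trivial⟩
  rw [h x hx] at hv
  have := polEv_smul c 0 v
  rw [show v = 0 from hv] at *
  rw [zero_smul, pow_succ, mul_zero, zero_mul] at this
  exact this
section pt
variable {ι κ : Type} [Fintype ι] [Fintype κ] {k : ℕ} {f : (ι → ℂ) →ₗ[ℂ] (κ → ℂ)}
  {U : Submodule ℂ (ι → ℂ)}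
lemma Pol.van_comap {S : (Mon κ k → ℂ) →ₗ[ℂ] (Mon ι k → ℂ)} (hS : ∀ c v, polEv (S c) v = polEv c (f v)) :
    (vanOn k U).comap S = vanOn k (U.map f) := by
  ext c
  refine ⟨fun h w hw => ?_, fun h v hv => ?_⟩
  · obtain ⟨v, hv, rfl⟩ := hw
    rw [← hS]; exact h v hv
  · rw [hS]; exact h _ ⟨v, hv, rfl⟩
lemma Pol.mem_sup_van {S : (Mon κ k → ℂ) →ₗ[ℂ] (Mon ι k → ℂ)}
    (hS : ∀ c v, polEv (S c) v = polEv c (f v)) {c : Mon ι k → ℂ}
    (hc : ∀ v ∈ U, ∀ w ∈ U ⊓ LinearMap.ker f, polEv c (v + w) = polEv c v) :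
    c ∈ (⊤ : Submodule ℂ _).map S ⊔ vanOn k U := by
  obtain ⟨g, hg⟩ := exists_sec f U
  obtain ⟨q, hq⟩ := exists_comp c g
  refine Submodule.mem_sup.2 ⟨S q, ⟨q, trivial, rfl⟩, c - S q, fun v hv => ?_, by simp⟩
  have := hc v hv (g (f v) - v) ⟨sub_mem (hg v hv).1 hv, by simp [(hg v hv).2]⟩
  rw [polEv_sub, hS, hq, ← this, add_sub_cancel, sub_self]
lemma Pol.der_pt {S : (Mon κ (k + 1) → ℂ) →ₗ[ℂ] (Mon ι (k + 1) → ℂ)}
    {T : (Mon ι (k + 1) → ℂ) →ₗ[ℂ] (Mon ι k → ℂ)} {σ : ι → ℂ}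
    (hS : ∀ c v, polEv (S c) v = polEv c (f v)) (hT : ∀ c, toP (T c) = dS σ (toP c)) (h0 : σ ≠ 0)
    (h2 : U ⊓ LinearMap.ker f = Submodule.span ℂ {σ}) :
    (⊤ : Submodule ℂ _).map S ⊔ vanOn (k + 1) U = ⊤ ⊓ (vanOn k U).comap T ∧
      (⊤ : Submodule ℂ _).map T ⊔ vanOn k U = ⊤ := by
  have hσ : σ ∈ U ⊓ LinearMap.ker f := h2 ▸ Submodule.mem_span_singleton_self σ
  have hTe : ∀ c v, polEv (T c) v = eval v (dS σ (toP c)) := fun c v => by rw [← eval_toP, hT]
  rw [top_inf_eq]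
  refine ⟨le_antisymm (sup_le ?_ fun c hc v hv => ?_) fun c hc => mem_sup_van hS ?_, ?_⟩
  · rintro _ ⟨q, -, rfl⟩ v _
    rw [hTe]
    refine dS_eq_zero fun t => ?_
    rw [eval_toP, eval_toP, hS, hS, map_add, map_smul, show f σ = 0 from hσ.2, smul_zero, add_zero]
  · rw [hTe]
    refine dS_eq_zero fun t => ?_
    rw [eval_toP, eval_toP, hc v hv, hc _ (add_mem hv (Submodule.smul_mem _ t hσ.1))]
  · intro v hv w hw
    rw [h2] at hw
    obtain ⟨t, rfl⟩ := Submodule.mem_span_singleton.1 hw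
    rw [← eval_toP, ← eval_toP, const_of_dS]
    intro u
    rw [← hTe]
    exact hc _ (add_mem hv (Submodule.smul_mem _ u hσ.1))
  · refine eq_top_iff.2 fun c _ => Submodule.mem_sup_left ?_
    obtain ⟨p, hp, hd⟩ := exists_antider h0 (toP_hmg c)
    obtain ⟨c', rfl⟩ := exists_toP hp
    exact ⟨c', trivial, polEv_ext fun v => by rw [hTe, hd, eval_toP]⟩
end pt
lemma Sd_iso {A B : Bun X} (f : Matrix B.ι A.ι R) (hf : MHmg A.deg B.deg f)
    (h : ∀ x ∈ X.pts, A.L x ⊓ LinearMap.ker (mev x f) = ⊥ ∧ (A.L x).map (mev x f) = B.L x)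
    (k : ℕ) : Sd A k = Sd B k := by
  obtain ⟨S, hS, hS'⟩ := exists_subst k f
  have := kl_sq (A := (B.van k).amb) (B := (A.van k).amb) (C := Bun.zero X) (LC := fun _ => ⊤)
    (heA := (B.van k).eqv) (haA := (B.van k).alg) (heB := (A.van k).eqv) (haB := (A.van k).alg)
    (heC := (Bun.zero X).eqv) (haC := (Bun.zero X).alg) S (fun j => j.elim) (hS' _ _ hf)
    (fun j => j.elim) fun x hx => ⟨le_top, le_top, le_top, ?_, ?_, sup_top_eq _⟩
  · exact this.trans (add_eq_left.2 (sub_self _))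
  · exact (top_inf_eq _).trans ((van_comap (hS x)).trans (congrArg _ (h x hx).2))
  · refine eq_top_iff.2 (fun c _ => ?_) |>.trans (top_inf_eq _).symm
    refine mem_sup_van (hS x) fun v _ w hw => ?_
    rw [(h x hx).1] at hw
    rw [show w = 0 from hw, add_zero]
/-- derivative along a nowhere vanishing section `s : O(-d) → A` with quotient `B` -/
theorem Sd_der {A B : Bun X} (f : Matrix B.ι A.ι R) (hf : MHmg A.deg B.deg f) {d : D}
    (hd : d ∈ DS X.B) (s : A.ι → R) (hs : ∀ i, Hmg (d + A.deg i) (s i))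
    (h : ∀ x ∈ X.pts, (fun i => eval x (s i)) ≠ 0 ∧ (A.L x).map (mev x f) = B.L x ∧
      A.L x ⊓ LinearMap.ker (mev x f) = Submodule.span ℂ {fun i => eval x (s i)}) (k : ℕ) :
    Sd A (k + 1) = Sd B (k + 1) + lbK X d * Sd A k := by
  obtain ⟨S, hS, hS'⟩ := exists_subst (k + 1) f
  obtain ⟨T, hT, hT'⟩ := exists_derM k s
  have := kl_sq (A := (B.van (k + 1)).amb) (B := (A.van (k + 1)).amb)
    (C := (A.van k).amb.twist d hd) (heA := (B.van (k + 1)).eqv) (haA := (B.van (k + 1)).alg)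
    (heB := (A.van (k + 1)).eqv) (haB := (A.van (k + 1)).alg)
    (heC := ((A.van k).twist d hd).eqv) (haC := ((A.van k).twist d hd).alg)
    S T (hS' _ _ hf) (hT' _ _ hs) fun x hx => ?_
  · rw [Sd, Sd, Sd, mul_sub, ← kl_twist _ d hd, ← kl_twist _ d hd]
    exact this
  obtain ⟨h0, h1, h2⟩ := h x hx
  have := der_pt (hS x) (hT x) h0 h2
  exact ⟨le_top, le_top, le_top, (top_inf_eq _).trans ((van_comap (hS x)).trans (congrArg _ h1)),
    this.1, this.2⟩

/-- Plücker coordinates of a family of vectors -/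
def plk {ι : Type} {r : ℕ} (v : Fin r → ι → ℂ) : (Fin r → ι) → ℂ :=
  fun e => (Matrix.of fun i j => v i (e j)).det
/-- the top exterior power of a subspace, in Plücker coordinates -/
def plkSub {ι : Type} (r : ℕ) (U : Submodule ℂ (ι → ℂ)) : Submodule ℂ ((Fin r → ι) → ℂ) :=
  Submodule.span ℂ {p | ∃ v : Fin r → ι → ℂ, (∀ i, v i ∈ U) ∧ p = plk v}
lemma plk_mem {ι : Type} {r : ℕ} {U : Submodule ℂ (ι → ℂ)} {v : Fin r → ι → ℂ} (h : ∀ i, v i ∈ U) :
    plk v ∈ plkSub r U := Submodule.subset_span ⟨v, h, rfl⟩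
lemma plk_comb {ι : Type} {r : ℕ} (b : Fin r → ι → ℂ) (M : Matrix (Fin r) (Fin r) ℂ) :
    plk (fun i => ∑ j, M i j • b j) = M.det • plk b := by
  funext e
  simp only [plk, Pi.smul_apply, smul_eq_mul, ← Matrix.det_mul]
  congr 1
  ext i j
  simp [Matrix.mul_apply]
lemma Pol.det_pair {ι : Type} [Fintype ι] {r : ℕ}
    (φ : Fin r → (ι → ℂ) →ₗ[ℂ] ℂ) : ∃ w : (Fin r → ι) → ℂ, ∀ b : Fin r → ι → ℂ,
      (Matrix.of fun i j => φ j (b i)).det = ∑ g, w g * plk b g := by
  classical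
  refine ⟨fun g => ∏ j, φ j (Pi.single (g j) 1), fun b => ?_⟩
  simp only [plk]
  rw [← det_sum (fun j l => φ j (Pi.single l 1)) b]
  congr 1
  ext i j
  rw [Matrix.of_apply, Matrix.of_apply, LinearMap.pi_apply_eq_sum_univ]
  refine Finset.sum_congr rfl fun l _ => ?_
  rw [smul_eq_mul, mul_comm]
  congr 2
  funext m
  simp [Pi.single_apply, eq_comm]
lemma Pol.exists_dual_fam {ι : Type} {r : ℕ} {b : Fin r → ι → ℂ} (h : LinearIndependent ℂ b) :
    ∃ φ : Fin r → (ι → ℂ) →ₗ[ℂ] ℂ, (Matrix.of fun i j => φ j (b i)) = 1 := by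
  obtain ⟨g, hg⟩ := (Finsupp.linearCombination ℂ b).exists_leftInverse_of_injective
    (LinearMap.ker_eq_bot.2 h)
  refine ⟨fun j => Finsupp.lapply j ∘ₗ g, ?_⟩
  ext i j
  have := LinearMap.congr_fun hg (Finsupp.single i 1)
  simp only [LinearMap.comp_apply, Finsupp.linearCombination_single, one_smul,
    LinearMap.id_apply] at this
  simp [this, Matrix.one_apply, Finsupp.single_apply]
lemma plk_ne_zero {ι : Type} [Fintype ι] {r : ℕ} {b : Fin r → ι → ℂ} (h : LinearIndependent ℂ b) :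
    plk b ≠ 0 := by
  intro h0
  obtain ⟨φ, hφ⟩ := exists_dual_fam h
  obtain ⟨w, hw⟩ := det_pair φ
  have := hw b
  simp [hφ, h0] at this
lemma Pol.exists_basis {ι : Type} [Fintype ι] {r : ℕ} {U : Submodule ℂ (ι → ℂ)} (h : finrank ℂ U = r) :
    ∃ b : Fin r → ι → ℂ, LinearIndependent ℂ b ∧ (∀ i, b i ∈ U) ∧
      (∀ v ∈ U, ∃ μ : Fin r → ℂ, ∑ j, μ j • b j = v) ∧ plkSub r U = Submodule.span ℂ {plk b} := by
  let B := Module.finBasisOfFinrankEq ℂ U h
  have h3 : ∀ v ∈ U, ∃ μ : Fin r → ℂ, ∑ j, μ j • (B j : ι → ℂ) = v := fun v hv =>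
    ⟨B.repr ⟨v, hv⟩, by
      have := congrArg U.subtype (B.sum_repr ⟨v, hv⟩)
      rw [map_sum] at this
      exact this⟩
  refine ⟨fun i => B i, B.linearIndependent.map' U.subtype (Submodule.ker_subtype U),
    fun i => (B i).2, h3, le_antisymm (Submodule.span_le.2 ?_) ?_⟩
  · rintro _ ⟨v, hv, rfl⟩
    choose M hM using fun i => h3 _ (hv i)
    rw [← funext hM]
    exact Submodule.mem_span_singleton.2 ⟨_, (plk_comb _ (Matrix.of M)).symm⟩
  · exact (Submodule.span_singleton_le_iff_mem _ _).2 (plk_mem fun i => (B i).2)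
lemma finrank_plkSub {ι : Type} [Fintype ι] {r : ℕ} {U : Submodule ℂ (ι → ℂ)}
    (h : finrank ℂ U = r) : finrank ℂ (plkSub r U) = 1 := by
  obtain ⟨b, hb, -, -, e⟩ := exists_basis h
  rw [e, finrank_span_singleton (plk_ne_zero hb)]
lemma Pol.plkSub_scale {ι : Type} {r : ℕ} {U U' : Submodule ℂ (ι → ℂ)} (a : ι → ℂ)
    (h : ∀ v ∈ U, (fun i => a i * v i) ∈ U') {p : (Fin r → ι) → ℂ} (hp : p ∈ plkSub r U) :
    (fun e => (∏ j, a (e j)) * p e) ∈ plkSub r U' := by
  induction hp using Submodule.span_induction with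
  | mem p hp =>
    obtain ⟨v, hv, rfl⟩ := hp
    convert plk_mem (v := fun i l => a l * v i l) fun i => h _ (hv i) using 1
    funext e
    exact (Matrix.det_mul_row (fun j => a (e j)) (Matrix.of fun i j => v i (e j))).symm
  | zero => convert (plkSub r U').zero_mem using 1; funext e; simp
  | add p q _ _ hp hq => convert add_mem hp hq using 1; funext e; simp [mul_add]
  | smul c p _ hp => convert Submodule.smul_mem _ c hp using 1; funext e; simp [mul_left_comm]
/-- tensor power of a matrix -/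
def Pol.tpow {ι κ : Type} (r : ℕ) (Φ : Matrix κ ι R) : Matrix (Fin r → κ) (Fin r → ι) R :=
  fun e g => ∏ j, Φ (e j) (g j)
lemma Pol.mhmg_tpow {ι κ : Type} (r : ℕ) {Φ : Matrix κ ι R} {a : ι → D} {b : κ → D} (h : MHmg a b Φ) :
    MHmg (fun g : Fin r → ι => ∑ j, a (g j)) (fun e : Fin r → κ => ∑ j, b (e j)) (tpow r Φ) := by
  intro e g
  rw [← Finset.sum_sub_distrib]
  exact Hmg.prod _ fun j _ => h _ _
lemma Pol.mev_tpow {ι κ : Type} [Fintype ι] [DecidableEq ι] {r : ℕ} (Φ : Matrix κ ι R) (x : Pt)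
    (v : Fin r → ι → ℂ) : mev x (tpow r Φ) (plk v) = plk fun i => mev x Φ (v i) := by
  funext e
  simp only [mev_apply, tpow, map_prod, plk]
  exact (det_sum (fun j l => eval x (Φ (e j) l)) v).symm
/-- determinant line bundle -/
def Bun.det (A : Bun X) (r : ℕ) (h : A.Rk r) : Bun X where
  ι := Fin r → A.ι
  deg := fun e => ∑ j, A.deg (e j)
  hdeg := fun e => sum_mem fun j _ => A.hdeg (e j)
  L := fun x => plkSub r (A.L x)
  eqv := by
    intro x hx p
    simp only [chi_sum]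
    refine ⟨plkSub_scale _ fun v hv => (A.eqv x hx v).1 hv, fun hp => ?_⟩
    convert plkSub_scale (U' := A.L x) (fun i => (chi (A.deg i))⁻¹) (fun v hv => ?_) hp using 1
    · funext e
      rw [Finset.prod_inv_distrib, inv_mul_cancel_left₀]
      exact Finset.prod_ne_zero_iff.2 fun _ _ => chi_ne _
    · refine (A.eqv x hx _).2 ?_
      simpa [mul_inv_cancel_left₀ (chi_ne _)] using hv
  alg := by
    refine Gen.isAlg_of_rk (n := 1) ?_ fun x hx => finrank_plkSub (h x hx)
    have hev : ∀ (x : Pt) (s : Fin r → A.ι → R), (fun e : Fin r → A.ι =>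
        eval x (Matrix.of fun i j => s i (e j)).det) = plk fun i l => eval x (s i l) :=
      fun x s => funext fun e => RingHom.map_det _ _
    refine (gen_span fun (s : {s : Fin r → A.ι → R // ∀ i, A.IsSec (s i)}) (e : Fin r → A.ι) =>
      (Matrix.of fun i j => s.1 i (e j)).det).congr fun x hx => ?_
    refine congrArg _ (Set.ext fun p => ⟨?_, ?_⟩)
    · rintro ⟨s, rfl⟩
      exact ⟨_, fun i => s.2 i x hx, hev x s.1⟩
    · rintro ⟨v, hv, rfl⟩
      choose s hs hs' using fun i => A.alg.gen x hx _ (hv i)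
      exact ⟨⟨s, hs'⟩, (hev x s).trans (congrArg plk (funext hs))⟩
lemma Bun.rk_det (A : Bun X) (r : ℕ) (h : A.Rk r) : (A.det r h).Rk 1 :=
  fun x hx => finrank_plkSub (h x hx)
lemma Pol.tens_mem {A B : Bun X} {x : Pt} {v w} (hv : v ∈ A.L x) (hw : w ∈ B.L x) {u}
    (hu : u = fun p : A.ι × B.ι => v p.1 * w p.2) : u ∈ (A.tens B).L x :=
  show u ∈ Submodule.span ℂ {u : A.ι × B.ι → ℂ | ∃ v ∈ A.L x, ∃ w ∈ B.L x,
    u = fun p => v p.1 * w p.2} from Submodule.subset_span ⟨v, hv, w, hw, hu⟩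
/-- the determinant is multiplicative -/
theorem kl_det_ses {A B C : Bun X} (h : SES A B C) {m n : ℕ} (hA : A.Rk m) (hC : C.Rk n)
    (hB : B.Rk (m + n)) : (B.det _ hB).kl = (A.det _ hA).kl * (C.det _ hC).kl := by
  obtain ⟨f, p, hf, hp, H⟩ := h
  let A' := B.re (fun x => (A.L x).map (mev x f)) (A.eqv.map hf)
    (A.alg.map_of_inj f fun x hx => (H x hx).1)
  have hli : ∀ x ∈ X.pts, ∃ a : Fin m → A.ι → ℂ, (∀ i, a i ∈ A.L x) ∧
      LinearIndependent ℂ fun i => mev x f (a i) := by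
    intro x hx
    obtain ⟨a, ha, ha', -, -⟩ := exists_basis (hA x hx)
    refine ⟨a, ha', ha.map (Disjoint.mono_left ?_ (disjoint_iff.2 (H x hx).1))⟩
    exact Submodule.span_le.2 (by rintro _ ⟨i, rfl⟩; exact ha' i)
  have hA' : A'.Rk m := fun x hx => by
    have := LinearMap.finrank_range_add_finrank_ker ((mev x f).domRestrict (A.L x))
    rw [LinearMap.range_domRestrict, LinearMap.ker_domRestrict, hA x hx,
      (Submodule.disjoint_iff_comap_eq_bot.1 (disjoint_iff.2 (H x hx).1)), finrank_bot] at this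
    exact this
  have e1 : (A.det _ hA).kl = (A'.det _ hA').kl := by
    refine kl_iso_line (A.rk_det _ _) (A'.rk_det _ _) (tpow m f) (mhmg_tpow m hf) fun x hx => ?_
    obtain ⟨a, ha, ha'⟩ := hli x hx
    refine ⟨plk a, plk_mem ha, ?_⟩
    erw [mev_tpow]
    exact ⟨plk_mem fun i => ⟨a i, ha i, rfl⟩, plk_ne_zero ha'⟩
  rw [e1, ← kl_tens]
  let Θ : Matrix (B.ι ⊕ C.ι) B.ι R := Sum.elim (1 : Matrix B.ι B.ι R) p
  have hΘ : MHmg B.deg (Sum.elim B.deg C.deg) Θ := by
    rintro (j | j) i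
    exacts [MHmg.one B.deg j i, hp j i]
  let ap : (Fin m → B.ι) × (Fin n → C.ι) → Fin (m + n) → B.ι ⊕ C.ι :=
    fun e => Fin.append (fun j => Sum.inl (e.1 j)) fun j => Sum.inr (e.2 j)
  refine kl_iso_line (B.rk_det _ _) (by simpa using (A'.rk_det _ hA').tens (C.rk_det _ hC))
    (fun e g => tpow (m + n) Θ (ap e) g) (fun e g => ?_) fun x hx => ?_
  · have := mhmg_tpow (m + n) hΘ (ap e) g
    simp only [Fin.sum_univ_add (f := fun j => Sum.elim B.deg C.deg (ap e j)), ap, Fin.append_left,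
      Fin.append_right] at this
    exact this
  obtain ⟨a, ha, ha'⟩ := hli x hx
  obtain ⟨c, hc, hc', -, -⟩ := exists_basis (hC x hx)
  have hl : ∀ i, ∃ b ∈ B.L x, mev x p b = c i := fun i => by
    have := hc' i
    rw [← (H x hx).2.2] at this
    exact this
  choose b hb hb' using hl
  have hfa : ∀ i, mev x f (a i) ∈ B.L x ⊓ LinearMap.ker (mev x p) := fun i =>
    (H x hx).2.1 ▸ ⟨a i, ha i, rfl⟩
  let v : Fin (m + n) → B.ι → ℂ := Fin.append (fun i => mev x f (a i)) b
  have hv : mev (κ := (Fin m → B.ι) × (Fin n → C.ι)) x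
      (fun e g => tpow (m + n) Θ (ap e) g) (plk v) =
      fun e : (Fin m → B.ι) × (Fin n → C.ι) => plk (fun i => mev x f (a i)) e.1 * plk c e.2 := by
    funext e
    have h1 : ∀ w j, mev x Θ w (Sum.inl j) = w j := fun w j => congrFun (Pol.mev_one x w) j
    have h2 : ∀ w j, mev x Θ w (Sum.inr j) = mev x p w j := fun w j => rfl
    refine (congrFun (mev_tpow Θ x v) (ap e)).trans ?_
    simp only [plk]
    rw [← Matrix.det_submatrix_equiv_self finSumFinEquiv,
      ← Matrix.det_fromBlocks_zero₁₂ _ (Matrix.of fun i j => b i (e.1 j))]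
    congr 1
    ext (i | i) (j | j)
    · simp [ap, v, h1]
    · simp [ap, v, h2, show mev x p (mev x f (a i)) = 0 from (hfa i).2]
    · simp [ap, v, h1]
    · simp [ap, v, h2, hb']
  refine ⟨plk v, plk_mem fun i => ?_, ?_⟩
  · refine Fin.addCases (fun i => ?_) (fun i => ?_) i
    · simpa [v] using (hfa i).1
    · simpa [v] using hb i
  · refine ⟨tens_mem (A := A'.det _ hA') (B := C.det _ hC) (plk_mem fun i => ⟨a i, ha i, rfl⟩)
      (plk_mem hc') hv, fun h0 => ?_⟩
    replace h0 := hv.symm.trans h0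
    obtain ⟨e₁, h₁⟩ := Function.ne_iff.1 (plk_ne_zero ha')
    obtain ⟨e₂, h₂⟩ := Function.ne_iff.1 (plk_ne_zero hc)
    exact mul_ne_zero h₁ h₂ (congrFun h0 (e₁, e₂))
theorem kl_det_one {A : Bun X} (h : A.Rk 1) : (A.det 1 h).kl = A.kl := by
  refine (kl_iso_line h (A.rk_det _ _) (sel fun e : Fin 1 → A.ι => e 0)
    (mhmg_sel fun e => (Fin.sum_univ_one fun j => A.deg (e j)).symm) fun x hx => ?_).symm
  obtain ⟨a, ha, ha', -, -⟩ := exists_basis (h x hx)
  have : mev x (sel fun e : Fin 1 → A.ι => e 0) (a 0) = plk a := by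
    rw [mev_sel]; funext e; simp [plk]
  refine ⟨a 0, ha' 0, ?_⟩
  erw [this]
  exact ⟨plk_mem ha', plk_ne_zero ha⟩
theorem kl_det_zero {A : Bun X} (h : A.Rk 0) : (A.det 0 h).kl = 1 := by
  refine (kl_iso_line (rk_line 0) (A.rk_det _ _) (sel fun _ : Fin 0 → A.ι => ())
    (mhmg_sel fun e => ?_) fun x hx => ?_).symm
  · exact (map_zero (dpr X.B)).trans (Fin.sum_univ_zero fun j => A.deg (e j)).symm
  obtain ⟨a, ha, ha', -, -⟩ := exists_basis (h x hx)
  have : mev x (sel fun _ : Fin 0 → A.ι => ()) (fun _ => 1) = plk a := by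
    rw [mev_sel]; funext e; simp [plk]
  refine ⟨fun _ => 1, trivial, ?_⟩
  erw [this]
  exact ⟨plk_mem ha', plk_ne_zero ha⟩
lemma kl_det_pull (p : Proj Y X) (A : Bun X) (r : ℕ) (h : A.Rk r) :
    K.pull p (A.det r h).kl = ((A.pull p).det r (h.pull p)).kl := K.pull_kl p _

end Crest.Agent.N265
end
end

-- ▼ part N265/K/PB1
section

/-! # Task K6, tools: pieces of twisted structure sheaves (helper98) -/

set_option autoImplicit false
noncomputable section
open MvPolynomial Module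

namespace Crest.Agent.N265.PB
open Bun GM
variable {B : Finset ℕ} {Z Y : Spc} {ι : Type}


lemma kill_X {v : Var} (h : v.1 ∈ B) : kill B (X v) = X v := by simp [kill, h]

lemma eB_apply (b c : ℕ) : eB b (some c) = if b = c then 1 else 0 := by
  simp [eB, Finsupp.single_apply]

lemma vdeg_apply (v : Var) (c : ℕ) : vdeg v (some c) = if v.1 = c then 1 else 0 := by
  simp [vdeg, eT, eB_apply]

/-- the class of a homogeneous polynomial in the twisted structure sheaf -/
lemma mk_mem_gr {e d : D} {r : R} (h : Hmg (d + e) r) :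
    (Ideal.Quotient.mk Y.I r : ((O Y).shift e).M) ∈ ((O Y).shift e).gr d := by
  rw [shift_gr]
  exact (Oid_gr _ _).2 ⟨r, h, rfl⟩

lemma mk_kill_mul_mem {e d₀ : D} (hd : d₀ ∈ DS B) {m : R} (hm : Hmg (d₀ + e) m) (r : R) :
    (Ideal.Quotient.mk Y.I (kill B r * m) : ((O Y).shift e).M) ∈ pieceSub B ((O Y).shift e) := by
  have h1 : (Ideal.Quotient.mk Y.I m : ((O Y).shift e).M) ∈ pieceSub B ((O Y).shift e) :=
    AddSubgroup.subset_closure ⟨d₀, hd, mk_mem_gr hm⟩
  exact kill_smul_mem r h1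

/-- multiplication by a homogeneous polynomial, from the base to the piece -/
def mu (hk : ∀ r ∈ Z.I, kill B r ∈ Y.I) (e : D) {d₀ : D} (hd : d₀ ∈ DS B) {m : R}
    (hm : Hmg (d₀ + e) m) : (R ⧸ Z.I) →ₗ[R] PieceT B ((O Y).shift e) :=
  Submodule.liftQ Z.I
    { toFun := fun r => (⟨Ideal.Quotient.mk Y.I (kill B r * m), mk_kill_mul_mem hd hm r⟩ :
        pieceSub B ((O Y).shift e))
      map_add' := fun r s => PieceT.ext (by
        change Ideal.Quotient.mk Y.I (kill B (r + s) * m) =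
          Ideal.Quotient.mk Y.I (kill B r * m) + Ideal.Quotient.mk Y.I (kill B s * m)
        rw [map_add, add_mul, map_add])
      map_smul' := fun r s => PieceT.ext (by
        change Ideal.Quotient.mk Y.I (kill B (r * s) * m) =
          Ideal.Quotient.mk Y.I (kill B r * (kill B s * m))
        rw [map_mul (kill B), mul_assoc]) }
    fun r hr => PieceT.ext (Ideal.Quotient.eq_zero_iff_mem.2 (Y.I.mul_mem_right _ (hk r hr)))

lemma mu_val (hk : ∀ r ∈ Z.I, kill B r ∈ Y.I) (e : D) {d₀ : D} (hd : d₀ ∈ DS B) {m : R}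
    (hm : Hmg (d₀ + e) m) (r : R) : (mu hk e hd hm (Ideal.Quotient.mk Z.I r)).val =
      (Ideal.Quotient.mk Y.I (kill B r * m) : R ⧸ Y.I) := rfl

lemma mu_gr (hk : ∀ r ∈ Z.I, kill B r ∈ Y.I) (e : D) {d₀ : D} (hd : d₀ ∈ DS B) {m : R}
    (hm : Hmg (d₀ + e) m) {d : D} {q : R ⧸ Z.I} (hq : (q : (O Z).M) ∈ (O Z).gr d) :
    (mu hk e hd hm q : (piece B ((O Y).shift e)).M) ∈ (piece B ((O Y).shift e)).gr (d + d₀) := by
  obtain ⟨r, hr, rfl⟩ := (Oid_gr _ _).1 hq
  rw [piece_gr, mu_val]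
  exact mk_mem_gr (by rw [add_assoc]; exact (hr.kill B).mul hm)

variable [Fintype ι] {y : ι → Var} {b : ℕ}

/-- the monomial `y ^ α` -/
def ym (y : ι → Var) (α : ι →₀ ℕ) : R := ∏ i, X (y i) ^ α i

lemma ym_zero : ym y 0 = 1 := by simp [ym]

lemma ym_add_single (α : ι →₀ ℕ) (i : ι) : ym y (α + Finsupp.single i 1) = ym y α * X (y i) := by
  classical
  simp only [ym, Finsupp.add_apply, pow_add, Finset.prod_mul_distrib]
  congr 1
  rw [Finset.prod_eq_single i (fun j _ hj => by simp [hj]) (by simp)]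
  simp

lemma eval_ym (z : Pt) (α : ι →₀ ℕ) : eval z (ym y α) = ∏ i, z (y i) ^ α i := by simp [ym]

lemma hmg_ym (α : ι →₀ ℕ) : Hmg (∑ i, α i • vdeg (y i)) (ym y α) :=
  Hmg.prod _ fun i _ => (Hmg.X (y i)).pow _

/-- combinations of the monomials of degree `k` -/
def TT (Y : Spc) (B : Finset ℕ) (y : ι → Var) (k : ℕ) : AddSubgroup (R ⧸ Y.I) :=
  AddSubgroup.closure {q | ∃ (c : R) (α : ι →₀ ℕ), α.degree = k ∧
    q = Ideal.Quotient.mk Y.I (kill B c * ym y α)}

lemma hc_mem_TT (hb : b ∉ B) (hy : ∀ i, (y i).1 = b)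
    (hY : ∀ v : Var, v.1 ∉ B → v ∉ Set.range y → (X v : R) ∈ Y.I) (r : R) :
    ∀ (k : ℕ) (d : D), d (some b) = k → Ideal.Quotient.mk Y.I (hc d r) ∈ TT Y B y k := by
  induction r using MvPolynomial.induction_on with
  | C c =>
    intro k d hd
    by_cases h : d = 0
    · subst h
      have : k = 0 := by simpa using hd.symm
      subst this
      rw [hc_of_hmg (Hmg.C c)]
      exact AddSubgroup.subset_closure ⟨C c, 0, by simp, by simp [ym_zero, kill]⟩
    · rw [hc_of_hmg_ne (Hmg.C c) h, map_zero]; exact zero_mem _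
  | add p q hp hq =>
    intro k d hd
    rw [map_add, map_add]; exact add_mem (hp k d hd) (hq k d hd)
  | mul_X p v hp =>
    intro k d hd
    have e := hc_mul (Hmg.X v) (d - vdeg v) p
    rw [sub_add_cancel] at e
    rw [e, map_mul]
    have key : ∀ k', (∀ (c : R) (α : ι →₀ ℕ), α.degree = k' →
        Ideal.Quotient.mk Y.I (kill B c * ym y α * X v) ∈ TT Y B y k) → ∀ q ∈ TT Y B y k',
        q * Ideal.Quotient.mk Y.I (X v) ∈ TT Y B y k := fun k' h q hq => by
      induction hq using AddSubgroup.closure_induction with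
      | mem q hq => obtain ⟨c, α, hα, rfl⟩ := hq; rw [← map_mul]; exact h c α hα
      | zero => rw [zero_mul]; exact zero_mem _
      | add a b _ _ ha hb => rw [add_mul]; exact add_mem ha hb
      | neg a _ ha =>
        have e' : -a * Ideal.Quotient.mk Y.I (X v) = -(a * Ideal.Quotient.mk Y.I (X v)) := by ring
        rw [e']; exact neg_mem ha
    by_cases h1 : v.1 ∈ B
    · have h2 : v.1 ≠ b := fun h => hb (h ▸ h1)
      refine key k (fun c α hα => AddSubgroup.subset_closure ⟨c * X v, α, hα, ?_⟩) _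
        (hp k _ (by simp [vdeg_apply, h2, hd]))
      rw [map_mul (kill B), kill_X h1, mul_right_comm]
    by_cases h2 : v ∈ Set.range y
    · obtain ⟨i, rfl⟩ := h2
      cases k with
      | zero =>
        rw [(hc_hmg (d - vdeg (y i)) p).eq_zero_of_neg (b := b) (by simp [vdeg_apply, hy, hd]),
          map_zero, zero_mul]
        exact zero_mem _
      | succ k =>
        refine key k (fun c α hα => AddSubgroup.subset_closure
          ⟨c, α + Finsupp.single i 1, by simp [hα], ?_⟩) _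
          (hp k _ (by simp [vdeg_apply, hy, hd]))
        rw [ym_add_single, mul_assoc]
    · rw [Ideal.Quotient.eq_zero_iff_mem.2 (hY v h1 h2), mul_zero]; exact zero_mem _

/-- the piece is spanned by the monomials -/
lemma val_mem_TT (hb : b ∉ B) (hy : ∀ i, (y i).1 = b)
    (hY : ∀ v : Var, v.1 ∉ B → v ∉ Set.range y → (X v : R) ∈ Y.I) (k : ℕ)
    (m : PieceT B ((O Y).shift (k • eB b))) : (m.val : R ⧸ Y.I) ∈ TT Y B y k := by
  obtain ⟨m, hm⟩ := m
  change (m : R ⧸ Y.I) ∈ _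
  induction hm using AddSubgroup.closure_induction with
  | mem q hq =>
    obtain ⟨d, hd, hq⟩ := hq
    rw [shift_gr] at hq
    obtain ⟨r, hr, rfl⟩ := (Oid_gr _ _).1 hq
    rw [← hc_of_hmg hr]
    exact hc_mem_TT hb hy hY r k _ (by simp [hd b hb, eB_apply])
  | zero => exact zero_mem _
  | add a b _ _ ha hb => exact add_mem ha hb
  | neg a _ ha => exact neg_mem ha

/-- the closure of an invariant set of points -/
def clo (Y : Spc) (S : Set Pt) (hi : ∀ x ∈ S, gpt x ∈ S) : Spc :=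
  Y.ofClosed {z | z ∈ Y.pts ∧ ∀ r : R, (∀ w ∈ S, eval w r = 0) → eval z r = 0} (fun _ h => h.1)
    (fun x hx hn => by
      by_contra hc
      push Not at hc
      refine hn ⟨hx, fun r hr => ?_⟩
      by_contra h0
      obtain ⟨w, hw, hw'⟩ := hc r h0
      exact hw' (hw.2 r hr))
    fun x hx => ⟨Y.inv x hx.1, fun r hr => by
      rw [← eval_gam]
      exact hx.2 _ fun w hw => by rw [eval_gam]; exact hr _ (hi w hw)⟩

lemma clo_sub (Y : Spc) (S : Set Pt) (hi) : (clo Y S hi).Sub Y := ⟨rfl, fun _ h => h.1⟩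

lemma mem_clo_I {S : Set Pt} {hi} (hS : S ⊆ Y.pts) {r : R} :
    r ∈ (clo Y S hi).I ↔ ∀ w ∈ S, eval w r = 0 :=
  ⟨fun h w hw => h w ⟨hS hw, fun _ hs => hs w hw⟩, fun h _ hz => hz.2 r h⟩

end Crest.Agent.N265.PB
end
end

-- ▼ part N265/K/PB

/-! # Task K6: projective bundles of lines, graphs of line bundles -/

set_option autoImplicit false
noncomputable section
open MvPolynomial Module

namespace Crest.Agent.N265
open Bun GM
variable {X Y P : Spc}

/-- variables `y i` of a new block `b` adapted to the uniform bundle `A` -/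
structure PVar (A : Bun X) (δ : D) (b : ℕ) (y : A.ι → Var) : Prop where
  new : b ∉ X.B
  hδ : δ ∈ DS X.B
  inj : Function.Injective y
  blk : ∀ i, (y i).1 = b
  deg : ∀ i, A.deg i = δ + (y i).2.2 • eT
/-- `P` is the bundle of lines in `A`, in the variables `y` -/
structure IsPSub (P : Spc) (A : Bun X) (δ : D) (b : ℕ) (y : A.ι → Var) : Prop extends
    PVar A δ b y where
  B : P.B = insert b X.B
  mem : ∀ z, z ∈ P.pts ↔ restr X.B z ∈ X.pts ∧ (fun i => z (y i)) ∈ A.L (restr X.B z) ∧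
    (fun i => z (y i)) ≠ 0 ∧ ∀ v, z v ≠ 0 → v.1 ∈ X.B ∨ v ∈ Set.range y
lemma PVar.vdeg_y {A : Bun X} {δ b y} (h : PVar A δ b y) (i : A.ι) :
    vdeg (y i) = A.deg i + (eB b - δ) := by
  rw [vdeg, h.blk, h.deg]; abel
lemma PVar.notMem {A : Bun X} {δ b y} (h : PVar A δ b y) (i : A.ι) : (y i).1 ∉ X.B := by
  rw [h.blk]; exact h.new
lemma PVar.gpt_y {A : Bun X} {δ b y} (h : PVar A δ b y) (z : Pt) :
    (fun i => gpt z (y i)) = chi (eB b - δ) • fun i => chi (A.deg i) * z (y i) := by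
  funext i
  simp only [gpt, h.vdeg_y, chi_add, Pi.smul_apply, smul_eq_mul]; ring
theorem PVar.exists_psub {A : Bun X} {δ b y} (h : PVar A δ b y) : ∃ P, IsPSub P A δ b y := by
  classical
  refine ⟨⟨insert b X.B, {z | restr X.B z ∈ X.pts ∧ (fun i => z (y i)) ∈ A.L (restr X.B z) ∧
    (fun i => z (y i)) ≠ 0 ∧ ∀ v, z v ≠ 0 → v.1 ∈ X.B ∨ v ∈ Set.range y}, ?_, ?_, ?_, ?_⟩,
    h, rfl, fun _ => Iff.rfl⟩
  · obtain ⟨V, hV, hV'⟩ := X.fin
    refine ⟨V ∪ Finset.univ.image y, fun v hv => ?_, fun z hz v hv => ?_⟩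
    · rcases Finset.mem_union.1 hv with hv | hv
      · exact Finset.mem_insert_of_mem (hV v hv)
      · obtain ⟨i, -, rfl⟩ := Finset.mem_image.1 hv
        rw [h.blk]; exact Finset.mem_insert_self _ _
    · by_contra h0
      rcases hz.2.2.2 v h0 with h1 | ⟨i, rfl⟩
      · have := hV' _ hz.1 v fun h2 => hv (Finset.mem_union_left _ h2)
        simp only [restr, if_pos h1] at this
        exact h0 this
      · exact hv (Finset.mem_union_right _ (Finset.mem_image_of_mem y (Finset.mem_univ i)))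
  · intro z hz c hc
    rcases Finset.mem_insert.1 hc with rfl | hc
    · obtain ⟨i, hi⟩ := Function.ne_iff.1 hz.2.2.1
      exact ⟨y i, h.blk i, hi⟩
    · exact (rel_restr subset_rfl).1 (X.rel _ hz.1) c hc
  · intro z hz hr
    have h1 : restr X.B z ∈ X.pts := X.closed _
      ((rel_restr subset_rfl).2 fun c hc => hz c (Finset.mem_insert_of_mem hc)) fun r hr' => by
        rw [← eval_kill]
        exact hr _ fun w hw => by rw [eval_kill]; exact hr' _ hw.1
    have h4 : ∀ v, z v ≠ 0 → v.1 ∈ X.B ∨ v ∈ Set.range y := fun v hv => by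
      by_contra hc
      refine hv ?_
      have := hr (MvPolynomial.X v) fun w hw => by
        rw [eval_X]
        by_contra h0
        exact hc (hw.2.2.2 v h0)
      rwa [eval_X] at this
    refine ⟨h1, ?_, ?_, h4⟩
    · rw [← perp_perp (A.L _), mem_perp]
      intro a ha
      obtain ⟨s, hs, hs'⟩ := A.alg.cogen _ h1 a ha
      have := hr (∑ i, kill X.B (s i) * MvPolynomial.X (y i)) fun w hw => by
        simpa only [map_sum, map_mul, eval_kill, eval_X] using hs' _ hw.1 _ hw.2.1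
      simp only [map_sum, map_mul, eval_kill, eval_X] at this
      rw [← this, ← hs]
      exact Finset.sum_congr rfl fun i _ => mul_comm _ _
    · obtain ⟨v, hv, hv'⟩ := hz b (Finset.mem_insert_self _ _)
      rcases h4 v hv' with h5 | ⟨i, rfl⟩
      · exact absurd (hv ▸ h5) h.new
      · exact Function.ne_iff.2 ⟨i, hv'⟩
  · intro z hz
    refine ⟨by rw [restr_gpt]; exact X.inv _ hz.1, ?_, ?_, fun v hv => hz.2.2.2 v ?_⟩
    · rw [h.gpt_y, restr_gpt]
      exact Submodule.smul_mem _ _ ((A.eqv _ hz.1 _).1 hz.2.1)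
    · obtain ⟨i, hi⟩ := Function.ne_iff.1 hz.2.2.1
      exact Function.ne_iff.2 ⟨i, mul_ne_zero (chi_ne _) hi⟩
    · exact right_ne_zero_of_mul hv
theorem exists_pvar {A : Bun X} {δ : D} (hδ : δ ∈ DS X.B) (h : A.Unif δ) {b : ℕ} (hb : b ∉ X.B) :
    ∃ y, PVar A δ b y := by
  refine ⟨fun i => (b, (Fintype.equivFin A.ι i : ℕ), A.deg i none - δ none), hb, hδ,
    fun i j hij => ?_, fun _ => rfl, fun i => ?_⟩
  · exact (Fintype.equivFin A.ι).injective (Fin.ext (congrArg (fun v : Var => v.2.1) hij))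
  · ext c
    cases c with
    | none => simp [eT]
    | some c => simp [eT, h i c]
lemma IsPSub.proj {A : Bun X} {δ b y} (h : IsPSub P A δ b y) : Proj P X :=
  ⟨h.B ▸ Finset.subset_insert _ _, fun z hz => ((h.mem z).1 hz).1⟩
lemma IsPSub.uniq {P' : Spc} {A : Bun X} {δ b y} (h : IsPSub P A δ b y) (h' : IsPSub P' A δ b y) :
    P = P' :=
  Spc.ext (h.B.trans h'.B.symm) (Set.ext fun z => (h.mem z).trans (h'.mem z).symm)
/-- the point of `P` over `x` given by a vector -/
lemma IsPSub.exists_pt {A : Bun X} {δ b y} (h : IsPSub P A δ b y) {x : Pt} (hx : x ∈ X.pts)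
    {v : A.ι → ℂ} (hv : v ∈ A.L x) (h0 : v ≠ 0) :
    ∃ z ∈ P.pts, restr X.B z = x ∧ (fun i => z (y i)) = v := by
  have e1 : (fun i => Function.extend y v x (y i)) = v := funext fun i => h.inj.extend_apply _ _ i
  have e2 : restr X.B (Function.extend y v x) = x := by
    conv_rhs => rw [← X.restr_eq hx]
    funext w
    unfold restr
    split_ifs with hw
    · exact Function.extend_apply' _ _ _ (by rintro ⟨i, rfl⟩; exact h.notMem i hw)
    · rfl
  refine ⟨_, (h.mem _).2 ⟨by rwa [e2], by rwa [e1, e2], by rwa [e1], fun w hw => ?_⟩, e2, e1⟩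
  by_contra hc
  rw [not_or] at hc
  rw [Function.extend_apply' _ _ _ hc.2, ← X.restr_eq hx] at hw
  exact hw (if_neg hc.1)
/-- base change -/
lemma IsPSub.fib {A : Bun X} {δ b y} (h : IsPSub P A δ b y) (p : Proj Y X) (hb : b ∉ Y.B) :
    IsPSub (Y.fib P) (A.pull p) δ b y := by
  have hB : Y.B ∪ P.B = insert b Y.B := by
    rw [h.B, Finset.union_insert, Finset.union_eq_left.2 p.sub]
  have hy : ∀ z : Pt, (fun i => restr P.B z (y i)) = fun i => z (y i) := fun z => funext fun i =>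
    if_pos (by rw [h.B, h.blk]; exact Finset.mem_insert_self _ _)
  refine ⟨⟨hb, DS_mono p.sub h.hδ, h.inj, h.blk, h.deg⟩, hB, fun z => ?_⟩
  change (restr Y.B z ∈ Y.pts ∧ restr P.B z ∈ P.pts ∧ ∀ v, z v ≠ 0 → v.1 ∈ Y.B ∪ P.B) ↔
    restr Y.B z ∈ Y.pts ∧ (fun i => z (y i)) ∈ A.L (restr X.B (restr Y.B z)) ∧
      (fun i => z (y i)) ≠ 0 ∧ ∀ v, z v ≠ 0 → v.1 ∈ Y.B ∨ v ∈ Set.range y
  rw [h.mem, restr_restr h.proj.sub, restr_restr p.sub, hy, hB]
  refine and_congr_right fun hz => ⟨fun ⟨⟨_, h2, h3, h4⟩, h5⟩ => ⟨h2, h3, fun v hv => ?_⟩,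
    fun ⟨h2, h3, h4⟩ => ⟨⟨?_, h2, h3, fun v hv => ?_⟩, fun v hv => ?_⟩⟩
  · rcases Finset.mem_insert.1 (h5 v hv) with h6 | h6
    · refine (h4 v ?_).imp_left fun h7 => p.sub h7
      rwa [restr, if_pos (by rw [h.B, h6]; exact Finset.mem_insert_self _ _)]
    · exact Or.inl h6
  · rw [← restr_restr p.sub]; exact p.map _ hz
  · by_cases h6 : v.1 ∈ P.B
    · rw [restr, if_pos h6] at hv
      rw [h.B] at h6
      rcases Finset.mem_insert.1 h6 with h7 | h7
      · exact (h4 v hv).imp_left fun h8 => absurd (h7 ▸ h8) hb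
      · exact Or.inl h7
    · exact absurd (if_neg h6) hv
  · rcases h4 v hv with h6 | ⟨i, rfl⟩
    · exact Finset.mem_insert_of_mem h6
    · rw [h.blk]; exact Finset.mem_insert_self _ _
lemma IsPSub.ttriv {A : Bun X} {δ b y} (h : IsPSub P A δ b y) {w : ℕ → ℤ} (hw : X.TTriv w)
    (hy : ∀ i, (y i).2.2 = w b) : P.TTriv w := by
  intro z hz v hv
  obtain ⟨h1, -, -, h4⟩ := (h.mem z).1 hz
  rcases h4 v hv with h5 | ⟨i, rfl⟩
  · exact hw _ h1 v (by rwa [restr, if_pos h5])
  · rw [hy, h.blk]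
lemma IsPSub.X_mem {A : Bun X} {δ b y} (h : IsPSub P A δ b y) {Z : Spc} (hZ : Z.Sub P) (v : Var)
    (h1 : v.1 ∉ X.B) (h2 : v ∉ Set.range y) : (MvPolynomial.X v : R) ∈ Z.I := fun z hz => by
  rw [eval_X]
  by_contra h0
  exact (((h.mem z).1 (hZ.2 hz)).2.2.2 v h0).elim h1 h2
lemma IsPSub.b_mem {A : Bun X} {δ b y} (h : IsPSub P A δ b y) : eB b ∈ DS P.B :=
  eB_mem (h.B ▸ Finset.mem_insert_self _ _)
/-- push-forward of high twists -/
lemma IsPSub.push_big {A : Bun X} {δ b y} (h : IsPSub P A δ b y) {M : GM} (hM : M.On P) :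
    ∃ k₀ : ℕ, ∀ k ≥ k₀, push P X (cl P (M.shift (k • eB b))) =
      cl X (piece X.B (M.shift (k • eB b))) := by
  obtain ⟨k₀, hk⟩ := (isPush h.proj).big M hM
  refine ⟨k₀.toNat, fun k hk' => hk _ ⟨by simp [eB], fun c hc => ?_, fun c hc hc' => ?_⟩⟩
  · have : b ≠ c := by
      rintro rfl
      exact hc.elim h.new fun h1 => h1 (h.B ▸ Finset.mem_insert_self _ _)
    simp [PB.eB_apply, this]
  · rw [h.B] at hc
    obtain rfl := (Finset.mem_insert.1 hc).resolve_right hc'
    simp only [Finsupp.coe_nsmul, Pi.smul_apply, PB.eB_apply, if_true, nsmul_eq_mul, mul_one]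
    omega
lemma PVar.hmg_ym {A : Bun X} {δ b y} (h : PVar A δ b y) {k : ℕ} (α : Mon A.ι k) :
    Hmg ((-monDeg A.deg k α - k • δ) + k • eB b) (PB.ym y α.1) := by
  have e : ∑ i, α.1 i • vdeg (y i) = (-monDeg A.deg k α - k • δ) + k • eB b := by
    have hk : ∑ i, α.1 i = k := by rw [← Finsupp.degree_eq_sum]; exact α.2
    simp only [h.vdeg_y, smul_add, Finset.sum_add_distrib]
    rw [← Finset.sum_smul, hk, monDeg, neg_neg, smul_sub]
    abel
  rw [← e]; exact PB.hmg_ym α.1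
/-- The projective bundle formula in high degrees. The tautological line is `O(δ - e_b)`. -/
theorem IsPSub.push_pow_big {A : Bun X} {δ b y} (h : IsPSub P A δ b y) :
    ∃ k₀ : ℕ, ∀ k ≥ k₀, push P X (lb P (eB b - δ) ^ k • one P) = Sd A k • one X := by
  classical
  obtain ⟨k₀, hk₀⟩ := h.push_big (red_O P).on
  refine ⟨k₀ + 1, fun k hk => ?_⟩
  have hδ : -(k • δ) ∈ DS X.B := neg_mem (nsmul_mem h.hδ k)
  have hb : k • eB b ∈ DS P.B := nsmul_mem h.b_mem k
  have hd : ∀ α, monDeg A.deg k α ∈ DS X.B := (A.van k).hdeg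
  have hd' : ∀ α, -monDeg A.deg k α - k • δ ∈ DS X.B := fun α =>
    sub_mem (neg_mem (hd α)) (nsmul_mem h.hδ k)
  have hkl : ∀ r ∈ X.I, kill X.B r ∈ P.I := fun r hr => h.proj.kill_mem hr
  have hred : (piece X.B ((O P).shift (k • eB b))).Red X :=
    Red.piece h.proj ((red_O P).shift hb).ann
  have e1 : push P X (lb P (eB b - δ) ^ k • one P) =
      cl X ((piece X.B ((O P).shift (k • eB b))).shift (-(k • δ))) := by
    rw [← lb_nsmul, smul_sub, sub_eq_neg_add, lb_smul (add_mem (DS_mono h.proj.sub hδ) hb),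
      sh_add (DS_mono h.proj.sub hδ) hb, push_sh h.proj hδ, one, sh_cl hb (red_O P).on,
      hk₀ k (by omega), sh_cl hδ hred.on]
  have e2 : (A.van k).amb.kl • one X = cl X (pw (monDeg A.deg k) (O X)) := by
    rw [cl_pw hd (red_O X).on, Bun.amb, kl_triv, Finset.sum_smul]
    exact Finset.sum_congr rfl fun α _ => (lbK_smul (hd α) _).trans (sh_cl (hd α) (red_O X).on)
  let φ : (Mon A.ι k → R ⧸ X.I) →ₗ[R] PieceT X.B ((O P).shift (k • eB b)) :=
    ∑ α : Mon A.ι k, (PB.mu hkl (k • eB b) (hd' α) (h.hmg_ym α)).comp (LinearMap.proj α)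
  have hφ : ∀ c : Mon A.ι k → R ⧸ X.I,
      φ c = ∑ α : Mon A.ι k, PB.mu hkl (k • eB b) (hd' α) (h.hmg_ym α) (c α) := fun c =>
    LinearMap.sum_apply _ _ _
  have hval : ∀ s : Mon A.ι k → R, PieceT.val (φ fun α => Ideal.Quotient.mk X.I (s α)) =
      (Ideal.Quotient.mk P.I (∑ α, kill X.B (s α) * PB.ym y α.1) : R ⧸ P.I) := fun s => by
    rw [hφ, map_sum]
    exact map_sum (pieceSub X.B ((O P).shift (k • eB b))).subtype _ _
  have hg : ∀ (d : D) (c : Mon A.ι k → R ⧸ X.I),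
      (∀ α, (c α : (O X).M) ∈ (O X).gr (d + monDeg A.deg k α)) →
      (φ c : (piece X.B ((O P).shift (k • eB b))).M) ∈
        (piece X.B ((O P).shift (k • eB b))).gr (d + -(k • δ)) := fun d c hc => by
    rw [hφ]
    refine Submodule.sum_mem ((piece X.B ((O P).shift (k • eB b))).gr (d + -(k • δ)))
      fun α _ => ?_
    have := PB.mu_gr hkl (k • eB b) (hd' α) (h.hmg_ym α) (hc α)
    rwa [show d + monDeg A.deg k α + (-monDeg A.deg k α - k • δ) = d + -(k • δ) by abel] at this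
  have hses : GM.SES ((A.van k).act (O X)) (pw (monDeg A.deg k) (O X))
      ((piece X.B ((O P).shift (k • eB b))).shift (-(k • δ))) := by
    refine ⟨((A.van k).actSub (O X)).subtype, φ, deg0_subtype _, deg0_of_gr fun d c hc => ?_,
      Subtype.val_injective, fun c => ?_, fun m => ?_⟩
    · rw [shift_gr]
      exact hg d c ((pw_gr _).1 hc)
    · choose s hs using fun α => Ideal.Quotient.mk_surjective (I := X.I) (c α)
      obtain rfl : c = fun α => Ideal.Quotient.mk X.I (s α) := funext fun α => (hs α).symm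
      have e3 : (φ fun α => Ideal.Quotient.mk X.I (s α)) = 0 ↔
          ∑ α, kill X.B (s α) * PB.ym y α.1 ∈ P.I := by
        rw [← Ideal.Quotient.eq_zero_iff_mem, ← hval]
        exact ⟨fun h0 => congrArg PieceT.val h0, fun h0 => PieceT.ext h0⟩
      have e4 : ∀ z : Pt, eval z (∑ α, kill X.B (s α) * PB.ym y α.1) =
          polEv (fun α => eval (restr X.B z) (s α)) fun i => z (y i) := fun z => by
        simp only [map_sum, map_mul, eval_kill, PB.eval_ym, polEv]
      refine e3.trans (Iff.trans ?_ (((A.van k).mem_act_O s).symm.trans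
        ⟨fun h0 => ⟨⟨_, h0⟩, rfl⟩, fun ⟨u, hu⟩ => hu ▸ u.2⟩))
      constructor
      · intro h0 x hx v hv
        by_cases hv0 : v = 0
        · have := polEv_smul (fun α => eval x (s α)) 0 v
          rwa [zero_smul, zero_pow (by omega), zero_mul, ← hv0] at this
        · obtain ⟨z, hz, rfl, rfl⟩ := h.exists_pt hx hv hv0
          exact (e4 z).symm.trans (h0 z hz)
      · intro h0 z hz
        rw [e4]
        exact h0 _ ((h.mem z).1 hz).1 _ ((h.mem z).1 hz).2.1
    · have hm := PB.val_mem_TT h.new h.blk (h.X_mem (Spc.Sub.refl P)) k m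
      have key : ∀ q ∈ PB.TT P X.B y k, ∃ c, (PieceT.val (φ c) : R ⧸ P.I) = q := fun q hq => by
        induction hq using AddSubgroup.closure_induction with
        | mem q hq =>
          obtain ⟨c, α, hα, rfl⟩ := hq
          obtain ⟨α', rfl⟩ : ∃ α' : Mon A.ι k, α'.1 = α := ⟨⟨α, hα⟩, rfl⟩
          refine ⟨fun β => Ideal.Quotient.mk X.I (Pi.single (M := fun _ => R) α' c β),
            (hval _).trans ?_⟩
          rw [Finset.sum_eq_single α' (fun β _ hβ => by simp [hβ]) (by simp), Pi.single_eq_same]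
        | zero => exact ⟨0, by rw [map_zero]; rfl⟩
        | add a b _ _ ha hb =>
          obtain ⟨c, rfl⟩ := ha
          obtain ⟨c', rfl⟩ := hb
          exact ⟨c + c', by rw [map_add]; rfl⟩
        | neg a _ ha =>
          obtain ⟨c, rfl⟩ := ha
          exact ⟨-c, by rw [map_neg]; rfl⟩
      obtain ⟨c, hc⟩ := key _ hm
      exact ⟨c, PieceT.ext hc⟩
  rw [e1, Sd, sub_smul, e2, cl_ses hses ((red_O X).on.pw hd), one, kl_smul _ (red_O X)]
  abel
/-- push-forward is onto (closure of the graph of a generically non-zero section, `G.dev_ind`) -/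
theorem IsPSub.push_surj {A : Bun X} {δ b y} (h : IsPSub P A δ b y)
    (hA : ∀ x ∈ X.pts, A.L x ≠ ⊥) : Function.Surjective (push P X) := by
  classical
  rw [← AddMonoidHom.range_eq_top]
  refine G.dev_ind _ fun Z hZ hirr hind => ?_
  obtain ⟨n, e, Φ, he, hΦ, hr⟩ := A.alg.gen.exists_hmg A.eqv A.hdeg
  obtain ⟨x₀, hx₀⟩ := hirr.nonempty
  obtain ⟨i₀, j, hij⟩ : ∃ i j, eval x₀ (Φ i j) ≠ 0 := by
    by_contra hc
    push Not at hc
    refine hA x₀ (hZ.2 hx₀) ?_
    rw [← hr x₀ (hZ.2 hx₀), LinearMap.range_eq_bot]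
    refine LinearMap.ext fun v => funext fun i => ?_
    simp [mev_apply, hc]
  set s : A.ι → R := fun i => Φ i j with hs
  have hsL : ∀ x ∈ X.pts, (fun i => eval x (s i)) ∈ A.L x := fun x hx => by
    rw [← hr x hx]
    refine ⟨Pi.single j 1, funext fun i => ?_⟩
    simp [mev_apply, Pi.single_apply, hs]
  have hsh : ∀ i, Hmg (A.deg i - e j) (s i) := fun i => hΦ i j
  have hsI : s i₀ ∉ Z.I := fun h0 => hij (h0 x₀ hx₀)
  set S : Set Pt := {z | z ∈ P.pts ∧ restr X.B z ∈ Z.pts ∧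
    ∀ i, eval (restr X.B z) (s i₀) * z (y i) = eval (restr X.B z) (s i) * z (y i₀) ∧
      eval (restr X.B z) (s i₀) ≠ 0} with hS
  have hSi : ∀ z ∈ S, gpt z ∈ S := fun z hz => ⟨P.inv z hz.1, by
    rw [restr_gpt]; exact Z.inv _ hz.2.1, fun i => by
      rw [restr_gpt, (hsh i₀).eval_gpt, (hsh i).eval_gpt]
      refine ⟨?_, mul_ne_zero (chi_ne _) (hz.2.2 i).2⟩
      simp only [gpt, h.vdeg_y, chi_add, chi_sub]
      linear_combination (chi (A.deg i₀) * (chi (e j))⁻¹ * chi (A.deg i) *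
        (chi (eB b) * (chi δ)⁻¹)) * (hz.2.2 i).1⟩
  set Z' := PB.clo P S hSi with hZ'
  have hZP : Z'.Sub P := PB.clo_sub _ _ _
  have hI : ∀ r, r ∈ Z'.I ↔ ∀ w ∈ S, eval w r = 0 := fun r => PB.mem_clo_I fun _ hz => hz.1
  have hkl : ∀ r ∈ Z.I, kill X.B r ∈ Z'.I := fun r hr =>
    (hI _).2 fun w hw => by rw [eval_kill]; exact hr _ hw.2.1
  have hOn : (O Z').On P := ((red_O Z').mono hZP).on
  obtain ⟨k, hk⟩ := h.push_big hOn
  have hk' := hk k le_rfl
  set d₀ : D := k • (A.deg i₀ - δ) with hd₀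
  have hd₀' : d₀ ∈ DS X.B := nsmul_mem (sub_mem (A.hdeg i₀) h.hδ) k
  have hm : Hmg (d₀ + k • eB b) (MvPolynomial.X (y i₀) ^ k) := by
    have := (Hmg.X (y i₀)).pow k
    rwa [h.vdeg_y, show k • (A.deg i₀ + (eB b - δ)) = d₀ + k • eB b by
      rw [hd₀, ← smul_add]; congr 1; abel] at this
  set N := piece X.B ((O Z').shift (k • eB b)) with hN
  let μ : (R ⧸ Z.I) →ₗ[R] PieceT X.B ((O Z').shift (k • eB b)) := PB.mu hkl (k • eB b) hd₀' hm
  have hμ0 : Deg0 (M := (O Z).shift (-d₀)) (N := N) μ := deg0_of_gr fun d q hq => by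
    rw [shift_gr] at hq
    have := PB.mu_gr hkl (k • eB b) hd₀' hm hq
    rwa [neg_add_cancel_right] at this
  have hμi : Function.Injective μ := by
    rw [injective_iff_map_eq_zero]
    intro q hq
    obtain ⟨r, rfl⟩ := Ideal.Quotient.mk_surjective q
    have h1 : kill X.B r * MvPolynomial.X (y i₀) ^ k ∈ Z'.I :=
      Ideal.Quotient.eq_zero_iff_mem.1 (congrArg PieceT.val hq)
    refine Ideal.Quotient.eq_zero_iff_mem.2 ((hirr.mem_or_mem (show r * s i₀ ∈ Z.I from
      fun x hx => ?_)).resolve_right hsI)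
    by_cases h0 : eval x (s i₀) = 0
    · rw [map_mul, h0, mul_zero]
    obtain ⟨z, hz, rfl, hzy⟩ := h.exists_pt (hZ.2 hx) (hsL x (hZ.2 hx))
      (Function.ne_iff.2 ⟨i₀, h0⟩)
    have h2 := (hI _).1 h1 z ⟨hz, hx, fun i => ⟨by
      rw [congrFun hzy i, congrFun hzy i₀, mul_comm], h0⟩⟩
    rw [map_mul, map_pow, eval_kill, eval_X, congrFun hzy i₀] at h2
    rw [map_mul, (mul_eq_zero.1 h2).resolve_right (pow_ne_zero _ h0), zero_mul]
  have hcok : ∀ m : PieceT X.B ((O Z').shift (k • eB b)), ∃ q, μ q = s i₀ ^ k • m := fun m => by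
    have key : ∀ q ∈ PB.TT Z' X.B y k, ∃ c, (PieceT.val (μ c) : R ⧸ Z'.I) =
        Ideal.Quotient.mk Z'.I (kill X.B (s i₀ ^ k)) * q := fun q hq => by
      induction hq using AddSubgroup.closure_induction with
      | mem q hq =>
        obtain ⟨c, α, hα, rfl⟩ := hq
        refine ⟨Ideal.Quotient.mk Z.I (c * ∏ i, s i ^ α i), ?_⟩
        rw [← map_mul]
        refine Ideal.Quotient.eq.2 ((hI _).2 fun w hw => ?_)
        have hk2 : ∑ i, α i = k := by rw [← Finsupp.degree_eq_sum]; exact hα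
        have h3 : (∏ i, eval (restr X.B w) (s i) ^ α i) * w (y i₀) ^ k =
            eval (restr X.B w) (s i₀) ^ k * ∏ i, w (y i) ^ α i := by
          rw [← hk2, ← Finset.prod_pow_eq_pow_sum, ← Finset.prod_pow_eq_pow_sum,
            ← Finset.prod_mul_distrib, ← Finset.prod_mul_distrib]
          exact Finset.prod_congr rfl fun i _ => by rw [← mul_pow, ← mul_pow, (hw.2.2 i).1]
        simp only [map_sub, map_mul, map_pow, map_prod, eval_kill, eval_X, PB.eval_ym]
        linear_combination eval (restr X.B w) c * h3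
      | zero => exact ⟨0, by rw [map_zero, mul_zero]; rfl⟩
      | add a b _ _ ha hb =>
        obtain ⟨c, hc⟩ := ha
        obtain ⟨c', hc'⟩ := hb
        exact ⟨c + c', by rw [map_add, mul_add, ← hc, ← hc']; rfl⟩
      | neg a _ ha =>
        obtain ⟨c, hc⟩ := ha
        refine ⟨-c, ?_⟩
        have e' : Ideal.Quotient.mk Z'.I (kill X.B (s i₀ ^ k)) * -a =
          -(Ideal.Quotient.mk Z'.I (kill X.B (s i₀ ^ k)) * a) := by ring
        rw [map_neg, e', ← hc]; rfl
    obtain ⟨c, hc⟩ := key _ (PB.val_mem_TT h.new h.blk (h.X_mem hZP) k m)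
    exact ⟨c, PieceT.ext hc⟩
  have hNZ : ∀ r ∈ Z.I, ∀ m : PieceT X.B ((O Z').shift (k • eB b)), r • m = 0 :=
    fun r hr m => PieceT.ext (by
    obtain ⟨t, ht⟩ := Ideal.Quotient.mk_surjective (I := Z'.I) (PieceT.val m)
    rw [PieceT.val_smul, ← ht]
    exact Ideal.Quotient.eq_zero_iff_mem.2 (Z'.I.mul_mem_right _ (hkl r hr)))
  have hNX : N.Red X := ⟨degIn_piece _ _, fun r hr => hNZ r (hZ.I_le hr)⟩
  set Z₂ := Z.cut {s i₀} (by rintro r rfl; exact ⟨_, hsh i₀⟩) with hZ₂
  have hZ₂Z : Z₂.Sub Z := Spc.cut_sub _ _ _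
  set Q := N.quot _ hμ0.stab_range with hQ
  have hQOn : Q.On Z₂ := by
    refine ⟨(hZ₂Z.1.trans hZ.1).symm ▸ (hNX.quot hμ0.stab_range).deg, fun x hx hn => ?_⟩
    by_cases hxZ : x ∈ Z.pts
    · have h0 : eval x (s i₀) ≠ 0 := fun h0 => hn ⟨hxZ, by rintro r rfl; exact h0⟩
      refine ⟨s i₀ ^ k, by rw [map_pow]; exact pow_ne_zero _ h0, fun m => ?_⟩
      obtain ⟨m, rfl⟩ := Submodule.mkQ_surjective _ m
      exact (Submodule.Quotient.mk_eq_zero _).2 (hcok m)
    · obtain ⟨r, hr, hr'⟩ := Spc.exists_notMem (Z := Z) hx hxZ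
      refine ⟨r, hr', fun m => ?_⟩
      obtain ⟨m, rfl⟩ := Submodule.mkQ_surjective _ m
      exact (congrArg (LinearMap.range μ).mkQ (hNZ r hr m)).trans (map_zero _)
  have hses : GM.SES ((O Z).shift (-d₀)) N Q :=
    ⟨μ, (LinearMap.range μ).mkQ, hμ0, deg0_mkQ hμ0.stab_range, hμi,
      LinearMap.exact_map_mkQ_range μ, Submodule.mkQ_surjective (LinearMap.range μ)⟩
  have h1 : cl X ((O Z).shift (-d₀)) ∈ (push P X).range := by
    have h2 : cl X ((O Z).shift (-d₀)) = cl X N - cl X Q :=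
      eq_sub_of_add_eq (cl_ses hses hNX.on).symm
    rw [h2]
    refine sub_mem ⟨_, hk'⟩ ?_
    rw [← incl_cl (hZ₂Z.trans hZ) hQOn]
    exact hind Z₂ hZ₂Z (fun h0 => hij ((h0.ge hx₀).2 _ rfl)) _
  intro d hd
  obtain ⟨a, ha⟩ := h1
  have hOZ : (O Z).On X := ((red_O Z).mono hZ).on
  refine ⟨sh P (d + d₀) a, ?_⟩
  rw [push_sh h.proj (add_mem hd hd₀'), ha, ← sh_cl (neg_mem hd₀') hOZ,
    ← sh_add (add_mem hd hd₀') (neg_mem hd₀'), add_neg_cancel_right, sh_cl hd hOZ]
/-- the quotient by the tautological line, `v ↦ (y_i v_j - y_j v_i)` -/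
theorem IsPSub.exists_quot {A : Bun X} {δ b y} (h : IsPSub P A δ b y) :
    ∃ (Q : Bun P) (f : Matrix Q.ι A.ι R), MHmg A.deg Q.deg f ∧ ∀ z ∈ P.pts,
      LinearMap.ker (mev z f) = Submodule.span ℂ {fun i => z (y i)} ∧
      (A.L (restr X.B z)).map (mev z f) = Q.L z := by
  classical
  have hδ : eB b - δ ∈ DS P.B := sub_mem h.b_mem (DS_mono h.proj.sub h.hδ)
  let f : Matrix (A.ι × A.ι) A.ι R := fun p k =>
    (if p.2 = k then MvPolynomial.X (y p.1) else 0) - if p.1 = k then MvPolynomial.X (y p.2) else 0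
  let dg : A.ι × A.ι → D := fun p => A.deg p.1 + A.deg p.2 + (eB b - δ)
  have hf : MHmg A.deg dg f := fun p k => by
    refine Hmg.sub ?_ ?_
    · split_ifs with h1
      · have := Hmg.X (y p.1)
        rwa [h.vdeg_y, show A.deg p.1 + (eB b - δ) = dg p - A.deg k by
          simp only [dg, h1]; abel] at this
      · exact Hmg.zero _
    · split_ifs with h1
      · have := Hmg.X (y p.2)
        rwa [h.vdeg_y, show A.deg p.2 + (eB b - δ) = dg p - A.deg k by
          simp only [dg, h1]; abel] at this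
      · exact Hmg.zero _
  have hev : ∀ (z : Pt) u p, mev z f u p = z (y p.1) * u p.2 - z (y p.2) * u p.1 := fun z u p => by
    rw [mev_apply]
    simp [f, sub_mul, Finset.sum_sub_distrib, apply_ite (eval z)]
  have hker : ∀ z ∈ P.pts,
      LinearMap.ker (mev z f) = Submodule.span ℂ {fun i => z (y i)} := fun z hz => by
    obtain ⟨i, hi⟩ := Function.ne_iff.1 ((h.mem z).1 hz).2.2.1
    have hi' : z (y i) ≠ 0 := hi
    ext u
    rw [LinearMap.mem_ker, Submodule.mem_span_singleton]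
    constructor
    · intro hu
      refine ⟨u i / z (y i), funext fun k => ?_⟩
      have := congrFun hu (i, k)
      rw [hev] at this
      simp only [Pi.smul_apply, smul_eq_mul, Pi.zero_apply] at this ⊢
      field_simp
      linear_combination -this
    · rintro ⟨a, rfl⟩
      funext p
      rw [hev]
      simp only [Pi.smul_apply, smul_eq_mul, Pi.zero_apply]
      ring
  have hrk : ∀ z ∈ P.pts, (finrank ℂ ((A.L (restr X.B z)).map (mev z f)) : ℤ) =
      finrank ℂ (A.L (restr X.B z)) - 1 := fun z hz => by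
    obtain ⟨-, h2, h3, -⟩ := (h.mem z).1 hz
    have h4 := LinearMap.finrank_range_add_finrank_ker ((mev z f).domRestrict (A.L (restr X.B z)))
    rw [LinearMap.range_domRestrict, LinearMap.ker_domRestrict, hker z hz,
      (Submodule.comapSubtypeEquivOfLe ((Submodule.span_singleton_le_iff_mem _ _).2 h2)).finrank_eq,
      finrank_span_singleton h3] at h4
    omega
  have halg := ((A.pull h.proj).alg.map_of_usc f fun z hz => by
    obtain ⟨r, hr, hr'⟩ := (A.pull h.proj).alg.lc z hz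
    refine ⟨r, hr, fun w hw hw' => le_of_eq ?_⟩
    have : finrank ℂ (A.L (restr X.B w)) = finrank ℂ (A.L (restr X.B z)) := hr' w hw hw'
    exact (hrk w hw).trans (by rw [this]; exact (hrk z hz).symm)).1
  exact ⟨{ ι := A.ι × A.ι
           deg := dg
           hdeg := fun p => add_mem (add_mem ((A.pull h.proj).hdeg _) ((A.pull h.proj).hdeg _)) hδ
           L := fun z => (A.L (restr X.B z)).map (mev z f)
           eqv := (A.pull h.proj).eqv.map hf
           alg := halg }, f, hf, fun z hz => ⟨hker z hz, rfl⟩⟩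
lemma IsPSub.kl_quot {A : Bun X} {δ b y} (h : IsPSub P A δ b y) (Q : Bun P)
    (f : Matrix Q.ι A.ι R) (hf : MHmg A.deg Q.deg f) (hQ : ∀ z ∈ P.pts,
      A.L (restr X.B z) ⊓ LinearMap.ker (mev z f) = Submodule.span ℂ {fun i => z (y i)} ∧
      (A.L (restr X.B z)).map (mev z f) = Q.L z) :
    (A.pull h.proj).kl = lbK P (δ - eB b) + Q.kl := by
  have hδ : δ - eB b ∈ DS P.B := sub_mem (DS_mono h.proj.sub h.hδ) h.b_mem
  let g : Matrix A.ι Unit R := fun i _ => MvPolynomial.X (y i)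
  have hev : ∀ (z : Pt) (u : Unit → ℂ), mev z g u = u () • fun i => z (y i) := fun z u => by
    funext i; rw [mev_apply]; simp [g, mul_comm]
  refine kl_ses (A := line P (δ - eB b))
    ⟨g, f, fun (i : A.ι) _ => ?_, hf, fun z hz => ⟨?_, ?_, (hQ z hz).2⟩⟩
  · have := Hmg.X (y i)
    change Hmg (A.deg i - dpr P.B (δ - eB b)) (MvPolynomial.X (y i))
    rwa [dpr_of_mem hδ, show A.deg i - (δ - eB b) = A.deg i + (eB b - δ) by abel, ← h.vdeg_y]
  · refine (Submodule.eq_bot_iff _).2 fun (u : Unit → ℂ) hu => ?_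
    have h1 := (hev z u).symm.trans hu.2
    exact funext fun _ => (smul_eq_zero.1 h1).resolve_right ((h.mem z).1 hz).2.2.1
  · refine Eq.trans ?_ (hQ z hz).1.symm
    refine Submodule.ext fun (u : A.ι → ℂ) => Iff.trans ?_
      (Submodule.mem_span_singleton (R := ℂ) (x := u) (y := fun i => z (y i))).symm
    exact ⟨fun ⟨w, _, hw⟩ => ⟨w (), (hev z w).symm.trans hw⟩,
      fun ⟨a, ha⟩ => ⟨fun _ => a, trivial, (hev z _).trans ha⟩⟩

end Crest.Agent.N265
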